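import Vale.Agent.Lib.P329.Code4

/-!
The certificates for the scattered subword counts of length four modulo an odd prime, computed by a
separate program.  Each entry says that `k` times a word is an integer combination of known
statistics.
-/

namespace Vale.Agent.Lib.P329

/-- The table of certificates. -/
def certTable : List (ℤ × List (Fin 5) × List (ℤ × Code (Fin 5))) := [
  (1, [0, 0, 0, 0], [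
    (1, .F 0 [0])]),
  (1, [0, 0, 0, 1], [
    (4, .PP [1] [0, 0, 0]),
    (-1, .PP [0, 0] [0, 1]),
    (-1, .PP [0] [0, 1, 0]),
    (-1, .PP [0] [1, 0, 0]),
    (-1, .F 1 [0]),
    (2, .W [0, 0, 1]),
    (3, .W [0, 1, 0]),
    (2, .W [1, 0, 0])]),
  (1, [0, 0, 0, 2], [
    (4, .PP [2] [0, 0, 0]),
    (-1, .PP [0, 0] [0, 2]),
    (-1, .PP [0] [0, 2, 0]),
    (-1, .PP [0] [2, 0, 0]),
    (-1, .F 2 [0]),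
    (2, .W [0, 0, 2]),
    (3, .W [0, 2, 0]),
    (2, .W [2, 0, 0])]),
  (1, [0, 0, 0, 3], [
    (4, .PP [3] [0, 0, 0]),
    (-1, .PP [0, 0] [0, 3]),
    (-1, .PP [0] [0, 3, 0]),
    (-1, .PP [0] [3, 0, 0]),
    (-1, .F 3 [0]),
    (2, .W [0, 0, 3]),
    (3, .W [0, 3, 0]),
    (2, .W [3, 0, 0])]),
  (1, [0, 0, 1, 0], [
    (1, .PP [0, 0] [0, 1]),
    (-3, .PP [1] [0, 0, 0]),
    (1, .PP [0] [0, 1, 0]),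
    (3, .F 1 [0]),
    (-2, .W [0, 0, 1]),
    (-3, .W [0, 1, 0])]),
  (1, [0, 0, 1, 1], [
    (2, .PP [0, 0] [1, 1]),
    (-1, .PP [0] [1, 0, 1]),
    (-1, .F 0 [0, 1]),
    (1, .F 0 [0]),
    (1, .PP [1] [0, 0, 0]),
    (-1, .F 1 [0]),
    (-1, .PP [0] [1, 1, 0]),
    (1, .F 0 [1]),
    (1, .W [1, 0, 1]),
    (1, .W [1, 1, 0])]),
  (1, [0, 0, 1, 2], [
    (1, .PP [1] [0, 0, 2]),
    (-1, .PP [0, 0] [1, 2]),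
    (-1, .PP [0] [0, 2, 1]),
    (1, .PP [0] [1, 2, 0]),
    (1, .PP [0] [2, 1, 0]),
    (-1, .PP [1] [2, 0, 0]),
    (1, .F 1 [0, 2]),
    (-1, .F 1 [0]),
    (-1, .F 1 [0, 1, 2]),
    (1, .PP [0] [1, 1, 2]),
    (1, .PP [0] [1, 2, 1]),
    (-1, .F 0 [0, 1]),
    (1, .F 0 [0]),
    (1, .PP [1] [0, 0, 0]),
    (1, .PP [0, 0] [1, 1]),
    (1, .PP [0] [1, 1, 1]),
    (1, .Fa 2 0 [0, 1]),
    (1, .PP [2] [0, 0, 1]),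
    (-1, .PP [2] [0, 1, 1]),
    (-1, .F 2 [0, 1]),
    (1, .PP [0] [2, 1, 1]),
    (1, .F 1 [1, 2]),
    (1, .F 2 [1]),
    (-1, .F 1 [2]),
    (1, .W [0, 2, 1]),
    (-1, .W [1, 2, 0]),
    (-1, .W [2, 1, 0])]),
  (1, [0, 0, 1, 3], [
    (1, .PP [1] [0, 0, 3]),
    (-1, .PP [0, 0] [1, 3]),
    (-1, .PP [0] [0, 3, 1]),
    (1, .PP [0] [1, 3, 0]),
    (1, .PP [0] [3, 1, 0]),
    (-1, .PP [1] [3, 0, 0]),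
    (1, .F 1 [0, 3]),
    (-1, .F 1 [0]),
    (-1, .F 1 [0, 1, 3]),
    (1, .PP [0] [1, 1, 3]),
    (1, .PP [0] [1, 3, 1]),
    (-1, .F 0 [0, 1]),
    (1, .F 0 [0]),
    (1, .PP [1] [0, 0, 0]),
    (1, .PP [0, 0] [1, 1]),
    (1, .PP [0] [1, 1, 1]),
    (1, .Fa 3 0 [0, 1]),
    (1, .PP [3] [0, 0, 1]),
    (-1, .PP [3] [0, 1, 1]),
    (-1, .F 3 [0, 1]),
    (1, .PP [0] [3, 1, 1]),
    (1, .F 1 [1, 3]),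
    (1, .F 3 [1]),
    (-1, .F 1 [3]),
    (1, .W [0, 3, 1]),
    (-1, .W [1, 3, 0]),
    (-1, .W [3, 1, 0])]),
  (1, [0, 0, 2, 0], [
    (1, .PP [0, 0] [0, 2]),
    (-3, .PP [2] [0, 0, 0]),
    (1, .PP [0] [0, 2, 0]),
    (3, .F 2 [0]),
    (-2, .W [0, 0, 2]),
    (-3, .W [0, 2, 0])]),
  (1, [0, 0, 2, 1], [
    (1, .PP [0, 0] [1, 2]),
    (1, .PP [0] [0, 2, 1]),
    (-2, .PP [0] [1, 2, 0]),
    (-2, .PP [0] [2, 1, 0]),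
    (4, .PP [1] [2, 0, 0]),
    (1, .Fa 1 0 [0, 2]),
    (-1, .PP [1] [0, 2, 2]),
    (-3, .PP [1] [0, 0, 2]),
    (-3, .PP [0] [2, 0, 1]),
    (1, .F 0 [0, 1, 2]),
    (-2, .F 0 [0, 1]),
    (-1, .F 1 [0]),
    (1, .F 0 [1]),
    (-1, .F 0 [0, 2]),
    (2, .F 0 [0]),
    (-1, .F 2 [0]),
    (-1, .Fa 0 1 [1, 2]),
    (-1, .F 1 [0, 1, 2]),
    (1, .PP [0] [1, 1, 2]),
    (1, .PP [0] [1, 2, 1]),
    (1, .PP [1] [0, 0, 0]),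
    (1, .PP [0, 0] [1, 1]),
    (1, .PP [0] [1, 1, 1]),
    (1, .Fa 2 0 [0, 1]),
    (1, .PP [2] [0, 0, 1]),
    (1, .PP [0] [1, 0, 2]),
    (-1, .PP [2] [0, 1, 1]),
    (1, .PP [0] [1, 2, 2]),
    (1, .F 1 [1, 2]),
    (-1, .W [0, 2, 1]),
    (-1, .W [1, 0, 2]),
    (2, .W [1, 2, 0]),
    (3, .W [2, 0, 1]),
    (2, .W [2, 1, 0])]),
  (1, [0, 0, 2, 2], [
    (2, .PP [0, 0] [2, 2]),
    (-1, .PP [0] [2, 0, 2]),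
    (-1, .F 0 [0, 2]),
    (1, .F 0 [0]),
    (1, .PP [2] [0, 0, 0]),
    (-1, .F 2 [0]),
    (-1, .PP [0] [2, 2, 0]),
    (1, .F 0 [2]),
    (1, .W [2, 0, 2]),
    (1, .W [2, 2, 0])]),
  (1, [0, 0, 2, 3], [
    (1, .PP [2] [0, 0, 3]),
    (-1, .PP [0, 0] [2, 3]),
    (-1, .PP [0] [0, 3, 2]),
    (1, .PP [0] [2, 3, 0]),
    (1, .PP [0] [3, 2, 0]),
    (-1, .PP [2] [3, 0, 0]),
    (1, .F 2 [0, 3]),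
    (-1, .F 2 [0]),
    (-1, .F 2 [0, 2, 3]),
    (1, .PP [0] [2, 2, 3]),
    (1, .PP [0] [2, 3, 2]),
    (-1, .F 0 [0, 2]),
    (1, .F 0 [0]),
    (1, .PP [2] [0, 0, 0]),
    (1, .PP [0, 0] [2, 2]),
    (1, .PP [0] [2, 2, 2]),
    (1, .Fa 3 0 [0, 2]),
    (1, .PP [3] [0, 0, 2]),
    (-1, .PP [3] [0, 2, 2]),
    (-1, .F 3 [0, 2]),
    (1, .PP [0] [3, 2, 2]),
    (1, .F 2 [2, 3]),
    (1, .F 3 [2]),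
    (-1, .F 2 [3]),
    (1, .W [0, 3, 2]),
    (-1, .W [2, 3, 0]),
    (-1, .W [3, 2, 0])]),
  (1, [0, 1, 0, 0], [
    (1, .PP [0] [1, 0, 0]),
    (-3, .F 1 [0]),
    (-2, .W [1, 0, 0])]),
  (2, [0, 1, 0, 1], [
    (4, .PP [0] [1, 0, 1]),
    (1, .PP [0, 1] [0, 1]),
    (-8, .PP [0, 0] [1, 1]),
    (4, .F 0 [0, 1]),
    (-4, .F 0 [0]),
    (-4, .PP [1] [0, 0, 0]),
    (4, .F 1 [0]),
    (4, .PP [0] [1, 1, 0]),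
    (-4, .F 0 [1]),
    (-2, .W [0, 0, 1]),
    (-2, .W [0, 1, 1]),
    (-4, .W [1, 0, 1]),
    (-4, .W [1, 1, 0]),
    (-1, .W [0, 1])]),
  (2, [0, 1, 0, 2], [
    (-1, .Fb 1 0 [0, 2]),
    (10, .F 1 [0]),
    (-7, .PP [0] [1, 0, 2]),
    (3, .PP [1] [0, 2, 2]),
    (-4, .F 1 [0, 2]),
    (-6, .PP [0] [1, 2, 2]),
    (1, .Fb 2 0 [0, 1]),
    (3, .F 2 [0]),
    (-3, .Fa 1 0 [0, 2]),
    (14, .PP [1] [0, 0, 2]),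
    (15, .PP [0] [2, 0, 1]),
    (1, .PP [0, 1] [0, 2]),
    (-17, .PP [1] [2, 0, 0]),
    (3, .F 0 [1, 2]),
    (-1, .Fb 0 1 [1, 2]),
    (-1, .PP [1] [0, 1, 2]),
    (1, .PP [0, 1] [1, 2]),
    (-1, .PP [1] [2, 0, 1]),
    (-1, .PP [1] [0, 2, 1]),
    (1, .PP [0, 2] [1, 2]),
    (-6, .F 0 [0, 1, 2]),
    (6, .PP [0] [1, 2, 0]),
    (6, .PP [0] [2, 1, 0]),
    (16, .F 0 [0, 1]),
    (-6, .F 0 [1]),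
    (6, .F 0 [0, 2]),
    (-16, .F 0 [0]),
    (4, .F 2 [0, 1]),
    (6, .Fa 0 1 [1, 2]),
    (-4, .PP [0] [2, 1, 1]),
    (-4, .F 2 [1]),
    (10, .F 1 [0, 1, 2]),
    (-10, .PP [0] [1, 1, 2]),
    (-10, .PP [0] [1, 2, 1]),
    (-10, .PP [1] [0, 0, 0]),
    (-10, .PP [0, 0] [1, 1]),
    (-10, .PP [0] [1, 1, 1]),
    (-10, .Fa 2 0 [0, 1]),
    (-10, .PP [2] [0, 0, 1]),
    (10, .PP [2] [0, 1, 1]),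
    (-10, .F 1 [1, 2]),
    (-3, .F 0 [2]),
    (4, .F 1 [2]),
    (2, .W [0, 1, 1]),
    (2, .W [1, 0, 0]),
    (8, .W [1, 0, 2]),
    (-6, .W [1, 2, 0]),
    (-2, .W [2, 0, 0]),
    (-16, .W [2, 0, 1]),
    (-6, .W [2, 1, 0])]),
  (2, [0, 1, 0, 3], [
    (-1, .Fb 1 0 [0, 3]),
    (10, .F 1 [0]),
    (-7, .PP [0] [1, 0, 3]),
    (3, .PP [1] [0, 3, 3]),
    (-4, .F 1 [0, 3]),
    (-6, .PP [0] [1, 3, 3]),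
    (1, .Fb 3 0 [0, 1]),
    (3, .F 3 [0]),
    (-3, .Fa 1 0 [0, 3]),
    (14, .PP [1] [0, 0, 3]),
    (15, .PP [0] [3, 0, 1]),
    (1, .PP [0, 1] [0, 3]),
    (-17, .PP [1] [3, 0, 0]),
    (3, .F 0 [1, 3]),
    (-1, .Fb 0 1 [1, 3]),
    (-1, .PP [1] [0, 1, 3]),
    (1, .PP [0, 1] [1, 3]),
    (-1, .PP [1] [3, 0, 1]),
    (-1, .PP [1] [0, 3, 1]),
    (1, .PP [0, 3] [1, 3]),
    (-6, .F 0 [0, 1, 3]),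
    (6, .PP [0] [1, 3, 0]),
    (6, .PP [0] [3, 1, 0]),
    (16, .F 0 [0, 1]),
    (-6, .F 0 [1]),
    (6, .F 0 [0, 3]),
    (-16, .F 0 [0]),
    (4, .F 3 [0, 1]),
    (6, .Fa 0 1 [1, 3]),
    (-4, .PP [0] [3, 1, 1]),
    (-4, .F 3 [1]),
    (10, .F 1 [0, 1, 3]),
    (-10, .PP [0] [1, 1, 3]),
    (-10, .PP [0] [1, 3, 1]),
    (-10, .PP [1] [0, 0, 0]),
    (-10, .PP [0, 0] [1, 1]),
    (-10, .PP [0] [1, 1, 1]),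
    (-10, .Fa 3 0 [0, 1]),
    (-10, .PP [3] [0, 0, 1]),
    (10, .PP [3] [0, 1, 1]),
    (-10, .F 1 [1, 3]),
    (-3, .F 0 [3]),
    (4, .F 1 [3]),
    (2, .W [0, 1, 1]),
    (2, .W [1, 0, 0]),
    (8, .W [1, 0, 3]),
    (-6, .W [1, 3, 0]),
    (-2, .W [3, 0, 0]),
    (-16, .W [3, 0, 1]),
    (-6, .W [3, 1, 0])]),
  (2, [0, 1, 1, 0], [
    (-2, .PP [0] [1, 1, 0]),
    (-1, .PP [0, 1] [0, 1]),
    (4, .PP [0, 0] [1, 1]),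
    (-2, .PP [0] [1, 0, 1]),
    (2, .W [0, 0, 1]),
    (2, .W [0, 1, 1]),
    (2, .W [1, 0, 1]),
    (2, .W [1, 1, 0]),
    (1, .W [0, 1])]),
  (1, [0, 1, 1, 1], [
    (1, .F 0 [1])]),
  (2, [0, 1, 1, 2], [
    (1, .Fb 0 1 [1, 2]),
    (-6, .F 0 [1]),
    (1, .F 0 [1, 2]),
    (-1, .PP [0, 2] [1, 2]),
    (3, .PP [1] [0, 2, 2]),
    (2, .Fa 0 1 [1, 2]),
    (1, .Fb 2 0 [0, 1]),
    (1, .F 2 [0]),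
    (-3, .Fa 1 0 [0, 2]),
    (8, .PP [1] [0, 0, 2]),
    (-5, .PP [0] [1, 0, 2]),
    (9, .PP [0] [2, 0, 1]),
    (1, .Fb 1 0 [0, 2]),
    (1, .PP [0, 1] [0, 2]),
    (-11, .PP [1] [2, 0, 0]),
    (-1, .PP [1] [0, 1, 2]),
    (1, .PP [0, 1] [1, 2]),
    (-1, .PP [1] [2, 0, 1]),
    (-1, .PP [1] [0, 2, 1]),
    (-4, .F 0 [0, 1, 2]),
    (4, .PP [0] [1, 2, 0]),
    (4, .PP [0] [2, 1, 0]),
    (10, .F 0 [0, 1]),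
    (4, .F 1 [0]),
    (4, .F 0 [0, 2]),
    (-10, .F 0 [0]),
    (2, .F 2 [0, 1]),
    (-4, .F 1 [0, 2]),
    (-2, .PP [0] [1, 2, 2]),
    (-2, .PP [0] [2, 1, 1]),
    (-2, .F 2 [1]),
    (6, .F 1 [0, 1, 2]),
    (-6, .PP [0] [1, 1, 2]),
    (-6, .PP [0] [1, 2, 1]),
    (-6, .PP [1] [0, 0, 0]),
    (-6, .PP [0, 0] [1, 1]),
    (-6, .PP [0] [1, 1, 1]),
    (-6, .Fa 2 0 [0, 1]),
    (-6, .PP [2] [0, 0, 1]),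
    (6, .PP [2] [0, 1, 1]),
    (-6, .F 1 [1, 2]),
    (-1, .F 0 [2]),
    (4, .F 1 [2]),
    (-2, .W [0, 1, 1]),
    (-2, .W [0, 1, 2]),
    (-2, .W [1, 0, 0]),
    (4, .W [1, 0, 2]),
    (-4, .W [1, 2, 0]),
    (-2, .W [2, 0, 0]),
    (-10, .W [2, 0, 1]),
    (-4, .W [2, 1, 0])]),
  (2, [0, 1, 1, 3], [
    (1, .Fb 0 1 [1, 3]),
    (-6, .F 0 [1]),
    (1, .F 0 [1, 3]),
    (-1, .PP [0, 3] [1, 3]),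
    (3, .PP [1] [0, 3, 3]),
    (2, .Fa 0 1 [1, 3]),
    (1, .Fb 3 0 [0, 1]),
    (1, .F 3 [0]),
    (-3, .Fa 1 0 [0, 3]),
    (8, .PP [1] [0, 0, 3]),
    (-5, .PP [0] [1, 0, 3]),
    (9, .PP [0] [3, 0, 1]),
    (1, .Fb 1 0 [0, 3]),
    (1, .PP [0, 1] [0, 3]),
    (-11, .PP [1] [3, 0, 0]),
    (-1, .PP [1] [0, 1, 3]),
    (1, .PP [0, 1] [1, 3]),
    (-1, .PP [1] [3, 0, 1]),
    (-1, .PP [1] [0, 3, 1]),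
    (-4, .F 0 [0, 1, 3]),
    (4, .PP [0] [1, 3, 0]),
    (4, .PP [0] [3, 1, 0]),
    (10, .F 0 [0, 1]),
    (4, .F 1 [0]),
    (4, .F 0 [0, 3]),
    (-10, .F 0 [0]),
    (2, .F 3 [0, 1]),
    (-4, .F 1 [0, 3]),
    (-2, .PP [0] [1, 3, 3]),
    (-2, .PP [0] [3, 1, 1]),
    (-2, .F 3 [1]),
    (6, .F 1 [0, 1, 3]),
    (-6, .PP [0] [1, 1, 3]),
    (-6, .PP [0] [1, 3, 1]),
    (-6, .PP [1] [0, 0, 0]),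
    (-6, .PP [0, 0] [1, 1]),
    (-6, .PP [0] [1, 1, 1]),
    (-6, .Fa 3 0 [0, 1]),
    (-6, .PP [3] [0, 0, 1]),
    (6, .PP [3] [0, 1, 1]),
    (-6, .F 1 [1, 3]),
    (-1, .F 0 [3]),
    (4, .F 1 [3]),
    (-2, .W [0, 1, 1]),
    (-2, .W [0, 1, 3]),
    (-2, .W [1, 0, 0]),
    (4, .W [1, 0, 3]),
    (-4, .W [1, 3, 0]),
    (-2, .W [3, 0, 0]),
    (-10, .W [3, 0, 1]),
    (-4, .W [3, 1, 0])]),
  (2, [0, 1, 2, 0], [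
    (-4, .PP [0] [1, 2, 0]),
    (1, .Fb 1 0 [0, 2]),
    (-3, .PP [1] [0, 2, 2]),
    (-1, .Fb 2 0 [0, 1]),
    (-3, .F 2 [0]),
    (3, .Fa 1 0 [0, 2]),
    (-10, .PP [1] [0, 0, 2]),
    (5, .PP [0] [1, 0, 2]),
    (-11, .PP [0] [2, 0, 1]),
    (-1, .PP [0, 1] [0, 2]),
    (13, .PP [1] [2, 0, 0]),
    (-3, .F 0 [1, 2]),
    (1, .Fb 0 1 [1, 2]),
    (1, .PP [1] [0, 1, 2]),
    (-1, .PP [0, 1] [1, 2]),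
    (1, .PP [1] [2, 0, 1]),
    (1, .PP [1] [0, 2, 1]),
    (-1, .PP [0, 2] [1, 2]),
    (6, .F 0 [0, 1, 2]),
    (-6, .PP [0] [2, 1, 0]),
    (-12, .F 0 [0, 1]),
    (-6, .F 1 [0]),
    (6, .F 0 [1]),
    (-6, .F 0 [0, 2]),
    (12, .F 0 [0]),
    (-6, .Fa 0 1 [1, 2]),
    (-6, .F 1 [0, 1, 2]),
    (6, .PP [0] [1, 1, 2]),
    (6, .PP [0] [1, 2, 1]),
    (6, .PP [1] [0, 0, 0]),
    (6, .PP [0, 0] [1, 1]),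
    (6, .PP [0] [1, 1, 1]),
    (6, .Fa 2 0 [0, 1]),
    (6, .PP [2] [0, 0, 1]),
    (-6, .PP [2] [0, 1, 1]),
    (6, .PP [0] [1, 2, 2]),
    (6, .F 1 [1, 2]),
    (3, .F 0 [2]),
    (-2, .W [0, 1, 1]),
    (-2, .W [1, 0, 0]),
    (-6, .W [1, 0, 2]),
    (4, .W [1, 2, 0]),
    (2, .W [2, 0, 0]),
    (12, .W [2, 0, 1]),
    (6, .W [2, 1, 0])]),
  (2, [0, 1, 2, 1], [
    (-1, .Fb 0 1 [1, 2]),
    (-1, .F 0 [1, 2]),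
    (1, .PP [0, 2] [1, 2]),
    (-3, .PP [1] [0, 2, 2]),
    (-1, .Fb 2 0 [0, 1]),
    (-1, .F 2 [0]),
    (3, .Fa 1 0 [0, 2]),
    (-6, .PP [1] [0, 0, 2]),
    (3, .PP [0] [1, 0, 2]),
    (-7, .PP [0] [2, 0, 1]),
    (-1, .Fb 1 0 [0, 2]),
    (-1, .PP [0, 1] [0, 2]),
    (9, .PP [1] [2, 0, 0]),
    (1, .PP [1] [0, 1, 2]),
    (-1, .PP [0, 1] [1, 2]),
    (1, .PP [1] [2, 0, 1]),
    (1, .PP [1] [0, 2, 1]),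
    (4, .F 0 [0, 1, 2]),
    (-4, .PP [0] [1, 2, 0]),
    (-4, .PP [0] [2, 1, 0]),
    (-8, .F 0 [0, 1]),
    (-4, .F 1 [0]),
    (4, .F 0 [1]),
    (-4, .F 0 [0, 2]),
    (8, .F 0 [0]),
    (4, .F 1 [0, 2]),
    (-4, .F 1 [0, 1, 2]),
    (4, .PP [0] [1, 1, 2]),
    (4, .PP [0] [1, 2, 1]),
    (4, .PP [1] [0, 0, 0]),
    (4, .PP [0, 0] [1, 1]),
    (4, .PP [0] [1, 1, 1]),
    (4, .Fa 2 0 [0, 1]),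
    (4, .PP [2] [0, 0, 1]),
    (-4, .PP [2] [0, 1, 1]),
    (4, .F 1 [1, 2]),
    (1, .F 0 [2]),
    (-4, .F 1 [2]),
    (2, .W [0, 1, 1]),
    (2, .W [0, 1, 2]),
    (2, .W [1, 0, 0]),
    (-2, .W [1, 0, 2]),
    (4, .W [1, 2, 0]),
    (2, .W [2, 0, 0]),
    (8, .W [2, 0, 1]),
    (4, .W [2, 1, 0])]),
  (1, [0, 1, 2, 2], [
    (-1, .F 1 [0, 1, 2]),
    (1, .PP [0] [1, 1, 2]),
    (1, .PP [0] [1, 2, 1]),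
    (-1, .F 0 [0, 1]),
    (1, .F 0 [0]),
    (1, .PP [1] [0, 0, 0]),
    (1, .PP [0, 0] [1, 1]),
    (1, .PP [0] [1, 1, 1]),
    (1, .Fa 2 0 [0, 1]),
    (1, .PP [2] [0, 0, 1]),
    (-1, .PP [1] [0, 0, 2]),
    (1, .PP [0] [1, 0, 2]),
    (-1, .PP [0] [2, 0, 1]),
    (-1, .PP [2] [0, 1, 1]),
    (-1, .F 2 [0, 1]),
    (1, .PP [0] [1, 2, 2]),
    (1, .PP [1] [2, 0, 0]),
    (1, .PP [0] [2, 1, 1]),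
    (1, .F 1 [1, 2]),
    (1, .F 2 [1]),
    (-1, .W [1, 0, 2]),
    (1, .W [2, 0, 1])]),
  (2, [0, 1, 2, 3], [
    (-1, .Fb 1 2 [0, 2, 3]),
    (2, .PP [0] [1, 2, 3]),
    (1, .PP [0] [1, 3, 2]),
    (-1, .Fb 1 0 [0, 2]),
    (3, .F 1 [0, 2]),
    (1, .Fb 0 2 [1, 2, 3]),
    (-1, .F 0 [1, 2]),
    (1, .Fb 0 1 [1, 2, 3]),
    (-1, .PP [0, 2] [1, 3]),
    (-1, .F 0 [1, 2, 3]),
    (-1, .Fa 0 1 [1, 2, 3]),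
    (-1, .Fb 0 1 [1, 3]),
    (1, .F 0 [1]),
    (1, .F 0 [1, 3]),
    (1, .Fa 0 1 [1, 3]),
    (-3, .F 1 [2]),
    (-1, .Fa 0 2 [1, 2, 3]),
    (-1, .Fb 0 2 [2, 3]),
    (1, .F 0 [2]),
    (1, .F 0 [2, 3]),
    (1, .Fa 0 2 [2, 3]),
    (1, .Fb 1 2 [2, 3]),
    (-1, .F 0 [3]),
    (-2, .W [0, 1, 2]),
    (-2, .W [0, 2, 1]),
    (2, .W [1, 0, 0]),
    (2, .W [1, 0, 2]),
    (2, .W [1, 2, 0])])
]

theorem certTable_ok : ∀ t ∈ certTable, checkCert t.1 t.2.1 t.2.2 = true := by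
  decide +kernel

end Vale.Agent.Lib.P329
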