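import Vale.Agent.Lib.P329.Code5

/-!
The certificates for the scattered subword counts of length five modulo a prime `p ≥ 5`, computed by a
separate program.  Each entry says that `k` times a word is an integer combination of known
statistics, up to words of length at most four and words with fewer distinct letters.
-/

namespace Vale.Agent.Lib.P329


/-- A certificate. -/
def c5e0 : ℤ × List (Fin 6) × List (ℤ × Code5 (Fin 6)) :=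
  (1, [0, 0, 0, 0, 0], [
    (1, .Ar [0] 4 [])])

theorem c5e0_ok : checkCert5 Fin.val c5e0.1 c5e0.2.1 c5e0.2.2 = true := by
  decide +kernel

/-- A certificate. -/
def c5e1 : ℤ × List (Fin 6) × List (ℤ × Code5 (Fin 6)) :=
  (1, [0, 0, 0, 0, 4], [
    (-9, .PP [4] [0, 0, 0, 0]),
    (1, .PP [0, 4] [0, 0, 0]),
    (1, .PP [0, 0] [0, 0, 4]),
    (1, .PP [0] [0, 0, 4, 0]),
    (2, .PP [0] [0, 4, 0, 0]),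
    (2, .PP [0] [4, 0, 0, 0]),
    (1, .Nt 4 [0] 4 [])])

theorem c5e1_ok : checkCert5 Fin.val c5e1.1 c5e1.2.1 c5e1.2.2 = true := by
  decide +kernel

/-- A certificate. -/
def c5e2 : ℤ × List (Fin 6) × List (ℤ × Code5 (Fin 6)) :=
  (1, [0, 0, 0, 3, 0], [
    (-1, .PP [0, 3] [0, 0, 0]),
    (16, .PP [3] [0, 0, 0, 0]),
    (-2, .PP [0, 0] [0, 0, 3]),
    (-2, .PP [0] [0, 0, 3, 0]),
    (-4, .PP [0] [0, 3, 0, 0]),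
    (-3, .PP [0] [3, 0, 0, 0]),
    (-4, .Nt 3 [0] 4 [])])

theorem c5e2_ok : checkCert5 Fin.val c5e2.1 c5e2.2.1 c5e2.2.2 = true := by
  decide +kernel

/-- A certificate. -/
def c5e3 : ℤ × List (Fin 6) × List (ℤ × Code5 (Fin 6)) :=
  (2, [0, 0, 0, 3, 3], [
    (394, .PP [3] [0, 0, 0, 3]),
    (-164, .PP [0, 0] [0, 3, 3]),
    (164, .PP [0] [0, 3, 3, 0]),
    (-210, .PP [0] [3, 0, 0, 3]),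
    (-168, .PP [0] [3, 3, 0, 0]),
    (465, .PP [3] [3, 0, 0, 0]),
    (2, .Ar [0, 3] 0 [(3, 0), (3, 2)]),
    (-2, .PP [0] [3, 0, 3, 0]),
    (-4604, .PP [0] [3, 0, 3, 3]),
    (-1505, .PP [0] [3, 3, 0, 3]),
    (4513, .PP [0] [3, 3, 3, 0]),
    (-342, .PP [0] [3, 3, 3, 3]),
    (822, .PP [3, 3] [0, 0, 3]),
    (2257, .PP [3] [0, 0, 3, 3]),
    (-4855, .PP [0] [0, 3, 3, 3]),
    (2598, .PP [3] [3, 0, 0, 3]),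
    (20, .Ar [0, 3] 0 [(0, 0), (0, 2)]),
    (197, .PP [3] [0, 0, 0, 0]),
    (20, .PP [0, 0] [0, 0, 3]),
    (20, .PP [0] [0, 0, 3, 0]),
    (40, .PP [0] [0, 3, 0, 0]),
    (-91, .PP [0] [0, 0, 3, 3]),
    (131, .PP [0] [3, 0, 0, 0]),
    (-1004, .Nt 3 [0] 4 []),
    (11, .Ar [0, 3] 0 [(0, 0), (0, 0), (0, 1)]),
    (-22, .PP [0, 3] [0, 0, 0]),
    (-22, .PP [0, 3] [0, 0, 3]),
    (2598, .PP [3] [0, 3, 0, 3]),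
    (22, .PP [0, 3] [0, 3, 3]),
    (71, .Ar [0, 3] 0 [(0, 3)]),
    (-71, .Ar [0, 3] 0 [(0, 0), (0, 0), (0, 0), (3, 0)]),
    (-3010, .PP [3] [3, 3, 0, 0]),
    (11, .Ar [0, 3] 0 [(3, 0), (3, 0), (3, 1)]),
    (235, .PP [0, 3] [3, 3, 3]),
    (-140, .PP [3, 3] [0, 3, 3]),
    (45, .Ar [0, 3] 0 [(0, 0), (3, 0), (3, 0), (3, 0)]),
    (-71, .PP [3] [3, 3, 0, 3]),
    (-71, .PP [3] [3, 0, 3, 3]),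
    (-71, .PP [3] [0, 3, 3, 3]),
    (386, .Nt 0 [3] 4 [])])

theorem c5e3_ok : checkCert5 Fin.val c5e3.1 c5e3.2.1 c5e3.2.2 = true := by
  decide +kernel

/-- A certificate. -/
def c5e4 : ℤ × List (Fin 6) × List (ℤ × Code5 (Fin 6)) :=
  (1, [0, 0, 0, 3, 4], [
    (12, .PP [4] [0, 0, 0, 3]),
    (-10, .PP [3] [0, 0, 0, 4]),
    (7, .PP [0] [0, 3, 0, 4]),
    (3, .PP [0] [0, 0, 3, 4]),
    (6, .PP [0, 0] [0, 4, 3]),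
    (-3, .PP [0, 0] [0, 3, 4]),
    (-3, .PP [0] [0, 4, 3, 0]),
    (-3, .PP [0] [3, 0, 4, 0]),
    (5, .PP [0] [4, 0, 3, 0]),
    (-4, .PP [4] [0, 3, 0, 0]),
    (3, .PP [0] [3, 0, 0, 4]),
    (4, .PP [0] [3, 4, 0, 0]),
    (4, .PP [0] [4, 3, 0, 0]),
    (-8, .PP [0] [0, 4, 0, 3]),
    (-12, .PP [3] [4, 0, 0, 0]),
    (-1, .PP [0] [4, 0, 0, 3]),
    (-2, .Mrg 0 3 [0, 0, 0, 0, 4]),
    (2, .PP [4] [0, 0, 3, 3]),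
    (-4, .PP [0, 0] [3, 3, 4]),
    (2, .PP [4] [3, 3, 0, 0]),
    (2, .PP [0, 4] [3, 3, 3]),
    (2, .PP [3, 3] [0, 0, 4]),
    (-5, .PP [3] [0, 0, 4, 3]),
    (2, .PP [0] [3, 4, 0, 3]),
    (2, .PP [3, 3] [0, 4, 3]),
    (-2, .PP [3] [3, 0, 4, 3]),
    (-2, .PP [3] [0, 3, 4, 3]),
    (-2, .PP [3] [0, 4, 3, 3]),
    (-3, .PP [3] [4, 0, 0, 3]),
    (1, .PP [0] [0, 4, 3, 3]),
    (-1, .PP [0] [4, 3, 3, 0]),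
    (-3, .PP [3] [0, 4, 0, 3]),
    (4, .Mrg 0 4 [0, 0, 0, 3, 3]),
    (-1, .PP [3] [0, 0, 3, 4]),
    (1, .PP [0] [0, 3, 3, 4]),
    (1, .PP [0] [3, 0, 3, 4]),
    (1, .PP [0] [4, 3, 0, 3]),
    (3, .Mrg 0 4 [0, 0, 3, 3, 3]),
    (-5, .PP [4] [0, 4, 3, 3]),
    (-1, .PP [4] [4, 0, 3, 3]),
    (-1, .Nt 0 [3, 4] 0 [(3, 0), (3, 1), (4, 0)]),
    (-1, .PP [4] [0, 3, 3, 4]),
    (4, .Mrg 3 4 [0, 0, 3, 3, 3]),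
    (4, .Mrg 3 4 [0, 0, 0, 3, 3]),
    (2, .PP [4] [3, 4, 0, 0]),
    (4, .PP [3] [4, 0, 0, 4]),
    (5, .PP [3] [0, 4, 0, 4]),
    (-5, .PP [0] [0, 3, 4, 4]),
    (2, .PP [3] [0, 0, 4, 4]),
    (-4, .PP [0] [3, 0, 4, 4]),
    (-1, .PP [0] [3, 4, 4, 0]),
    (-2, .PP [0] [4, 3, 0, 4]),
    (5, .PP [4] [0, 0, 4, 3]),
    (-5, .PP [0] [3, 4, 0, 4]),
    (-2, .PP [0] [4, 0, 3, 4]),
    (-2, .PP [0] [0, 4, 3, 4]),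
    (2, .PP [0] [4, 3, 4, 0]),
    (1, .PP [4] [3, 4, 0, 3]),
    (-1, .PP [3] [4, 4, 0, 3]),
    (-1, .Nt 3 [0, 4] 0 [(0, 0), (0, 1), (4, 0)]),
    (-3, .PP [0] [4, 0, 4, 3]),
    (-3, .PP [0] [0, 4, 4, 3]),
    (3, .PP [0] [4, 4, 3, 0]),
    (3, .PP [3, 4] [0, 0, 0]),
    (-6, .PP [0] [0, 0, 4, 3]),
    (1, .Nt 4 [0, 3] 0 [(0, 0), (0, 1), (3, 0)]),
    (1, .Nt 3 [0, 4] 0 [(0, 0), (0, 2)]),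
    (-1, .PP [0, 3] [0, 0, 4]),
    (1, .Mrg 3 4 [0, 0, 3, 0, 3]),
    (-1, .PP [0, 4] [0, 0, 3]),
    (1, .Nt 4 [0, 3] 0 [(0, 0), (0, 0), (0, 1)]),
    (1, .Mrg 3 4 [0, 3, 0, 3, 3]),
    (1, .PP [4] [0, 3, 0, 3]),
    (-1, .PP [0, 3] [0, 4, 3]),
    (-1, .PP [0, 3] [0, 3, 4]),
    (-1, .Mrg 0 3 [0, 0, 4, 0, 4]),
    (1, .PP [3, 4] [0, 0, 4]),
    (-1, .PP [0, 4] [0, 4, 3]),
    (-1, .PP [0, 4] [0, 3, 4]),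
    (-2, .PP [3] [3, 4, 0, 0]),
    (2, .PP [3] [3, 0, 0, 4]),
    (-1, .PP [0] [3, 3, 0, 4]),
    (3, .PP [0] [3, 3, 4, 0]),
    (2, .PP [3] [0, 3, 0, 4]),
    (1, .Mrg 0 4 [0, 0, 3, 0, 3]),
    (1, .PP [3, 4] [0, 0, 3]),
    (-1, .Nt 4 [0, 3] 0 [(0, 1), (0, 1)]),
    (1, .Nt 4 [0, 3] 0 [(3, 0), (3, 2)]),
    (-2, .PP [0] [4, 3, 3, 3]),
    (1, .Nt 0 [3, 4] 0 [(3, 0), (3, 2)]),
    (-1, .PP [0, 3] [3, 4, 4]),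
    (1, .Mrg 0 4 [0, 3, 0, 3, 3]),
    (-1, .Nt 0 [3, 4] 0 [(4, 0), (4, 2)]),
    (1, .PP [0, 4] [3, 3, 4]),
    (-1, .Nt 3 [0, 4] 0 [(4, 0), (4, 2)]),
    (3, .PP [0] [3, 4, 4, 4]),
    (3, .PP [3] [0, 4, 4, 4]),
    (6, .PP [0, 0] [3, 4, 4]),
    (2, .PP [4] [3, 3, 0, 4]),
    (-2, .PP [4] [0, 3, 4, 3]),
    (-3, .PP [3] [3, 0, 4, 4]),
    (-1, .PP [3] [3, 4, 0, 4]),
    (4, .PP [3] [0, 4, 3, 4]),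
    (4, .PP [3] [0, 4, 4, 3]),
    (1, .PP [3] [4, 0, 3, 4]),
    (-1, .PP [3] [4, 3, 0, 4]),
    (-6, .PP [3] [4, 4, 0, 0]),
    (1, .PP [3] [4, 0, 4, 3]),
    (-1, .Mrg 0 3 [0, 4, 0, 4, 4]),
    (3, .PP [4] [0, 0, 3, 4]),
    (3, .PP [0] [4, 4, 0, 3]),
    (-6, .PP [4, 4] [0, 0, 3]),
    (3, .PP [4] [4, 0, 0, 3]),
    (3, .PP [4] [0, 4, 0, 3]),
    (2, .PP [3] [0, 3, 4, 4]),
    (-6, .Mrg 0 3 [0, 0, 4, 4, 4]),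
    (-1, .Nt 4 [0, 3] 0 [(0, 0), (3, 2)])])

theorem c5e4_ok : checkCert5 Fin.val c5e4.1 c5e4.2.1 c5e4.2.2 = true := by
  decide +kernel

/-- A certificate. -/
def c5e5 : ℤ × List (Fin 6) × List (ℤ × Code5 (Fin 6)) :=
  (1, [0, 0, 2, 0, 0], [
    (1, .PP [0, 0] [0, 0, 2]),
    (-6, .PP [2] [0, 0, 0, 0]),
    (1, .PP [0] [0, 0, 2, 0]),
    (2, .PP [0] [0, 2, 0, 0]),
    (6, .Nt 2 [0] 4 [])])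

theorem c5e5_ok : checkCert5 Fin.val c5e5.1 c5e5.2.1 c5e5.2.2 = true := by
  decide +kernel

/-- A certificate. -/
def c5e6 : ℤ × List (Fin 6) × List (ℤ × Code5 (Fin 6)) :=
  (2, [0, 0, 2, 0, 2], [
    (2734, .PP [2] [0, 0, 0, 2]),
    (-1132, .PP [0, 0] [0, 2, 2]),
    (1132, .PP [0] [0, 2, 2, 0]),
    (-1460, .PP [0] [2, 0, 0, 2]),
    (-1160, .PP [0] [2, 2, 0, 0]),
    (-156, .PP [0, 2] [0, 0, 2]),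
    (3231, .PP [2] [2, 0, 0, 0]),
    (142, .Ar [0, 2] 0 [(0, 0), (0, 2)]),
    (1365, .PP [2] [0, 0, 0, 0]),
    (142, .PP [0, 0] [0, 0, 2]),
    (142, .PP [0] [0, 0, 2, 0]),
    (284, .PP [0] [0, 2, 0, 0]),
    (-639, .PP [0] [0, 0, 2, 2]),
    (923, .PP [0] [2, 0, 0, 0]),
    (-7070, .Nt 2 [0] 4 []),
    (5754, .PP [2, 2] [0, 0, 2]),
    (15811, .PP [2] [0, 0, 2, 2]),
    (-34009, .PP [0] [0, 2, 2, 2]),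
    (-32248, .PP [0] [2, 0, 2, 2]),
    (31609, .PP [0] [2, 2, 2, 0]),
    (79, .Ar [0, 2] 0 [(0, 0), (0, 0), (0, 1)]),
    (-158, .PP [0, 2] [0, 0, 0]),
    (18198, .PP [2] [0, 2, 0, 2]),
    (156, .PP [0, 2] [0, 2, 2]),
    (14, .Ar [0, 2] 0 [(2, 0), (2, 2)]),
    (-14, .PP [0] [2, 0, 2, 0]),
    (-10541, .PP [0] [2, 2, 0, 2]),
    (-2400, .PP [0] [2, 2, 2, 2]),
    (18198, .PP [2] [2, 0, 0, 2]),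
    (497, .Ar [0, 2] 0 [(0, 3)]),
    (-497, .Ar [0, 2] 0 [(0, 0), (0, 0), (0, 0), (2, 0)]),
    (-21082, .PP [2] [2, 2, 0, 0]),
    (78, .Ar [0, 2] 0 [(2, 0), (2, 0), (2, 1)]),
    (1647, .PP [0, 2] [2, 2, 2]),
    (-980, .PP [2, 2] [0, 2, 2]),
    (315, .Ar [0, 2] 0 [(0, 0), (2, 0), (2, 0), (2, 0)]),
    (-497, .PP [2] [2, 2, 0, 2]),
    (-497, .PP [2] [2, 0, 2, 2]),
    (-497, .PP [2] [0, 2, 2, 2]),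
    (2688, .Nt 0 [2] 4 [])])

theorem c5e6_ok : checkCert5 Fin.val c5e6.1 c5e6.2.1 c5e6.2.2 = true := by
  decide +kernel

/-- A certificate. -/
def c5e7 : ℤ × List (Fin 6) × List (ℤ × Code5 (Fin 6)) :=
  (2, [0, 0, 2, 0, 4], [
    (978, .PP [4] [0, 0, 0, 2]),
    (-874, .PP [2] [0, 0, 0, 4]),
    (414, .PP [0, 0] [0, 4, 2]),
    (-228, .PP [0, 0] [0, 2, 4]),
    (270, .PP [0] [0, 0, 2, 4]),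
    (-228, .PP [0] [0, 4, 2, 0]),
    (306, .PP [0] [2, 0, 0, 4]),
    (-222, .PP [0] [2, 0, 4, 0]),
    (370, .PP [0] [2, 4, 0, 0]),
    (-20, .PP [0] [4, 0, 0, 2]),
    (370, .PP [0] [4, 2, 0, 0]),
    (-328, .PP [4] [0, 2, 0, 0]),
    (592, .PP [0] [0, 2, 0, 4]),
    (-656, .PP [0] [0, 4, 0, 2]),
    (470, .PP [0] [4, 0, 2, 0]),
    (-1098, .PP [2] [4, 0, 0, 0]),
    (140, .Mrg 2 4 [0, 0, 0, 2, 2]),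
    (62, .Mrg 2 4 [0, 0, 2, 0, 2]),
    (-218, .PP [0] [2, 0, 4, 4]),
    (84, .PP [2] [0, 0, 4, 4]),
    (16, .Nt 4 [0, 2] 0 [(0, 1), (2, 1)]),
    (180, .PP [4] [0, 0, 2, 2]),
    (-360, .PP [0, 0] [2, 2, 4]),
    (228, .PP [4] [2, 2, 0, 0]),
    (-180, .PP [0] [4, 2, 2, 2]),
    (-478, .PP [2] [0, 0, 4, 2]),
    (-96, .PP [2] [2, 0, 4, 2]),
    (-316, .PP [2] [0, 2, 4, 2]),
    (-140, .PP [2] [2, 4, 0, 0]),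
    (140, .PP [2] [2, 0, 0, 4]),
    (-74, .PP [0] [2, 2, 0, 4]),
    (206, .PP [0] [2, 2, 4, 0]),
    (140, .PP [2] [0, 2, 0, 4]),
    (-360, .PP [2] [0, 4, 2, 2]),
    (-294, .PP [2] [4, 0, 0, 2]),
    (-294, .PP [2] [0, 4, 0, 2]),
    (44, .PP [0] [4, 0, 2, 2]),
    (296, .Mrg 2 4 [0, 0, 2, 2, 2]),
    (44, .PP [0] [0, 2, 4, 2]),
    (-44, .PP [0] [2, 4, 2, 0]),
    (-154, .PP [2] [0, 0, 2, 4]),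
    (154, .PP [0] [0, 2, 2, 4]),
    (154, .PP [0] [2, 0, 2, 4]),
    (44, .PP [0] [2, 0, 4, 2]),
    (308, .Mrg 0 4 [0, 0, 0, 2, 2]),
    (150, .Mrg 0 4 [0, 0, 2, 2, 2]),
    (46, .Nt 4 [0, 2] 0 [(0, 0), (0, 1), (2, 0)]),
    (110, .PP [0] [4, 2, 0, 2]),
    (-46, .Nt 4 [0, 2] 0 [(0, 1), (0, 1)]),
    (572, .PP [4] [0, 2, 2, 2]),
    (-88, .PP [2] [0, 2, 2, 4]),
    (132, .PP [2] [2, 0, 2, 4]),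
    (44, .PP [4, 4] [0, 2, 2]),
    (-176, .PP [4] [2, 2, 0, 2]),
    (-88, .PP [2, 2] [0, 2, 4]),
    (88, .PP [2] [2, 4, 0, 2]),
    (-176, .PP [2] [4, 0, 2, 2]),
    (88, .PP [2] [4, 2, 0, 2]),
    (10, .Nt 4 [0, 2] 0 [(2, 0), (2, 0), (2, 1)]),
    (-110, .PP [4] [4, 0, 2, 2]),
    (54, .Nt 4 [0, 2] 0 [(0, 0), (0, 0), (0, 1)]),
    (-40, .Nt 2 [0, 4] 0 [(0, 3)]),
    (4, .PP [0, 2] [4, 4, 4]),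
    (-2, .PP [4] [0, 4, 4, 2]),
    (-2, .PP [4, 4] [0, 2, 4]),
    (4, .Nt 4 [0, 2] 0 [(0, 3)]),
    (-2, .PP [4] [4, 4, 0, 2]),
    (-2, .PP [4] [4, 0, 4, 2]),
    (-2, .Nt 2 [0, 4] 0 [(0, 1), (4, 1)]),
    (-390, .PP [4, 4] [0, 0, 2]),
    (-202, .PP [0] [4, 0, 4, 2]),
    (-332, .PP [0] [2, 4, 0, 4]),
    (-134, .PP [0] [4, 2, 0, 4]),
    (196, .PP [4] [0, 0, 2, 4]),
    (268, .PP [2] [4, 0, 0, 4]),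
    (-202, .PP [0] [0, 4, 4, 2]),
    (-64, .PP [0] [2, 4, 4, 0]),
    (202, .PP [0] [4, 4, 2, 0]),
    (-404, .PP [2] [4, 4, 0, 0]),
    (136, .PP [4] [2, 4, 0, 0]),
    (62, .Nt 2 [0, 4] 0 [(0, 0), (0, 2)]),
    (202, .PP [0] [4, 4, 0, 2]),
    (-62, .PP [0, 2] [0, 0, 4]),
    (194, .PP [4] [0, 4, 0, 2]),
    (394, .PP [0, 0] [2, 4, 4]),
    (-62, .PP [0, 4] [0, 0, 2]),
    (-4, .Nt 4 [0, 2] 0 [(0, 0), (0, 2)]),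
    (62, .Mrg 2 4 [0, 2, 0, 2, 2]),
    (62, .PP [4] [0, 2, 0, 2]),
    (-62, .PP [0, 2] [0, 4, 2]),
    (-62, .PP [0, 2] [0, 2, 4]),
    (-62, .PP [0, 4] [0, 4, 2]),
    (-62, .PP [0, 4] [0, 2, 4]),
    (194, .PP [4] [4, 0, 0, 2]),
    (-134, .PP [0] [4, 0, 2, 4]),
    (-134, .PP [0] [0, 4, 2, 4]),
    (134, .PP [0] [4, 2, 4, 0]),
    (-64, .Nt 2 [0, 4] 0 [(0, 0), (0, 1), (4, 0)]),
    (2, .Mrg 0 4 [0, 0, 0, 0, 2]),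
    (186, .PP [2, 4] [0, 0, 0]),
    (-372, .PP [0] [0, 0, 4, 2]),
    (-2, .Nt 4 [0, 2] 0 [(2, 1), (2, 1)]),
    (-184, .Mrg 0 2 [0, 0, 0, 0, 4]),
    (184, .PP [0, 4] [2, 2, 2]),
    (184, .PP [2, 2] [0, 0, 4]),
    (184, .PP [0] [2, 4, 0, 2]),
    (184, .PP [2, 2] [0, 4, 2]),
    (118, .PP [0] [0, 4, 2, 2]),
    (-118, .PP [0] [4, 2, 2, 0]),
    (-44, .Nt 0 [2, 4] 0 [(2, 3)]),
    (-374, .PP [4] [0, 4, 2, 2]),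
    (-1, .Nt 2 [0, 4] 0 [(4, 0), (4, 0), (4, 1)]),
    (204, .PP [0] [2, 4, 4, 4]),
    (-356, .Mrg 0 2 [0, 0, 4, 4, 4]),
    (-66, .Nt 0 [2, 4] 0 [(2, 0), (2, 1), (4, 0)]),
    (-66, .PP [4] [0, 2, 2, 4]),
    (330, .PP [2] [0, 4, 0, 4]),
    (-330, .PP [0] [0, 2, 4, 4]),
    (330, .PP [4] [0, 0, 4, 2]),
    (66, .PP [4] [2, 4, 0, 2]),
    (-66, .PP [2] [4, 4, 0, 2]),
    (-66, .Mrg 0 2 [0, 0, 4, 0, 4]),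
    (66, .PP [2, 4] [0, 0, 4]),
    (66, .Mrg 0 4 [0, 0, 2, 0, 2]),
    (66, .PP [2, 4] [0, 0, 2]),
    (66, .Nt 4 [0, 2] 0 [(2, 0), (2, 2)]),
    (66, .Nt 0 [2, 4] 0 [(2, 0), (2, 2)]),
    (-66, .PP [0, 2] [2, 4, 4]),
    (66, .Mrg 0 4 [0, 2, 0, 2, 2]),
    (-66, .Nt 0 [2, 4] 0 [(4, 0), (4, 2)]),
    (66, .PP [0, 4] [2, 2, 4]),
    (-66, .Nt 2 [0, 4] 0 [(4, 0), (4, 2)]),
    (198, .PP [2] [0, 4, 4, 4]),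
    (132, .PP [4] [2, 2, 0, 4]),
    (-132, .PP [4] [0, 2, 4, 2]),
    (-198, .PP [2] [2, 0, 4, 4]),
    (-66, .PP [2] [2, 4, 0, 4]),
    (264, .PP [2] [0, 4, 2, 4]),
    (264, .PP [2] [0, 4, 4, 2]),
    (66, .PP [2] [4, 0, 2, 4]),
    (-66, .PP [2] [4, 2, 0, 4]),
    (66, .PP [2] [4, 0, 4, 2]),
    (-66, .Mrg 0 2 [0, 4, 0, 4, 4]),
    (132, .PP [2] [0, 2, 4, 4]),
    (-66, .Nt 4 [0, 2] 0 [(0, 0), (2, 2)])])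

theorem c5e7_ok : checkCert5 Fin.val c5e7.1 c5e7.2.1 c5e7.2.2 = true := by
  decide +kernel

/-- A certificate. -/
def c5e8 : ℤ × List (Fin 6) × List (ℤ × Code5 (Fin 6)) :=
  (2, [0, 0, 2, 2, 0], [
    (1624, .PP [0, 0] [0, 2, 2]),
    (914, .PP [0] [0, 0, 2, 2]),
    (-1624, .PP [0] [0, 2, 2, 0]),
    (1664, .PP [0] [2, 2, 0, 0]),
    (222, .PP [0, 2] [0, 0, 2]),
    (-202, .Ar [0, 2] 0 [(0, 0), (0, 2)]),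
    (-1956, .PP [2] [0, 0, 0, 0]),
    (-3916, .PP [2] [0, 0, 0, 2]),
    (-202, .PP [0, 0] [0, 0, 2]),
    (-202, .PP [0] [0, 0, 2, 0]),
    (-404, .PP [0] [0, 2, 0, 0]),
    (-1316, .PP [0] [2, 0, 0, 0]),
    (2090, .PP [0] [2, 0, 0, 2]),
    (10082, .Nt 2 [0] 4 []),
    (-4626, .PP [2] [2, 0, 0, 0]),
    (-8220, .PP [2, 2] [0, 0, 2]),
    (-22582, .PP [2] [0, 0, 2, 2]),
    (48574, .PP [0] [0, 2, 2, 2]),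
    (46060, .PP [0] [2, 0, 2, 2]),
    (-45148, .PP [0] [2, 2, 2, 0]),
    (-112, .Ar [0, 2] 0 [(0, 0), (0, 0), (0, 1)]),
    (224, .PP [0, 2] [0, 0, 0]),
    (-25992, .PP [2] [0, 2, 0, 2]),
    (-222, .PP [0, 2] [0, 2, 2]),
    (-20, .Ar [0, 2] 0 [(2, 0), (2, 2)]),
    (20, .PP [0] [2, 0, 2, 0]),
    (15056, .PP [0] [2, 2, 0, 2]),
    (3426, .PP [0] [2, 2, 2, 2]),
    (-25992, .PP [2] [2, 0, 0, 2]),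
    (-710, .Ar [0, 2] 0 [(0, 3)]),
    (710, .Ar [0, 2] 0 [(0, 0), (0, 0), (0, 0), (2, 0)]),
    (30112, .PP [2] [2, 2, 0, 0]),
    (-111, .Ar [0, 2] 0 [(2, 0), (2, 0), (2, 1)]),
    (-2352, .PP [0, 2] [2, 2, 2]),
    (1400, .PP [2, 2] [0, 2, 2]),
    (-450, .Ar [0, 2] 0 [(0, 0), (2, 0), (2, 0), (2, 0)]),
    (710, .PP [2] [2, 2, 0, 2]),
    (710, .PP [2] [2, 0, 2, 2]),
    (710, .PP [2] [0, 2, 2, 2]),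
    (-3846, .Nt 0 [2] 4 [])])

theorem c5e8_ok : checkCert5 Fin.val c5e8.1 c5e8.2.1 c5e8.2.2 = true := by
  decide +kernel

/-- A certificate. -/
def c5e9 : ℤ × List (Fin 6) × List (ℤ × Code5 (Fin 6)) :=
  (2, [0, 0, 2, 2, 2], [
    (-249, .PP [2] [0, 0, 2, 2]),
    (537, .PP [0] [0, 2, 2, 2]),
    (167, .PP [0] [2, 2, 0, 2]),
    (-501, .PP [0] [2, 2, 2, 0]),
    (-92, .PP [2, 2] [0, 0, 2]),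
    (510, .PP [0] [2, 0, 2, 2]),
    (-288, .PP [2] [2, 0, 0, 2]),
    (-288, .PP [2] [0, 2, 0, 2]),
    (334, .PP [2] [2, 2, 0, 0]),
    (-1, .Ar [0, 2] 0 [(0, 0), (0, 0), (0, 1)]),
    (-19, .PP [2] [0, 0, 0, 0]),
    (2, .PP [0, 2] [0, 0, 0]),
    (98, .Nt 2 [0] 4 []),
    (2, .PP [0, 2] [0, 0, 2]),
    (-38, .PP [2] [0, 0, 0, 2]),
    (20, .PP [0] [2, 0, 0, 2]),
    (-2, .Ar [0, 2] 0 [(0, 0), (0, 2)]),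
    (-2, .PP [0, 0] [0, 0, 2]),
    (-2, .PP [0] [0, 0, 2, 0]),
    (-4, .PP [0] [0, 2, 0, 0]),
    (16, .PP [0, 0] [0, 2, 2]),
    (9, .PP [0] [0, 0, 2, 2]),
    (-16, .PP [0] [0, 2, 2, 0]),
    (-13, .PP [0] [2, 0, 0, 0]),
    (16, .PP [0] [2, 2, 0, 0]),
    (-45, .PP [2] [2, 0, 0, 0]),
    (-2, .PP [0, 2] [0, 2, 2]),
    (-7, .Ar [0, 2] 0 [(0, 3)]),
    (36, .PP [0] [2, 2, 2, 2]),
    (-23, .PP [0, 2] [2, 2, 2]),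
    (7, .Ar [0, 2] 0 [(0, 0), (0, 0), (0, 0), (2, 0)]),
    (-1, .Ar [0, 2] 0 [(2, 0), (2, 0), (2, 1)]),
    (-5, .Ar [0, 2] 0 [(0, 0), (2, 0), (2, 0), (2, 0)]),
    (14, .PP [2, 2] [0, 2, 2]),
    (7, .PP [2] [2, 2, 0, 2]),
    (7, .PP [2] [2, 0, 2, 2]),
    (7, .PP [2] [0, 2, 2, 2]),
    (-44, .Nt 0 [2] 4 [])])

theorem c5e9_ok : checkCert5 Fin.val c5e9.1 c5e9.2.1 c5e9.2.2 = true := by
  decide +kernel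

/-- A certificate. -/
def c5e10 : ℤ × List (Fin 6) × List (ℤ × Code5 (Fin 6)) :=
  (2, [0, 0, 2, 2, 4], [
    (-160, .PP [4] [0, 0, 2, 2]),
    (148, .PP [2] [0, 0, 2, 4]),
    (-148, .PP [0] [0, 2, 2, 4]),
    (318, .PP [0, 0] [2, 2, 4]),
    (-148, .PP [0] [2, 0, 2, 4]),
    (-46, .PP [0] [0, 2, 4, 2]),
    (46, .PP [0] [2, 4, 2, 0]),
    (-56, .PP [2, 4] [0, 0, 2]),
    (-46, .PP [0] [2, 0, 4, 2]),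
    (-170, .PP [0] [2, 2, 4, 0]),
    (-42, .PP [0] [4, 0, 2, 2]),
    (-206, .PP [4] [2, 2, 0, 0]),
    (114, .PP [2] [2, 4, 0, 0]),
    (-114, .PP [2] [2, 0, 0, 4]),
    (-104, .PP [0] [0, 4, 2, 2]),
    (-100, .PP [0] [4, 2, 0, 2]),
    (104, .PP [0] [4, 2, 2, 0]),
    (-114, .PP [2] [0, 2, 0, 4]),
    (262, .PP [2] [4, 0, 0, 2]),
    (422, .PP [2] [0, 0, 4, 2]),
    (262, .PP [2] [0, 4, 0, 2]),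
    (-56, .Nt 4 [0, 2] 0 [(2, 0), (2, 2)]),
    (-272, .Mrg 0 4 [0, 0, 0, 2, 2]),
    (158, .PP [0] [4, 2, 2, 2]),
    (-502, .PP [4] [0, 2, 2, 2]),
    (80, .PP [2] [0, 2, 2, 4]),
    (276, .PP [2] [0, 2, 4, 2]),
    (-2, .PP [0, 2] [2, 2, 4]),
    (-114, .PP [2] [2, 0, 2, 4]),
    (154, .PP [4] [2, 2, 0, 2]),
    (76, .PP [2, 2] [0, 2, 4]),
    (-76, .PP [2] [2, 4, 0, 2]),
    (84, .PP [2] [2, 0, 4, 2]),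
    (152, .PP [2] [4, 0, 2, 2]),
    (312, .PP [2] [0, 4, 2, 2]),
    (-78, .PP [2] [4, 2, 0, 2]),
    (-10, .Nt 4 [0, 2] 0 [(2, 0), (2, 0), (2, 1)]),
    (-56, .Mrg 0 4 [0, 2, 0, 2, 2]),
    (40, .Nt 0 [2, 4] 0 [(2, 3)]),
    (-4, .PP [0, 2] [4, 4, 4]),
    (-126, .Mrg 0 4 [0, 0, 2, 2, 2]),
    (330, .PP [4] [0, 4, 2, 2]),
    (2, .PP [4, 4] [0, 2, 4]),
    (2, .PP [4] [4, 4, 0, 2]),
    (2, .PP [4] [4, 0, 4, 2]),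
    (2, .PP [4] [0, 4, 4, 2]),
    (2, .Nt 2 [0, 4] 0 [(0, 1), (4, 1)]),
    (806, .PP [2] [0, 0, 0, 4]),
    (-884, .PP [4] [0, 0, 0, 2]),
    (-538, .PP [0] [0, 2, 0, 4]),
    (14, .PP [0] [4, 0, 0, 2]),
    (296, .PP [4] [0, 2, 0, 0]),
    (592, .PP [0] [0, 4, 0, 2]),
    (-430, .PP [0] [4, 0, 2, 0]),
    (342, .PP [4, 4] [0, 0, 2]),
    (-72, .PP [2] [0, 0, 4, 4]),
    (178, .PP [0] [4, 0, 4, 2]),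
    (292, .PP [0] [2, 4, 0, 4]),
    (118, .PP [0] [4, 2, 0, 4]),
    (-172, .PP [4] [0, 0, 2, 4]),
    (1002, .PP [2] [4, 0, 0, 0]),
    (-236, .PP [2] [4, 0, 0, 4]),
    (178, .PP [0] [0, 4, 4, 2]),
    (56, .PP [0] [2, 4, 4, 0]),
    (-178, .PP [0] [4, 4, 2, 0]),
    (356, .PP [2] [4, 4, 0, 0]),
    (-120, .PP [4] [2, 4, 0, 0]),
    (190, .PP [0] [2, 0, 4, 4]),
    (-52, .Mrg 2 4 [0, 0, 2, 0, 2]),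
    (-54, .Nt 2 [0, 4] 0 [(0, 0), (0, 2)]),
    (-178, .PP [0] [4, 4, 0, 2]),
    (54, .PP [0, 2] [0, 0, 4]),
    (-170, .PP [4] [0, 4, 0, 2]),
    (-346, .PP [0, 0] [2, 4, 4]),
    (-282, .PP [0] [2, 0, 0, 4]),
    (-338, .PP [0] [2, 4, 0, 0]),
    (-338, .PP [0] [4, 2, 0, 0]),
    (-40, .Nt 4 [0, 2] 0 [(0, 0), (0, 1), (2, 0)]),
    (54, .PP [0, 4] [0, 0, 2]),
    (4, .Nt 4 [0, 2] 0 [(0, 0), (0, 2)]),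
    (-48, .Nt 4 [0, 2] 0 [(0, 0), (0, 0), (0, 1)]),
    (-54, .Mrg 2 4 [0, 2, 0, 2, 2]),
    (-54, .PP [4] [0, 2, 0, 2]),
    (54, .PP [0, 2] [0, 4, 2]),
    (54, .PP [0, 2] [0, 2, 4]),
    (54, .PP [0, 4] [0, 4, 2]),
    (54, .PP [0, 4] [0, 2, 4]),
    (-170, .PP [4] [4, 0, 0, 2]),
    (118, .PP [0] [4, 0, 2, 4]),
    (118, .PP [0] [0, 4, 2, 4]),
    (-118, .PP [0] [4, 2, 4, 0]),
    (40, .Nt 4 [0, 2] 0 [(0, 1), (0, 1)]),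
    (-40, .PP [4, 4] [0, 2, 2]),
    (98, .PP [4] [4, 0, 2, 2]),
    (56, .Nt 2 [0, 4] 0 [(0, 0), (0, 1), (4, 0)]),
    (200, .PP [0] [2, 0, 4, 0]),
    (-2, .Mrg 0 4 [0, 0, 0, 0, 2]),
    (-162, .PP [2, 4] [0, 0, 0]),
    (-246, .PP [0] [0, 0, 2, 4]),
    (324, .PP [0] [0, 0, 4, 2]),
    (204, .PP [0, 0] [0, 2, 4]),
    (204, .PP [0] [0, 4, 2, 0]),
    (-366, .PP [0, 0] [0, 4, 2]),
    (-118, .Mrg 2 4 [0, 0, 0, 2, 2]),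
    (2, .Nt 4 [0, 2] 0 [(2, 1), (2, 1)]),
    (-14, .Nt 4 [0, 2] 0 [(0, 1), (2, 1)]),
    (160, .Mrg 0 2 [0, 0, 0, 0, 4]),
    (-160, .PP [0, 4] [2, 2, 2]),
    (-160, .PP [2, 2] [0, 0, 4]),
    (-160, .PP [0] [2, 4, 0, 2]),
    (-160, .PP [2, 2] [0, 4, 2]),
    (-260, .Mrg 2 4 [0, 0, 2, 2, 2]),
    (36, .Nt 2 [0, 4] 0 [(0, 3)]),
    (-2, .Nt 4 [0, 2] 0 [(0, 3)]),
    (1, .Nt 2 [0, 4] 0 [(4, 0), (4, 0), (4, 1)]),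
    (-180, .PP [0] [2, 4, 4, 4]),
    (312, .Mrg 0 2 [0, 0, 4, 4, 4]),
    (58, .Nt 0 [2, 4] 0 [(2, 0), (2, 1), (4, 0)]),
    (58, .PP [4] [0, 2, 2, 4]),
    (-290, .PP [2] [0, 4, 0, 4]),
    (290, .PP [0] [0, 2, 4, 4]),
    (-290, .PP [4] [0, 0, 4, 2]),
    (-58, .PP [4] [2, 4, 0, 2]),
    (58, .PP [2] [4, 4, 0, 2]),
    (58, .Mrg 0 2 [0, 0, 4, 0, 4]),
    (-58, .PP [2, 4] [0, 0, 4]),
    (58, .PP [0] [2, 2, 0, 4]),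
    (-58, .Mrg 0 4 [0, 0, 2, 0, 2]),
    (-58, .Nt 0 [2, 4] 0 [(2, 0), (2, 2)]),
    (58, .PP [0, 2] [2, 4, 4]),
    (58, .Nt 0 [2, 4] 0 [(4, 0), (4, 2)]),
    (-58, .PP [0, 4] [2, 2, 4]),
    (58, .Nt 2 [0, 4] 0 [(4, 0), (4, 2)]),
    (-174, .PP [2] [0, 4, 4, 4]),
    (-116, .PP [4] [2, 2, 0, 4]),
    (116, .PP [4] [0, 2, 4, 2]),
    (174, .PP [2] [2, 0, 4, 4]),
    (58, .PP [2] [2, 4, 0, 4]),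
    (-232, .PP [2] [0, 4, 2, 4]),
    (-232, .PP [2] [0, 4, 4, 2]),
    (-58, .PP [2] [4, 0, 2, 4]),
    (58, .PP [2] [4, 2, 0, 4]),
    (-58, .PP [2] [4, 0, 4, 2]),
    (58, .Mrg 0 2 [0, 4, 0, 4, 4]),
    (-116, .PP [2] [0, 2, 4, 4]),
    (58, .Nt 4 [0, 2] 0 [(0, 0), (2, 2)])])

theorem c5e10_ok : checkCert5 Fin.val c5e10.1 c5e10.2.1 c5e10.2.2 = true := by
  decide +kernel

/-- A certificate. -/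
def c5e11 : ℤ × List (Fin 6) × List (ℤ × Code5 (Fin 6)) :=
  (2, [0, 0, 2, 3, 0], [
    (-284, .PP [0] [0, 0, 2, 3]),
    (400, .PP [0] [0, 0, 3, 2]),
    (-622, .PP [0] [0, 2, 0, 3]),
    (-318, .PP [0] [2, 0, 0, 3]),
    (234, .PP [0] [2, 0, 3, 0]),
    (26, .PP [0] [3, 0, 0, 2]),
    (-488, .PP [0] [3, 0, 2, 0]),
    (-386, .PP [0] [3, 2, 0, 0]),
    (-1026, .PP [3] [0, 0, 0, 2]),
    (242, .PP [0, 0] [0, 2, 3]),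
    (242, .PP [0] [0, 3, 2, 0]),
    (344, .PP [3] [0, 2, 0, 0]),
    (688, .PP [0] [0, 3, 0, 2]),
    (-164, .Mrg 2 3 [0, 0, 0, 2, 2]),
    (-68, .Mrg 2 3 [0, 0, 2, 0, 2]),
    (242, .PP [0] [2, 0, 3, 3]),
    (-198, .PP [2, 3] [0, 0, 0]),
    (910, .PP [2] [0, 0, 0, 3]),
    (-96, .PP [2] [0, 0, 3, 3]),
    (-388, .PP [0] [2, 3, 0, 0]),
    (1146, .PP [2] [3, 0, 0, 0]),
    (-16, .Nt 3 [0, 2] 0 [(0, 1), (2, 1)]),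
    (-442, .PP [0, 0] [0, 3, 2]),
    (196, .Mrg 0 2 [0, 0, 0, 0, 3]),
    (-192, .PP [3] [0, 0, 2, 2]),
    (384, .PP [0, 0] [2, 2, 3]),
    (-240, .PP [3] [2, 2, 0, 0]),
    (-196, .PP [0, 3] [2, 2, 2]),
    (192, .PP [0] [3, 2, 2, 2]),
    (-196, .PP [2, 2] [0, 0, 3]),
    (508, .PP [2] [0, 0, 3, 2]),
    (-196, .PP [0] [2, 3, 0, 2]),
    (-196, .PP [2, 2] [0, 3, 2]),
    (108, .PP [2] [2, 0, 3, 2]),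
    (328, .PP [2] [0, 2, 3, 2]),
    (152, .PP [2] [2, 3, 0, 0]),
    (-152, .PP [2] [2, 0, 0, 3]),
    (80, .PP [0] [2, 2, 0, 3]),
    (-224, .PP [0] [2, 2, 3, 0]),
    (-152, .PP [2] [0, 2, 0, 3]),
    (372, .PP [2] [0, 3, 2, 2]),
    (312, .PP [2] [3, 0, 0, 2]),
    (-124, .PP [0] [0, 3, 2, 2]),
    (124, .PP [0] [3, 2, 2, 0]),
    (312, .PP [2] [0, 3, 0, 2]),
    (-44, .PP [0] [3, 0, 2, 2]),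
    (-320, .Mrg 2 3 [0, 0, 2, 2, 2]),
    (-44, .PP [0] [0, 2, 3, 2]),
    (44, .PP [0] [2, 3, 2, 0]),
    (160, .PP [2] [0, 0, 2, 3]),
    (-160, .PP [0] [0, 2, 2, 3]),
    (-160, .PP [0] [2, 0, 2, 3]),
    (-44, .PP [0] [2, 0, 3, 2]),
    (-332, .Mrg 0 3 [0, 0, 0, 2, 2]),
    (-168, .Mrg 0 3 [0, 0, 2, 2, 2]),
    (-52, .Nt 3 [0, 2] 0 [(0, 0), (0, 1), (2, 0)]),
    (-116, .PP [0] [3, 2, 0, 2]),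
    (52, .Nt 3 [0, 2] 0 [(0, 1), (0, 1)]),
    (-572, .PP [3] [0, 2, 2, 2]),
    (88, .PP [2] [0, 2, 2, 3]),
    (-132, .PP [2] [2, 0, 2, 3]),
    (-44, .PP [3, 3] [0, 2, 2]),
    (176, .PP [3] [2, 2, 0, 2]),
    (88, .PP [2, 2] [0, 2, 3]),
    (-88, .PP [2] [2, 3, 0, 2]),
    (176, .PP [2] [3, 0, 2, 2]),
    (-88, .PP [2] [3, 2, 0, 2]),
    (-10, .Nt 3 [0, 2] 0 [(2, 0), (2, 0), (2, 1)]),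
    (116, .PP [3] [3, 0, 2, 2]),
    (-60, .Nt 3 [0, 2] 0 [(0, 0), (0, 0), (0, 1)]),
    (40, .Nt 2 [0, 3] 0 [(0, 3)]),
    (-4, .PP [0, 2] [3, 3, 3]),
    (2, .PP [3] [0, 3, 3, 2]),
    (2, .PP [3, 3] [0, 2, 3]),
    (-4, .Nt 3 [0, 2] 0 [(0, 3)]),
    (44, .Nt 0 [2, 3] 0 [(2, 3)]),
    (404, .PP [3] [0, 3, 2, 2]),
    (2, .PP [3] [3, 3, 0, 2]),
    (2, .PP [3] [3, 0, 3, 2]),
    (2, .Nt 2 [0, 3] 0 [(0, 1), (3, 1)]),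
    (426, .PP [3, 3] [0, 0, 2]),
    (220, .PP [0] [3, 0, 3, 2]),
    (362, .PP [0] [2, 3, 0, 3]),
    (146, .PP [0] [3, 2, 0, 3]),
    (-214, .PP [3] [0, 0, 2, 3]),
    (-292, .PP [2] [3, 0, 0, 3]),
    (220, .PP [0] [0, 3, 3, 2]),
    (70, .PP [0] [2, 3, 3, 0]),
    (-220, .PP [0] [3, 3, 2, 0]),
    (440, .PP [2] [3, 3, 0, 0]),
    (-148, .PP [3] [2, 3, 0, 0]),
    (-68, .Nt 2 [0, 3] 0 [(0, 0), (0, 2)]),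
    (-220, .PP [0] [3, 3, 0, 2]),
    (68, .PP [0, 2] [0, 0, 3]),
    (-212, .PP [3] [0, 3, 0, 2]),
    (-430, .PP [0, 0] [2, 3, 3]),
    (68, .PP [0, 3] [0, 0, 2]),
    (4, .Nt 3 [0, 2] 0 [(0, 0), (0, 2)]),
    (-68, .Mrg 2 3 [0, 2, 0, 2, 2]),
    (-68, .PP [3] [0, 2, 0, 2]),
    (68, .PP [0, 2] [0, 3, 2]),
    (68, .PP [0, 2] [0, 2, 3]),
    (68, .PP [0, 3] [0, 3, 2]),
    (68, .PP [0, 3] [0, 2, 3]),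
    (-212, .PP [3] [3, 0, 0, 2]),
    (146, .PP [0] [3, 0, 2, 3]),
    (146, .PP [0] [0, 3, 2, 3]),
    (-146, .PP [0] [3, 2, 3, 0]),
    (70, .Nt 2 [0, 3] 0 [(0, 0), (0, 1), (3, 0)]),
    (-2, .Mrg 0 3 [0, 0, 0, 0, 2]),
    (2, .Nt 3 [0, 2] 0 [(2, 1), (2, 1)]),
    (1, .Nt 2 [0, 3] 0 [(3, 0), (3, 0), (3, 1)]),
    (-222, .PP [0] [2, 3, 3, 3]),
    (392, .Mrg 0 2 [0, 0, 3, 3, 3]),
    (72, .Nt 0 [2, 3] 0 [(2, 0), (2, 1), (3, 0)]),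
    (72, .PP [3] [0, 2, 2, 3]),
    (-360, .PP [2] [0, 3, 0, 3]),
    (360, .PP [0] [0, 2, 3, 3]),
    (-360, .PP [3] [0, 0, 3, 2]),
    (-72, .PP [3] [2, 3, 0, 2]),
    (72, .PP [2] [3, 3, 0, 2]),
    (72, .Mrg 0 2 [0, 0, 3, 0, 3]),
    (-72, .PP [2, 3] [0, 0, 3]),
    (-72, .Mrg 0 3 [0, 0, 2, 0, 2]),
    (-72, .PP [2, 3] [0, 0, 2]),
    (-72, .Nt 3 [0, 2] 0 [(2, 0), (2, 2)]),
    (-72, .Nt 0 [2, 3] 0 [(2, 0), (2, 2)]),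
    (72, .PP [0, 2] [2, 3, 3]),
    (-72, .Mrg 0 3 [0, 2, 0, 2, 2]),
    (72, .Nt 0 [2, 3] 0 [(3, 0), (3, 2)]),
    (-72, .PP [0, 3] [2, 2, 3]),
    (72, .Nt 2 [0, 3] 0 [(3, 0), (3, 2)]),
    (-216, .PP [2] [0, 3, 3, 3]),
    (-144, .PP [3] [2, 2, 0, 3]),
    (144, .PP [3] [0, 2, 3, 2]),
    (216, .PP [2] [2, 0, 3, 3]),
    (72, .PP [2] [2, 3, 0, 3]),
    (-288, .PP [2] [0, 3, 2, 3]),
    (-288, .PP [2] [0, 3, 3, 2]),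
    (-72, .PP [2] [3, 0, 2, 3]),
    (72, .PP [2] [3, 2, 0, 3]),
    (-72, .PP [2] [3, 0, 3, 2]),
    (72, .Mrg 0 2 [0, 3, 0, 3, 3]),
    (-144, .PP [2] [0, 2, 3, 3]),
    (72, .Nt 3 [0, 2] 0 [(0, 0), (2, 2)])])

theorem c5e11_ok : checkCert5 Fin.val c5e11.1 c5e11.2.1 c5e11.2.2 = true := by
  decide +kernel

/-- A certificate. -/
def c5e12 : ℤ × List (Fin 6) × List (ℤ × Code5 (Fin 6)) :=
  (2, [0, 0, 2, 3, 2], [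
    (108, .PP [0] [0, 3, 2, 2]),
    (42, .PP [0] [3, 0, 2, 2]),
    (104, .PP [0] [3, 2, 0, 2]),
    (-108, .PP [0] [3, 2, 2, 0]),
    (48, .PP [0] [0, 2, 3, 2]),
    (-48, .PP [0] [2, 3, 2, 0]),
    (58, .PP [2, 3] [0, 0, 2]),
    (170, .PP [3] [0, 0, 2, 2]),
    (-154, .PP [2] [0, 0, 2, 3]),
    (154, .PP [0] [0, 2, 2, 3]),
    (-330, .PP [0, 0] [2, 2, 3]),
    (154, .PP [0] [2, 0, 2, 3]),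
    (48, .PP [0] [2, 0, 3, 2]),
    (176, .PP [0] [2, 2, 3, 0]),
    (214, .PP [3] [2, 2, 0, 0]),
    (-118, .PP [2] [2, 3, 0, 0]),
    (118, .PP [2] [2, 0, 0, 3]),
    (118, .PP [2] [0, 2, 0, 3]),
    (-272, .PP [2] [3, 0, 0, 2]),
    (-438, .PP [2] [0, 0, 3, 2]),
    (-272, .PP [2] [0, 3, 0, 2]),
    (58, .Nt 3 [0, 2] 0 [(2, 0), (2, 2)]),
    (-162, .PP [0] [3, 2, 2, 2]),
    (502, .PP [3] [0, 2, 2, 2]),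
    (-80, .PP [2] [0, 2, 2, 3]),
    (-282, .PP [2] [0, 2, 3, 2]),
    (2, .PP [0, 2] [2, 2, 3]),
    (114, .PP [2] [2, 0, 2, 3]),
    (40, .PP [3, 3] [0, 2, 2]),
    (-154, .PP [3] [2, 2, 0, 2]),
    (-76, .PP [2, 2] [0, 2, 3]),
    (76, .PP [2] [2, 3, 0, 2]),
    (-90, .PP [2] [2, 0, 3, 2]),
    (-152, .PP [2] [3, 0, 2, 2]),
    (-318, .PP [2] [0, 3, 2, 2]),
    (78, .PP [2] [3, 2, 0, 2]),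
    (10, .Nt 3 [0, 2] 0 [(2, 0), (2, 0), (2, 1)]),
    (-100, .PP [3] [3, 0, 2, 2]),
    (58, .Mrg 0 3 [0, 2, 0, 2, 2]),
    (-40, .Nt 0 [2, 3] 0 [(2, 3)]),
    (4, .PP [0, 2] [3, 3, 3]),
    (130, .Mrg 0 3 [0, 0, 2, 2, 2]),
    (-340, .PP [3] [0, 3, 2, 2]),
    (-2, .PP [3, 3] [0, 2, 3]),
    (-2, .PP [3] [3, 3, 0, 2]),
    (-2, .PP [3] [3, 0, 3, 2]),
    (-2, .PP [3] [0, 3, 3, 2]),
    (-2, .Nt 2 [0, 3] 0 [(0, 1), (3, 1)]),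
    (-800, .PP [2] [0, 0, 0, 3]),
    (888, .PP [3] [0, 0, 0, 2]),
    (540, .PP [0] [0, 2, 0, 3]),
    (-18, .PP [0] [3, 0, 0, 2]),
    (-298, .PP [3] [0, 2, 0, 0]),
    (-596, .PP [0] [0, 3, 0, 2]),
    (428, .PP [0] [3, 0, 2, 0]),
    (-354, .PP [3, 3] [0, 0, 2]),
    (76, .PP [2] [0, 0, 3, 3]),
    (-184, .PP [0] [3, 0, 3, 2]),
    (-302, .PP [0] [2, 3, 0, 3]),
    (-122, .PP [0] [3, 2, 0, 3]),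
    (178, .PP [3] [0, 0, 2, 3]),
    (-1002, .PP [2] [3, 0, 0, 0]),
    (244, .PP [2] [3, 0, 0, 3]),
    (-184, .PP [0] [0, 3, 3, 2]),
    (-58, .PP [0] [2, 3, 3, 0]),
    (184, .PP [0] [3, 3, 2, 0]),
    (-368, .PP [2] [3, 3, 0, 0]),
    (124, .PP [3] [2, 3, 0, 0]),
    (-198, .PP [0] [2, 0, 3, 3]),
    (54, .Mrg 2 3 [0, 0, 2, 0, 2]),
    (56, .Nt 2 [0, 3] 0 [(0, 0), (0, 2)]),
    (184, .PP [0] [3, 3, 0, 2]),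
    (-56, .PP [0, 2] [0, 0, 3]),
    (176, .PP [3] [0, 3, 0, 2]),
    (358, .PP [0, 0] [2, 3, 3]),
    (280, .PP [0] [2, 0, 0, 3]),
    (338, .PP [0] [2, 3, 0, 0]),
    (338, .PP [0] [3, 2, 0, 0]),
    (42, .Nt 3 [0, 2] 0 [(0, 0), (0, 1), (2, 0)]),
    (-56, .PP [0, 3] [0, 0, 2]),
    (-4, .Nt 3 [0, 2] 0 [(0, 0), (0, 2)]),
    (50, .Nt 3 [0, 2] 0 [(0, 0), (0, 0), (0, 1)]),
    (56, .Mrg 2 3 [0, 2, 0, 2, 2]),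
    (56, .PP [3] [0, 2, 0, 2]),
    (-56, .PP [0, 2] [0, 3, 2]),
    (-56, .PP [0, 2] [0, 2, 3]),
    (-56, .PP [0, 3] [0, 3, 2]),
    (-56, .PP [0, 3] [0, 2, 3]),
    (176, .PP [3] [3, 0, 0, 2]),
    (-122, .PP [0] [3, 0, 2, 3]),
    (-122, .PP [0] [0, 3, 2, 3]),
    (122, .PP [0] [3, 2, 3, 0]),
    (-42, .Nt 3 [0, 2] 0 [(0, 1), (0, 1)]),
    (-58, .Nt 2 [0, 3] 0 [(0, 0), (0, 1), (3, 0)]),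
    (-202, .PP [0] [2, 0, 3, 0]),
    (2, .Mrg 0 3 [0, 0, 0, 0, 2]),
    (168, .PP [2, 3] [0, 0, 0]),
    (248, .PP [0] [0, 0, 2, 3]),
    (-336, .PP [0] [0, 0, 3, 2]),
    (-208, .PP [0, 0] [0, 2, 3]),
    (-208, .PP [0] [0, 3, 2, 0]),
    (376, .PP [0, 0] [0, 3, 2]),
    (126, .Mrg 2 3 [0, 0, 0, 2, 2]),
    (-2, .Nt 3 [0, 2] 0 [(2, 1), (2, 1)]),
    (280, .Mrg 0 3 [0, 0, 0, 2, 2]),
    (14, .Nt 3 [0, 2] 0 [(0, 1), (2, 1)]),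
    (-166, .Mrg 0 2 [0, 0, 0, 0, 3]),
    (166, .PP [0, 3] [2, 2, 2]),
    (166, .PP [2, 2] [0, 0, 3]),
    (166, .PP [0] [2, 3, 0, 2]),
    (166, .PP [2, 2] [0, 3, 2]),
    (268, .Mrg 2 3 [0, 0, 2, 2, 2]),
    (-36, .Nt 2 [0, 3] 0 [(0, 3)]),
    (4, .Nt 3 [0, 2] 0 [(0, 3)]),
    (-1, .Nt 2 [0, 3] 0 [(3, 0), (3, 0), (3, 1)]),
    (186, .PP [0] [2, 3, 3, 3]),
    (-324, .Mrg 0 2 [0, 0, 3, 3, 3]),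
    (-60, .Nt 0 [2, 3] 0 [(2, 0), (2, 1), (3, 0)]),
    (-60, .PP [3] [0, 2, 2, 3]),
    (300, .PP [2] [0, 3, 0, 3]),
    (-300, .PP [0] [0, 2, 3, 3]),
    (300, .PP [3] [0, 0, 3, 2]),
    (60, .PP [3] [2, 3, 0, 2]),
    (-60, .PP [2] [3, 3, 0, 2]),
    (-60, .Mrg 0 2 [0, 0, 3, 0, 3]),
    (60, .PP [2, 3] [0, 0, 3]),
    (-60, .PP [0] [2, 2, 0, 3]),
    (60, .Mrg 0 3 [0, 0, 2, 0, 2]),
    (60, .Nt 0 [2, 3] 0 [(2, 0), (2, 2)]),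
    (-60, .PP [0, 2] [2, 3, 3]),
    (-60, .Nt 0 [2, 3] 0 [(3, 0), (3, 2)]),
    (60, .PP [0, 3] [2, 2, 3]),
    (-60, .Nt 2 [0, 3] 0 [(3, 0), (3, 2)]),
    (180, .PP [2] [0, 3, 3, 3]),
    (120, .PP [3] [2, 2, 0, 3]),
    (-120, .PP [3] [0, 2, 3, 2]),
    (-180, .PP [2] [2, 0, 3, 3]),
    (-60, .PP [2] [2, 3, 0, 3]),
    (240, .PP [2] [0, 3, 2, 3]),
    (240, .PP [2] [0, 3, 3, 2]),
    (60, .PP [2] [3, 0, 2, 3]),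
    (-60, .PP [2] [3, 2, 0, 3]),
    (60, .PP [2] [3, 0, 3, 2]),
    (-60, .Mrg 0 2 [0, 3, 0, 3, 3]),
    (120, .PP [2] [0, 2, 3, 3]),
    (-60, .Nt 3 [0, 2] 0 [(0, 0), (2, 2)])])

theorem c5e12_ok : checkCert5 Fin.val c5e12.1 c5e12.2.1 c5e12.2.2 = true := by
  decide +kernel

/-- A certificate. -/
def c5e13 : ℤ × List (Fin 6) × List (ℤ × Code5 (Fin 6)) :=
  (1, [0, 0, 2, 3, 3], [
    (-16, .PP [2] [0, 0, 3, 3]),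
    (-5, .PP [3] [0, 0, 2, 3]),
    (5, .PP [0] [0, 3, 2, 3]),
    (-4, .PP [0, 0] [2, 3, 3]),
    (2, .PP [0] [0, 3, 3, 2]),
    (4, .PP [0] [2, 3, 0, 3]),
    (5, .PP [0] [3, 0, 2, 3]),
    (2, .PP [0] [3, 0, 3, 2]),
    (5, .PP [0] [3, 2, 0, 3]),
    (-5, .PP [0] [3, 2, 3, 0]),
    (-2, .PP [0] [3, 3, 0, 2]),
    (-2, .PP [0] [3, 3, 2, 0]),
    (11, .PP [3, 3] [0, 0, 2]),
    (-10, .PP [2] [3, 0, 0, 3]),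
    (-10, .PP [2] [0, 3, 0, 3]),
    (10, .PP [0] [0, 2, 3, 3]),
    (10, .PP [0] [2, 0, 3, 3]),
    (4, .PP [2] [3, 3, 0, 0]),
    (-6, .PP [3] [3, 0, 0, 2]),
    (6, .PP [3] [2, 3, 0, 0]),
    (-6, .PP [0] [2, 3, 3, 0]),
    (-6, .PP [3] [0, 3, 0, 2]),
    (-1, .Nt 3 [0, 2] 0 [(0, 3)]),
    (1, .Mrg 0 2 [0, 0, 0, 0, 3]),
    (-2, .PP [3] [0, 0, 2, 2]),
    (-2, .PP [0] [0, 0, 2, 3]),
    (5, .PP [2] [0, 0, 0, 3]),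
    (-3, .PP [0] [0, 2, 0, 3]),
    (-1, .PP [0, 0] [0, 3, 2]),
    (2, .PP [0, 0] [2, 2, 3]),
    (-2, .PP [0] [2, 0, 0, 3]),
    (-2, .PP [0] [2, 3, 0, 0]),
    (-1, .PP [0] [3, 0, 0, 2]),
    (-2, .PP [0] [3, 0, 2, 0]),
    (-2, .PP [0] [3, 2, 0, 0]),
    (-2, .PP [3] [2, 2, 0, 0]),
    (-1, .PP [0, 3] [2, 2, 2]),
    (-1, .PP [2, 2] [0, 0, 3]),
    (3, .PP [2] [0, 0, 3, 2]),
    (-1, .PP [0] [2, 3, 0, 2]),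
    (-1, .PP [2, 2] [0, 3, 2]),
    (-1, .PP [2] [2, 0, 3, 2]),
    (4, .PP [2] [0, 2, 3, 2]),
    (6, .PP [2] [3, 0, 0, 0]),
    (5, .PP [2] [0, 3, 2, 2]),
    (2, .PP [2] [3, 0, 0, 2]),
    (-1, .PP [0] [0, 3, 2, 2]),
    (1, .PP [0] [3, 2, 2, 0]),
    (2, .PP [2] [0, 3, 0, 2]),
    (1, .Mrg 0 3 [0, 0, 0, 0, 2]),
    (1, .PP [0, 0] [0, 2, 3]),
    (-3, .PP [3] [0, 0, 0, 2]),
    (1, .PP [0] [0, 3, 2, 0]),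
    (1, .PP [3] [0, 2, 0, 0]),
    (1, .PP [0] [2, 0, 3, 0]),
    (2, .PP [0] [0, 3, 0, 2]),
    (-1, .Mrg 0 3 [0, 0, 0, 2, 2]),
    (2, .PP [2] [0, 0, 2, 3]),
    (-2, .PP [0] [0, 2, 2, 3]),
    (-2, .PP [0] [2, 0, 2, 3]),
    (-1, .PP [0] [3, 2, 0, 2]),
    (-1, .PP [0] [0, 2, 3, 2]),
    (-1, .PP [0] [2, 0, 3, 2]),
    (1, .PP [0] [2, 3, 2, 0]),
    (2, .Mrg 0 3 [0, 0, 2, 2, 2]),
    (1, .Nt 0 [2, 3] 0 [(2, 3)]),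
    (-13, .PP [3] [0, 2, 2, 2]),
    (2, .PP [0, 2] [3, 3, 3]),
    (-3, .PP [2] [2, 0, 2, 3]),
    (-1, .PP [3, 3] [0, 2, 2]),
    (4, .PP [3] [2, 2, 0, 2]),
    (2, .PP [2] [0, 2, 2, 3]),
    (2, .PP [2, 2] [0, 2, 3]),
    (-2, .PP [2] [2, 3, 0, 2]),
    (4, .PP [2] [3, 0, 2, 2]),
    (-2, .PP [2] [3, 2, 0, 2]),
    (1, .PP [3] [0, 3, 2, 2]),
    (-1, .PP [3, 3] [0, 2, 3]),
    (1, .PP [3] [3, 0, 2, 2]),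
    (-1, .PP [3] [3, 3, 0, 2]),
    (-1, .PP [3] [3, 0, 3, 2]),
    (-1, .PP [3] [0, 3, 3, 2])])

theorem c5e13_ok : checkCert5 Fin.val c5e13.1 c5e13.2.1 c5e13.2.2 = true := by
  decide +kernel

/-- A certificate. -/
def c5e14 : ℤ × List (Fin 6) × List (ℤ × Code5 (Fin 6)) :=
  (2, [0, 0, 2, 3, 4], [
    (-80, .PP [2] [0, 0, 3, 4]),
    (-10, .PP [4] [0, 0, 2, 3]),
    (-56, .PP [2] [0, 0, 4, 3]),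
    (-4, .PP [0] [0, 3, 2, 4]),
    (24, .PP [0, 0] [2, 4, 3]),
    (-20, .PP [0] [0, 4, 2, 3]),
    (40, .PP [0, 0] [2, 3, 4]),
    (-38, .PP [0] [0, 4, 3, 2]),
    (-54, .PP [0] [2, 3, 0, 4]),
    (-42, .PP [0] [2, 4, 0, 3]),
    (-4, .PP [0] [3, 0, 2, 4]),
    (-4, .PP [0] [3, 2, 0, 4]),
    (4, .PP [0] [3, 2, 4, 0]),
    (26, .PP [0] [3, 4, 0, 2]),
    (30, .PP [0] [4, 0, 2, 3]),
    (-12, .PP [0] [4, 0, 3, 2]),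
    (20, .PP [0] [4, 2, 3, 0]),
    (38, .PP [0] [4, 3, 0, 2]),
    (38, .PP [0] [4, 3, 2, 0]),
    (84, .PP [3] [0, 0, 4, 2]),
    (8, .PP [2] [3, 0, 0, 4]),
    (-6, .PP [2] [0, 3, 0, 4]),
    (6, .PP [0] [0, 2, 3, 4]),
    (6, .PP [0] [2, 0, 3, 4]),
    (-52, .PP [2] [3, 4, 0, 0]),
    (16, .PP [2] [4, 0, 0, 3]),
    (-2, .PP [2] [0, 4, 0, 3]),
    (2, .PP [0] [0, 2, 4, 3]),
    (2, .PP [0] [2, 0, 4, 3]),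
    (-76, .PP [2] [4, 3, 0, 0]),
    (60, .PP [4] [2, 3, 0, 0]),
    (-46, .PP [0] [2, 3, 4, 0]),
    (34, .PP [4] [0, 0, 3, 2]),
    (-26, .PP [0] [2, 4, 3, 0]),
    (-26, .PP [0] [0, 3, 4, 2]),
    (-26, .PP [0] [3, 0, 4, 2]),
    (26, .PP [0] [3, 4, 2, 0]),
    (30, .PP [0] [4, 2, 0, 3]),
    (-26, .Nt 4 [0, 2, 3] 0 [(0, 0), (0, 1), (2, 0)]),
    (28, .Mrg 0 2 [0, 0, 0, 4, 3]),
    (-56, .PP [2] [2, 0, 4, 3]),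
    (18, .Mrg 0 2 [0, 0, 4, 0, 3]),
    (32, .PP [2, 2] [0, 3, 4]),
    (46, .PP [4] [2, 2, 0, 3]),
    (-60, .PP [2] [2, 0, 3, 4]),
    (-32, .PP [2] [2, 4, 0, 3]),
    (18, .PP [2] [4, 0, 3, 2]),
    (-32, .PP [4] [0, 3, 2, 2]),
    (-32, .PP [4] [0, 2, 3, 2]),
    (-32, .PP [4] [0, 2, 2, 3]),
    (40, .PP [2] [0, 4, 3, 3]),
    (-14, .PP [2] [0, 4, 2, 3]),
    (14, .PP [2, 4] [0, 2, 3]),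
    (14, .PP [2, 3] [0, 4, 2]),
    (-40, .Mrg 0 3 [0, 0, 0, 4, 2]),
    (26, .Mrg 2 4 [0, 0, 2, 2, 3]),
    (-32, .PP [3, 3] [0, 4, 2]),
    (40, .PP [3] [3, 0, 4, 2]),
    (-40, .Mrg 0 2 [0, 0, 4, 3, 3]),
    (10, .Mrg 0 4 [0, 0, 0, 2, 3]),
    (32, .PP [3] [0, 3, 4, 2]),
    (-14, .Mrg 0 4 [0, 2, 2, 0, 3]),
    (-14, .PP [3] [0, 2, 4, 2]),
    (-14, .PP [3] [0, 2, 2, 4]),
    (-14, .PP [2] [0, 2, 3, 4]),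
    (26, .Mrg 0 4 [0, 0, 0, 3, 2]),
    (28, .Mrg 0 2 [0, 0, 0, 3, 4]),
    (18, .PP [2] [4, 0, 2, 3]),
    (-14, .PP [2] [4, 2, 0, 3]),
    (4, .PP [2] [0, 4, 3, 2]),
    (-12, .Nt 4 [0, 2, 3] 0 [(0, 0), (0, 0), (2, 1)]),
    (-4, .Nt 4 [0, 2, 3] 0 [(0, 0), (2, 0), (2, 1)]),
    (4, .PP [0] [4, 2, 3, 2]),
    (8, .PP [0] [4, 2, 2, 3]),
    (-14, .Mrg 0 3 [0, 2, 0, 2, 4]),
    (14, .PP [2] [3, 0, 2, 4]),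
    (-10, .PP [2] [0, 2, 4, 3]),
    (8, .Mrg 2 3 [0, 2, 0, 4, 2]),
    (-8, .PP [0, 2] [0, 4, 3]),
    (-8, .PP [0, 3] [0, 4, 2]),
    (44, .PP [3] [2, 4, 0, 0]),
    (8, .PP [3] [0, 4, 0, 2]),
    (8, .PP [4] [0, 2, 3, 3]),
    (-8, .PP [4] [3, 3, 0, 2]),
    (8, .PP [4] [0, 3, 3, 2]),
    (8, .PP [4] [0, 3, 2, 3]),
    (8, .PP [3] [3, 0, 2, 4]),
    (-8, .PP [3] [4, 0, 2, 3]),
    (-8, .PP [3] [0, 4, 2, 3]),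
    (-8, .Mrg 0 3 [0, 0, 4, 0, 2]),
    (-8, .PP [0] [4, 3, 2, 3]),
    (-16, .PP [0] [4, 3, 3, 2]),
    (-16, .Mrg 2 3 [0, 0, 2, 2, 4]),
    (8, .Nt 4 [0, 2, 3] 0 [(0, 0), (3, 0), (3, 1)]),
    (-14, .Mrg 2 4 [0, 2, 0, 3, 2]),
    (14, .PP [0, 2] [0, 3, 4]),
    (-14, .PP [4] [0, 3, 0, 2]),
    (14, .Mrg 0 2 [0, 0, 3, 0, 4]),
    (24, .PP [2, 2] [0, 4, 3]),
    (14, .PP [0, 4] [0, 3, 2]),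
    (14, .PP [2, 4] [0, 3, 2]),
    (-14, .Mrg 0 3 [0, 2, 2, 0, 4]),
    (14, .PP [3] [2, 2, 0, 4]),
    (-14, .PP [2] [2, 3, 0, 4]),
    (14, .Mrg 0 4 [0, 0, 3, 0, 2]),
    (-2, .PP [4] [0, 3, 4, 2]),
    (-2, .Nt 4 [0, 2, 3] 0 [(0, 1), (2, 0), (2, 0)]),
    (-14, .Mrg 0 3 [0, 0, 2, 2, 4]),
    (4, .Nt 4 [0, 2, 3] 0 [(0, 1), (3, 0), (3, 0)]),
    (-8, .PP [3, 3] [0, 2, 4]),
    (8, .PP [3] [3, 4, 0, 2]),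
    (-8, .PP [3] [4, 0, 3, 2]),
    (-14, .Nt 3 [0, 2, 4] 0 [(0, 0), (4, 0), (4, 1)]),
    (14, .PP [0] [3, 4, 2, 4]),
    (28, .PP [0] [3, 4, 4, 2]),
    (10, .Mrg 0 3 [0, 0, 2, 4, 4]),
    (-4, .PP [4, 4] [0, 2, 3]),
    (4, .PP [3] [0, 2, 4, 4]),
    (-10, .PP [4] [0, 4, 2, 3]),
    (4, .PP [4] [4, 0, 2, 3]),
    (26, .Mrg 0 2 [0, 0, 3, 4, 4]),
    (-26, .PP [2] [0, 3, 4, 4]),
    (-12, .PP [4, 4] [0, 3, 2]),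
    (12, .PP [4] [0, 3, 2, 4]),
    (-7, .Nt 3 [0, 2, 4] 0 [(0, 1), (4, 0), (4, 0)]),
    (14, .PP [3] [0, 4, 2, 4]),
    (-14, .PP [3] [4, 4, 0, 2]),
    (14, .PP [3] [0, 4, 4, 2]),
    (14, .PP [4] [3, 4, 0, 2]),
    (-14, .PP [4] [0, 4, 3, 2])])

theorem c5e14_ok : checkCert5 Fin.val c5e14.1 c5e14.2.1 c5e14.2.2 = true := by
  decide +kernel

/-- A certificate. -/
def c5e15 : ℤ × List (Fin 6) × List (ℤ × Code5 (Fin 6)) :=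
  (1, [0, 1, 0, 0, 0], [
    (1, .PP [0] [1, 0, 0, 0]),
    (-4, .Nt 1 [0] 4 [])])

theorem c5e15_ok : checkCert5 Fin.val c5e15.1 c5e15.2.1 c5e15.2.2 = true := by
  decide +kernel

/-- A certificate. -/
def c5e16 : ℤ × List (Fin 6) × List (ℤ × Code5 (Fin 6)) :=
  (2, [0, 1, 0, 0, 1], [
    (5640, .PP [0] [1, 0, 0, 1]),
    (-12483, .PP [1] [1, 0, 0, 0]),
    (602, .PP [0, 1] [0, 0, 1]),
    (-10566, .PP [1] [0, 0, 0, 1]),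
    (-546, .Ar [0, 1] 0 [(0, 0), (0, 2)]),
    (-5277, .PP [1] [0, 0, 0, 0]),
    (-546, .PP [0, 0] [0, 0, 1]),
    (-546, .PP [0] [0, 0, 1, 0]),
    (-1092, .PP [0] [0, 1, 0, 0]),
    (4380, .PP [0, 0] [0, 1, 1]),
    (2463, .PP [0] [0, 0, 1, 1]),
    (-4380, .PP [0] [0, 1, 1, 0]),
    (-3555, .PP [0] [1, 0, 0, 0]),
    (4488, .PP [0] [1, 1, 0, 0]),
    (27234, .Nt 1 [0] 4 []),
    (-22194, .PP [1, 1] [0, 0, 1]),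
    (-60975, .PP [1] [0, 0, 1, 1]),
    (131157, .PP [0] [0, 1, 1, 1]),
    (124368, .PP [0] [1, 0, 1, 1]),
    (-121905, .PP [0] [1, 1, 1, 0]),
    (-303, .Ar [0, 1] 0 [(0, 0), (0, 0), (0, 1)]),
    (606, .PP [0, 1] [0, 0, 0]),
    (-70182, .PP [1] [0, 1, 0, 1]),
    (-600, .PP [0, 1] [0, 1, 1]),
    (-54, .Ar [0, 1] 0 [(1, 0), (1, 2)]),
    (54, .PP [0] [1, 0, 1, 0]),
    (40653, .PP [0] [1, 1, 0, 1]),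
    (9252, .PP [0] [1, 1, 1, 1]),
    (-70182, .PP [1] [1, 0, 0, 1]),
    (-1917, .Ar [0, 1] 0 [(0, 3)]),
    (1917, .Ar [0, 1] 0 [(0, 0), (0, 0), (0, 0), (1, 0)]),
    (81306, .PP [1] [1, 1, 0, 0]),
    (-300, .Ar [0, 1] 0 [(1, 0), (1, 0), (1, 1)]),
    (-6351, .PP [0, 1] [1, 1, 1]),
    (3780, .PP [1, 1] [0, 1, 1]),
    (-1215, .Ar [0, 1] 0 [(0, 0), (1, 0), (1, 0), (1, 0)]),
    (1917, .PP [1] [1, 1, 0, 1]),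
    (1917, .PP [1] [1, 0, 1, 1]),
    (1917, .PP [1] [0, 1, 1, 1]),
    (-10380, .Nt 0 [1] 4 [])])

theorem c5e16_ok : checkCert5 Fin.val c5e16.1 c5e16.2.1 c5e16.2.2 = true := by
  decide +kernel

/-- A certificate. -/
def c5e17 : ℤ × List (Fin 6) × List (ℤ × Code5 (Fin 6)) :=
  (2, [0, 1, 0, 0, 4], [
    (-306, .PP [0] [1, 0, 0, 4]),
    (328, .PP [4] [0, 1, 0, 0]),
    (222, .PP [0] [1, 0, 4, 0]),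
    (-370, .PP [0] [1, 4, 0, 0]),
    (-370, .PP [0] [4, 1, 0, 0]),
    (-592, .PP [0] [0, 1, 0, 4]),
    (-978, .PP [4] [0, 0, 0, 1]),
    (874, .PP [1] [0, 0, 0, 4]),
    (656, .PP [0] [0, 4, 0, 1]),
    (-470, .PP [0] [4, 0, 1, 0]),
    (-414, .PP [0, 0] [0, 4, 1]),
    (228, .PP [0, 0] [0, 1, 4]),
    (-270, .PP [0] [0, 0, 1, 4]),
    (228, .PP [0] [0, 4, 1, 0]),
    (20, .PP [0] [4, 0, 0, 1]),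
    (64, .PP [0, 1] [0, 0, 4]),
    (1098, .PP [1] [4, 0, 0, 0]),
    (-64, .Mrg 1 4 [0, 0, 1, 0, 1]),
    (218, .PP [0] [1, 0, 4, 4]),
    (-84, .PP [1] [0, 0, 4, 4]),
    (-16, .Nt 4 [0, 1] 0 [(0, 1), (1, 1)]),
    (-180, .PP [4] [0, 0, 1, 1]),
    (360, .PP [0, 0] [1, 1, 4]),
    (-228, .PP [4] [1, 1, 0, 0]),
    (180, .PP [0] [4, 1, 1, 1]),
    (478, .PP [1] [0, 0, 4, 1]),
    (96, .PP [1] [1, 0, 4, 1]),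
    (316, .PP [1] [0, 1, 4, 1]),
    (140, .PP [1] [1, 4, 0, 0]),
    (-140, .PP [1] [1, 0, 0, 4]),
    (74, .PP [0] [1, 1, 0, 4]),
    (-206, .PP [0] [1, 1, 4, 0]),
    (-140, .PP [1] [0, 1, 0, 4]),
    (360, .PP [1] [0, 4, 1, 1]),
    (294, .PP [1] [4, 0, 0, 1]),
    (294, .PP [1] [0, 4, 0, 1]),
    (-44, .PP [0] [4, 0, 1, 1]),
    (-296, .Mrg 1 4 [0, 0, 1, 1, 1]),
    (-44, .PP [0] [0, 1, 4, 1]),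
    (44, .PP [0] [1, 4, 1, 0]),
    (154, .PP [1] [0, 0, 1, 4]),
    (-154, .PP [0] [0, 1, 1, 4]),
    (-154, .PP [0] [1, 0, 1, 4]),
    (-44, .PP [0] [1, 0, 4, 1]),
    (-308, .Mrg 0 4 [0, 0, 0, 1, 1]),
    (-150, .Mrg 0 4 [0, 0, 1, 1, 1]),
    (-46, .Nt 4 [0, 1] 0 [(0, 0), (0, 1), (1, 0)]),
    (-110, .PP [0] [4, 1, 0, 1]),
    (46, .Nt 4 [0, 1] 0 [(0, 1), (0, 1)]),
    (-572, .PP [4] [0, 1, 1, 1]),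
    (88, .PP [1] [0, 1, 1, 4]),
    (-132, .PP [1] [1, 0, 1, 4]),
    (-44, .PP [4, 4] [0, 1, 1]),
    (176, .PP [4] [1, 1, 0, 1]),
    (88, .PP [1, 1] [0, 1, 4]),
    (-88, .PP [1] [1, 4, 0, 1]),
    (176, .PP [1] [4, 0, 1, 1]),
    (-88, .PP [1] [4, 1, 0, 1]),
    (-10, .Nt 4 [0, 1] 0 [(1, 0), (1, 0), (1, 1)]),
    (110, .PP [4] [4, 0, 1, 1]),
    (-54, .Nt 4 [0, 1] 0 [(0, 0), (0, 0), (0, 1)]),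
    (40, .Nt 1 [0, 4] 0 [(0, 3)]),
    (-4, .PP [0, 1] [4, 4, 4]),
    (-146, .Mrg 1 4 [0, 0, 0, 1, 1]),
    (2, .PP [4] [0, 4, 4, 1]),
    (2, .PP [4, 4] [0, 1, 4]),
    (-4, .Nt 4 [0, 1] 0 [(0, 3)]),
    (2, .PP [4] [4, 4, 0, 1]),
    (2, .PP [4] [4, 0, 4, 1]),
    (2, .Nt 1 [0, 4] 0 [(0, 1), (4, 1)]),
    (390, .PP [4, 4] [0, 0, 1]),
    (202, .PP [0] [4, 0, 4, 1]),
    (332, .PP [0] [1, 4, 0, 4]),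
    (134, .PP [0] [4, 1, 0, 4]),
    (-196, .PP [4] [0, 0, 1, 4]),
    (-268, .PP [1] [4, 0, 0, 4]),
    (202, .PP [0] [0, 4, 4, 1]),
    (64, .PP [0] [1, 4, 4, 0]),
    (-202, .PP [0] [4, 4, 1, 0]),
    (404, .PP [1] [4, 4, 0, 0]),
    (-136, .PP [4] [1, 4, 0, 0]),
    (-62, .Nt 1 [0, 4] 0 [(0, 0), (0, 2)]),
    (-202, .PP [0] [4, 4, 0, 1]),
    (-194, .PP [4] [0, 4, 0, 1]),
    (-394, .PP [0, 0] [1, 4, 4]),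
    (62, .PP [0, 4] [0, 0, 1]),
    (4, .Nt 4 [0, 1] 0 [(0, 0), (0, 2)]),
    (-62, .Mrg 1 4 [0, 1, 0, 1, 1]),
    (-62, .PP [4] [0, 1, 0, 1]),
    (62, .PP [0, 1] [0, 4, 1]),
    (62, .PP [0, 1] [0, 1, 4]),
    (62, .PP [0, 4] [0, 4, 1]),
    (62, .PP [0, 4] [0, 1, 4]),
    (-194, .PP [4] [4, 0, 0, 1]),
    (134, .PP [0] [4, 0, 1, 4]),
    (134, .PP [0] [0, 4, 1, 4]),
    (-134, .PP [0] [4, 1, 4, 0]),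
    (64, .Nt 1 [0, 4] 0 [(0, 0), (0, 1), (4, 0)]),
    (-2, .Mrg 0 4 [0, 0, 0, 0, 1]),
    (-186, .PP [1, 4] [0, 0, 0]),
    (372, .PP [0] [0, 0, 4, 1]),
    (2, .Nt 4 [0, 1] 0 [(1, 1), (1, 1)]),
    (184, .Mrg 0 1 [0, 0, 0, 0, 4]),
    (-184, .PP [0, 4] [1, 1, 1]),
    (-184, .PP [1, 1] [0, 0, 4]),
    (-184, .PP [0] [1, 4, 0, 1]),
    (-184, .PP [1, 1] [0, 4, 1]),
    (-118, .PP [0] [0, 4, 1, 1]),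
    (118, .PP [0] [4, 1, 1, 0]),
    (44, .Nt 0 [1, 4] 0 [(1, 3)]),
    (374, .PP [4] [0, 4, 1, 1]),
    (1, .Nt 1 [0, 4] 0 [(4, 0), (4, 0), (4, 1)]),
    (-204, .PP [0] [1, 4, 4, 4]),
    (356, .Mrg 0 1 [0, 0, 4, 4, 4]),
    (66, .Nt 0 [1, 4] 0 [(1, 0), (1, 1), (4, 0)]),
    (66, .PP [4] [0, 1, 1, 4]),
    (-330, .PP [1] [0, 4, 0, 4]),
    (330, .PP [0] [0, 1, 4, 4]),
    (-330, .PP [4] [0, 0, 4, 1]),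
    (-66, .PP [4] [1, 4, 0, 1]),
    (66, .PP [1] [4, 4, 0, 1]),
    (66, .Mrg 0 1 [0, 0, 4, 0, 4]),
    (-66, .PP [1, 4] [0, 0, 4]),
    (-66, .Mrg 0 4 [0, 0, 1, 0, 1]),
    (-66, .PP [1, 4] [0, 0, 1]),
    (-66, .Nt 4 [0, 1] 0 [(1, 0), (1, 2)]),
    (-66, .Nt 0 [1, 4] 0 [(1, 0), (1, 2)]),
    (66, .PP [0, 1] [1, 4, 4]),
    (-66, .Mrg 0 4 [0, 1, 0, 1, 1]),
    (66, .Nt 0 [1, 4] 0 [(4, 0), (4, 2)]),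
    (-66, .PP [0, 4] [1, 1, 4]),
    (66, .Nt 1 [0, 4] 0 [(4, 0), (4, 2)]),
    (-198, .PP [1] [0, 4, 4, 4]),
    (-132, .PP [4] [1, 1, 0, 4]),
    (132, .PP [4] [0, 1, 4, 1]),
    (198, .PP [1] [1, 0, 4, 4]),
    (66, .PP [1] [1, 4, 0, 4]),
    (-264, .PP [1] [0, 4, 1, 4]),
    (-264, .PP [1] [0, 4, 4, 1]),
    (-66, .PP [1] [4, 0, 1, 4]),
    (66, .PP [1] [4, 1, 0, 4]),
    (-66, .PP [1] [4, 0, 4, 1]),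
    (66, .Mrg 0 1 [0, 4, 0, 4, 4]),
    (-132, .PP [1] [0, 1, 4, 4]),
    (66, .Nt 4 [0, 1] 0 [(0, 0), (1, 2)])])

theorem c5e17_ok : checkCert5 Fin.val c5e17.1 c5e17.2.1 c5e17.2.2 = true := by
  decide +kernel

/-- A certificate. -/
def c5e18 : ℤ × List (Fin 6) × List (ℤ × Code5 (Fin 6)) :=
  (1, [0, 1, 0, 1, 0], [
    (-39, .PP [0] [1, 0, 1, 0]),
    (-446, .PP [0, 1] [0, 0, 1]),
    (7826, .PP [1] [0, 0, 0, 1]),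
    (-4176, .PP [0] [1, 0, 0, 1]),
    (9246, .PP [1] [1, 0, 0, 0]),
    (404, .Ar [0, 1] 0 [(0, 0), (0, 2)]),
    (3912, .PP [1] [0, 0, 0, 0]),
    (404, .PP [0, 0] [0, 0, 1]),
    (404, .PP [0] [0, 0, 1, 0]),
    (808, .PP [0] [0, 1, 0, 0]),
    (-3244, .PP [0, 0] [0, 1, 1]),
    (-1824, .PP [0] [0, 0, 1, 1]),
    (3244, .PP [0] [0, 1, 1, 0]),
    (2632, .PP [0] [1, 0, 0, 0]),
    (-3324, .PP [0] [1, 1, 0, 0]),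
    (-20164, .Nt 1 [0] 4 []),
    (16440, .PP [1, 1] [0, 0, 1]),
    (45164, .PP [1] [0, 0, 1, 1]),
    (-97148, .PP [0] [0, 1, 1, 1]),
    (-92120, .PP [0] [1, 0, 1, 1]),
    (90296, .PP [0] [1, 1, 1, 0]),
    (224, .Ar [0, 1] 0 [(0, 0), (0, 0), (0, 1)]),
    (-448, .PP [0, 1] [0, 0, 0]),
    (51984, .PP [1] [0, 1, 0, 1]),
    (444, .PP [0, 1] [0, 1, 1]),
    (40, .Ar [0, 1] 0 [(1, 0), (1, 2)]),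
    (-30112, .PP [0] [1, 1, 0, 1]),
    (-6852, .PP [0] [1, 1, 1, 1]),
    (51984, .PP [1] [1, 0, 0, 1]),
    (1420, .Ar [0, 1] 0 [(0, 3)]),
    (-1420, .Ar [0, 1] 0 [(0, 0), (0, 0), (0, 0), (1, 0)]),
    (-60224, .PP [1] [1, 1, 0, 0]),
    (222, .Ar [0, 1] 0 [(1, 0), (1, 0), (1, 1)]),
    (4704, .PP [0, 1] [1, 1, 1]),
    (-2800, .PP [1, 1] [0, 1, 1]),
    (900, .Ar [0, 1] 0 [(0, 0), (1, 0), (1, 0), (1, 0)]),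
    (-1420, .PP [1] [1, 1, 0, 1]),
    (-1420, .PP [1] [1, 0, 1, 1]),
    (-1420, .PP [1] [0, 1, 1, 1]),
    (7692, .Nt 0 [1] 4 [])])

theorem c5e18_ok : checkCert5 Fin.val c5e18.1 c5e18.2.1 c5e18.2.2 = true := by
  decide +kernel

/-- A certificate. -/
def c5e19 : ℤ × List (Fin 6) × List (ℤ × Code5 (Fin 6)) :=
  (2, [0, 1, 0, 1, 1], [
    (-18, .PP [0] [1, 0, 1, 1]),
    (12, .PP [1] [0, 0, 1, 1]),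
    (-24, .PP [0] [0, 1, 1, 1]),
    (18, .PP [0] [1, 1, 1, 0]),
    (12, .PP [1] [0, 1, 0, 1]),
    (2, .PP [0, 1] [0, 1, 1]),
    (-12, .PP [1] [1, 1, 0, 0]),
    (1, .Ar [0, 1] 0 [(1, 0), (1, 0), (1, 1)]),
    (-6, .PP [0] [1, 1, 0, 1]),
    (-6, .PP [0] [1, 1, 1, 1]),
    (12, .PP [1] [1, 0, 0, 1]),
    (2, .PP [0, 1] [1, 1, 1]),
    (-14, .Nt 0 [1] 4 [])])

theorem c5e19_ok : checkCert5 Fin.val c5e19.1 c5e19.2.1 c5e19.2.2 = true := by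
  decide +kernel

/-- A certificate. -/
def c5e20 : ℤ × List (Fin 6) × List (ℤ × Code5 (Fin 6)) :=
  (1, [0, 1, 0, 1, 4], [
    (-5, .PP [0] [1, 0, 1, 4]),
    (6, .PP [1] [0, 0, 1, 4]),
    (-6, .PP [0] [0, 1, 1, 4]),
    (-36, .PP [0] [1, 1, 4, 0]),
    (-9, .PP [0] [4, 1, 0, 1]),
    (-10, .PP [1, 4] [0, 0, 1]),
    (3, .PP [0] [1, 0, 4, 1]),
    (2, .PP [0] [0, 1, 4, 1]),
    (-2, .PP [0] [1, 4, 1, 0]),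
    (-22, .PP [4] [1, 1, 0, 0]),
    (26, .PP [1] [1, 4, 0, 0]),
    (-26, .PP [1] [1, 0, 0, 4]),
    (-26, .PP [1] [0, 1, 0, 4]),
    (32, .PP [1] [4, 0, 0, 1]),
    (56, .PP [1] [0, 0, 4, 1]),
    (-14, .PP [0] [0, 4, 1, 1]),
    (17, .PP [0] [1, 1, 0, 4]),
    (14, .PP [0] [4, 1, 1, 0]),
    (32, .PP [1] [0, 4, 0, 1]),
    (42, .PP [0, 0] [1, 1, 4]),
    (-10, .Nt 4 [0, 1] 0 [(1, 0), (1, 2)]),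
    (22, .PP [0] [4, 1, 1, 1]),
    (-44, .PP [4] [0, 1, 1, 1]),
    (34, .PP [1] [0, 1, 4, 1]),
    (2, .PP [0, 1] [1, 1, 4]),
    (-12, .PP [1] [1, 0, 1, 4]),
    (14, .PP [4] [1, 1, 0, 1]),
    (8, .PP [1, 1] [0, 1, 4]),
    (-8, .PP [1] [1, 4, 0, 1]),
    (16, .PP [1] [1, 0, 4, 1]),
    (16, .PP [1] [4, 0, 1, 1]),
    (40, .PP [1] [0, 4, 1, 1]),
    (-6, .PP [1] [4, 1, 0, 1]),
    (-10, .Mrg 0 4 [0, 1, 0, 1, 1]),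
    (-1, .Ar [0, 1, 4] 0 [(0, 0), (0, 1), (1, 0)]),
    (-17, .PP [0] [0, 0, 1, 4]),
    (49, .PP [0] [0, 0, 4, 1]),
    (-41, .PP [0] [0, 1, 0, 4]),
    (-16, .PP [0] [1, 0, 0, 4]),
    (26, .PP [4] [0, 1, 0, 0]),
    (-76, .PP [4] [0, 0, 0, 1]),
    (52, .PP [0] [0, 4, 0, 1]),
    (-28, .PP [0] [4, 0, 1, 0]),
    (21, .PP [0, 0] [0, 1, 4]),
    (21, .PP [0] [0, 4, 1, 0]),
    (9, .PP [0] [4, 0, 0, 1]),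
    (-1, .PP [0, 4] [0, 1, 1]),
    (72, .PP [1] [4, 0, 0, 0]),
    (31, .PP [0] [1, 0, 4, 4]),
    (17, .PP [0] [4, 0, 1, 4]),
    (-45, .PP [0, 0] [0, 4, 1]),
    (-25, .Mrg 1 4 [0, 0, 0, 1, 1]),
    (-9, .Mrg 1 4 [0, 0, 1, 0, 1]),
    (-7, .Nt 1 [0, 4] 0 [(0, 0), (0, 2)]),
    (7, .PP [0, 1] [0, 0, 4]),
    (25, .PP [0] [4, 0, 4, 1]),
    (19, .PP [0] [1, 0, 4, 0]),
    (-30, .Mrg 1 4 [0, 0, 1, 1, 1]),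
    (-23, .PP [0] [1, 4, 0, 0]),
    (-23, .PP [0] [4, 1, 0, 0]),
    (46, .PP [1] [0, 0, 0, 4]),
    (17, .PP [0] [4, 1, 0, 4]),
    (-22, .PP [4] [0, 0, 1, 1]),
    (7, .Nt 1 [0, 4] 0 [(0, 0), (0, 1), (4, 0)]),
    (41, .PP [0] [1, 4, 0, 4]),
    (-7, .Mrg 1 4 [0, 1, 0, 1, 1]),
    (7, .PP [0, 1] [0, 4, 1]),
    (7, .PP [0, 4] [0, 4, 1]),
    (7, .PP [0, 4] [0, 1, 4]),
    (-14, .PP [1] [0, 0, 4, 4]),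
    (-2, .Nt 4 [0, 1] 0 [(0, 1), (1, 1)]),
    (-26, .Mrg 0 4 [0, 0, 1, 1, 1]),
    (-6, .Nt 4 [0, 1] 0 [(0, 0), (0, 1), (1, 0)]),
    (6, .Nt 4 [0, 1] 0 [(0, 1), (0, 1)]),
    (-6, .Nt 4 [0, 1] 0 [(0, 0), (0, 0), (0, 1)]),
    (2, .Nt 1 [0, 4] 0 [(0, 3)]),
    (-2, .Nt 4 [0, 1] 0 [(0, 3)]),
    (-34, .Mrg 0 4 [0, 0, 0, 1, 1]),
    (2, .Nt 0 [1, 4] 0 [(1, 3)]),
    (-2, .PP [4, 4] [0, 1, 1]),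
    (4, .PP [1] [0, 1, 1, 4]),
    (42, .PP [4] [0, 4, 1, 1]),
    (10, .PP [4] [4, 0, 1, 1]),
    (46, .Mrg 0 1 [0, 0, 4, 4, 4]),
    (8, .Nt 0 [1, 4] 0 [(1, 0), (1, 1), (4, 0)]),
    (8, .PP [4] [0, 1, 1, 4]),
    (24, .Mrg 0 1 [0, 0, 0, 0, 4]),
    (-24, .PP [0, 4] [1, 1, 1]),
    (-24, .PP [1, 1] [0, 0, 4]),
    (-24, .PP [0] [1, 4, 0, 1]),
    (-24, .PP [1, 1] [0, 4, 1]),
    (-16, .PP [4] [1, 4, 0, 0]),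
    (-32, .PP [1] [4, 0, 0, 4]),
    (-40, .PP [1] [0, 4, 0, 4]),
    (40, .PP [0] [0, 1, 4, 4]),
    (8, .PP [0] [1, 4, 4, 0]),
    (-40, .PP [4] [0, 0, 4, 1]),
    (16, .PP [0] [0, 4, 1, 4]),
    (-16, .PP [0] [4, 1, 4, 0]),
    (-8, .PP [4] [1, 4, 0, 1]),
    (8, .PP [1] [4, 4, 0, 1]),
    (24, .PP [0] [0, 4, 4, 1]),
    (-24, .PP [0] [4, 4, 1, 0]),
    (-24, .PP [1, 4] [0, 0, 0]),
    (8, .PP [0, 4] [0, 0, 1]),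
    (-8, .PP [4] [0, 1, 0, 1]),
    (8, .PP [0, 1] [0, 1, 4]),
    (8, .Mrg 0 1 [0, 0, 4, 0, 4]),
    (-8, .PP [1, 4] [0, 0, 4]),
    (-8, .Mrg 0 4 [0, 0, 1, 0, 1]),
    (-8, .Nt 0 [1, 4] 0 [(1, 0), (1, 2)]),
    (8, .PP [0, 1] [1, 4, 4]),
    (8, .Nt 0 [1, 4] 0 [(4, 0), (4, 2)]),
    (-8, .PP [0, 4] [1, 1, 4]),
    (8, .Nt 1 [0, 4] 0 [(4, 0), (4, 2)]),
    (-24, .PP [0] [1, 4, 4, 4]),
    (-24, .PP [1] [0, 4, 4, 4]),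
    (-48, .PP [0, 0] [1, 4, 4]),
    (-16, .PP [4] [1, 1, 0, 4]),
    (16, .PP [4] [0, 1, 4, 1]),
    (24, .PP [1] [1, 0, 4, 4]),
    (8, .PP [1] [1, 4, 0, 4]),
    (-32, .PP [1] [0, 4, 1, 4]),
    (-32, .PP [1] [0, 4, 4, 1]),
    (-8, .PP [1] [4, 0, 1, 4]),
    (8, .PP [1] [4, 1, 0, 4]),
    (48, .PP [1] [4, 4, 0, 0]),
    (-8, .PP [1] [4, 0, 4, 1]),
    (8, .Mrg 0 1 [0, 4, 0, 4, 4]),
    (-24, .PP [4] [0, 0, 1, 4]),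
    (-24, .PP [0] [4, 4, 0, 1]),
    (48, .PP [4, 4] [0, 0, 1]),
    (-24, .PP [4] [4, 0, 0, 1]),
    (-24, .PP [4] [0, 4, 0, 1]),
    (-16, .PP [1] [0, 1, 4, 4]),
    (8, .Nt 4 [0, 1] 0 [(0, 0), (1, 2)])])

theorem c5e20_ok : checkCert5 Fin.val c5e20.1 c5e20.2.1 c5e20.2.2 = true := by
  decide +kernel

/-- A certificate. -/
def c5e21 : ℤ × List (Fin 6) × List (ℤ × Code5 (Fin 6)) :=
  (1, [0, 1, 0, 3, 0], [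
    (3, .PP [0] [1, 0, 3, 0]),
    (18, .PP [1] [0, 0, 0, 3]),
    (-12, .PP [3] [0, 0, 0, 1]),
    (-8, .PP [0] [0, 1, 0, 3]),
    (-2, .PP [0, 0] [0, 3, 1]),
    (2, .PP [0, 0] [0, 1, 3]),
    (-4, .PP [0] [0, 0, 1, 3]),
    (2, .PP [0] [0, 3, 1, 0]),
    (-6, .PP [0] [1, 0, 0, 3]),
    (-6, .PP [0] [1, 3, 0, 0]),
    (-2, .PP [0] [3, 0, 0, 1]),
    (-6, .PP [0] [3, 1, 0, 0]),
    (4, .PP [3] [0, 1, 0, 0]),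
    (8, .PP [0] [0, 3, 0, 1]),
    (-8, .PP [0] [3, 0, 1, 0]),
    (-2, .PP [0, 1] [0, 0, 3]),
    (18, .PP [1] [3, 0, 0, 0]),
    (2, .Mrg 1 3 [0, 0, 1, 0, 1]),
    (6, .Mrg 1 3 [0, 0, 0, 1, 1])])

theorem c5e21_ok : checkCert5 Fin.val c5e21.1 c5e21.2.1 c5e21.2.2 = true := by
  decide +kernel

/-- A certificate. -/
def c5e22 : ℤ × List (Fin 6) × List (ℤ × Code5 (Fin 6)) :=
  (1, [0, 1, 0, 3, 1], [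
    (228, .PP [0] [3, 1, 0, 1]),
    (131, .Nt 1 [0, 3] 0 [(0, 0), (0, 2)]),
    (-688, .PP [3] [0, 1, 0, 0]),
    (638, .PP [0] [1, 0, 0, 3]),
    (-469, .PP [0] [1, 0, 3, 0]),
    (773, .PP [0] [1, 3, 0, 0]),
    (773, .PP [0] [3, 1, 0, 0]),
    (1240, .PP [0] [0, 1, 0, 3]),
    (2052, .PP [3] [0, 0, 0, 1]),
    (-1826, .PP [1] [0, 0, 0, 3]),
    (-1376, .PP [0] [0, 3, 0, 1]),
    (980, .PP [0] [3, 0, 1, 0]),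
    (-131, .PP [0, 1] [0, 0, 3]),
    (877, .PP [0, 0] [0, 3, 1]),
    (-481, .PP [0, 0] [0, 1, 3]),
    (564, .PP [0] [0, 0, 1, 3]),
    (-481, .PP [0] [0, 3, 1, 0]),
    (-48, .PP [0] [3, 0, 0, 1]),
    (-474, .PP [0] [1, 0, 3, 3]),
    (-2298, .PP [1] [3, 0, 0, 0]),
    (-288, .PP [0] [3, 1, 0, 3]),
    (88, .PP [0] [3, 0, 1, 1]),
    (186, .PP [1] [0, 0, 3, 3]),
    (-711, .PP [0] [1, 3, 0, 3]),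
    (-288, .PP [0] [3, 0, 1, 3]),
    (652, .Mrg 0 3 [0, 0, 0, 1, 1]),
    (98, .Nt 3 [0, 1] 0 [(0, 0), (0, 1), (1, 0)]),
    (309, .Mrg 1 3 [0, 0, 0, 1, 1]),
    (-130, .PP [0, 1] [0, 3, 1]),
    (396, .PP [1, 3] [0, 0, 0]),
    (-794, .PP [0] [0, 0, 3, 1]),
    (-98, .Nt 3 [0, 1] 0 [(0, 1), (0, 1)]),
    (2, .Ar [0, 1, 3] 0 [(0, 0), (0, 1), (1, 0)]),
    (-167, .PP [0] [1, 1, 0, 3]),
    (309, .PP [0] [1, 0, 1, 3]),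
    (82, .PP [0] [1, 0, 3, 1]),
    (2, .PP [0, 3] [0, 1, 1]),
    (131, .Mrg 1 3 [0, 0, 1, 0, 1]),
    (-433, .PP [0] [3, 0, 3, 1]),
    (-762, .PP [0, 0] [1, 1, 3]),
    (376, .PP [3] [0, 0, 1, 1]),
    (-311, .PP [1] [0, 0, 1, 3]),
    (311, .PP [0] [0, 1, 1, 3]),
    (476, .PP [3] [1, 1, 0, 0]),
    (-619, .PP [1] [3, 0, 0, 1]),
    (-308, .PP [1] [1, 3, 0, 0]),
    (308, .PP [1] [1, 0, 0, 3]),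
    (-1011, .PP [1] [0, 0, 3, 1]),
    (451, .PP [0] [1, 1, 3, 0]),
    (308, .PP [1] [0, 1, 0, 3]),
    (-619, .PP [1] [0, 3, 0, 1]),
    (84, .PP [0] [0, 1, 3, 1]),
    (-84, .PP [0] [1, 3, 1, 0]),
    (249, .PP [0] [0, 3, 1, 1]),
    (-249, .PP [0] [3, 1, 1, 0]),
    (143, .PP [1, 3] [0, 0, 1]),
    (143, .Nt 3 [0, 1] 0 [(1, 0), (1, 2)]),
    (-384, .PP [0] [3, 1, 1, 1]),
    (1162, .PP [3] [0, 1, 1, 1]),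
    (-176, .PP [1] [0, 1, 1, 3]),
    (-660, .PP [1] [0, 1, 3, 1]),
    (-2, .PP [0, 1] [1, 1, 3]),
    (270, .PP [1] [1, 0, 1, 3]),
    (88, .PP [3, 3] [0, 1, 1]),
    (-358, .PP [3] [1, 1, 0, 1]),
    (-180, .PP [1, 1] [0, 1, 3]),
    (180, .PP [1] [1, 3, 0, 1]),
    (-212, .PP [1] [1, 0, 3, 1]),
    (-360, .PP [1] [3, 0, 1, 1]),
    (-752, .PP [1] [0, 3, 1, 1]),
    (178, .PP [1] [3, 1, 0, 1]),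
    (20, .Nt 3 [0, 1] 0 [(1, 0), (1, 0), (1, 1)]),
    (-229, .PP [3] [3, 0, 1, 1]),
    (143, .Mrg 0 3 [0, 1, 0, 1, 1]),
    (-135, .Nt 1 [0, 3] 0 [(0, 0), (0, 1), (3, 0)]),
    (131, .Mrg 1 3 [0, 1, 0, 1, 1]),
    (131, .PP [3] [0, 1, 0, 1]),
    (-131, .PP [0, 1] [0, 1, 3]),
    (-131, .PP [0, 3] [0, 3, 1]),
    (-131, .PP [0, 3] [0, 1, 3]),
    (34, .Nt 3 [0, 1] 0 [(0, 1), (1, 1)]),
    (-392, .Mrg 0 1 [0, 0, 0, 0, 3]),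
    (392, .PP [0, 3] [1, 1, 1]),
    (392, .PP [1, 1] [0, 0, 3]),
    (392, .PP [0] [1, 3, 0, 1]),
    (392, .PP [1, 1] [0, 3, 1]),
    (333, .Mrg 0 3 [0, 0, 1, 1, 1]),
    (115, .Nt 3 [0, 1] 0 [(0, 0), (0, 0), (0, 1)]),
    (-80, .Nt 1 [0, 3] 0 [(0, 3)]),
    (8, .PP [0, 1] [3, 3, 3]),
    (-4, .PP [3] [0, 3, 3, 1]),
    (-4, .PP [3, 3] [0, 1, 3]),
    (8, .Nt 3 [0, 1] 0 [(0, 3)]),
    (-88, .Nt 0 [1, 3] 0 [(1, 3)]),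
    (-793, .PP [3] [0, 3, 1, 1]),
    (-4, .PP [3] [3, 3, 0, 1]),
    (-4, .PP [3] [3, 0, 3, 1]),
    (-4, .Nt 1 [0, 3] 0 [(0, 1), (3, 1)]),
    (-834, .PP [3, 3] [0, 0, 1]),
    (419, .PP [3] [0, 0, 1, 3]),
    (572, .PP [1] [3, 0, 0, 3]),
    (-431, .PP [0] [0, 3, 3, 1]),
    (-137, .PP [0] [1, 3, 3, 0]),
    (431, .PP [0] [3, 3, 1, 0]),
    (-862, .PP [1] [3, 3, 0, 0]),
    (290, .PP [3] [1, 3, 0, 0]),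
    (431, .PP [0] [3, 3, 0, 1]),
    (415, .PP [3] [0, 3, 0, 1]),
    (842, .PP [0, 0] [1, 3, 3]),
    (-133, .PP [0, 3] [0, 0, 1]),
    (-8, .Nt 3 [0, 1] 0 [(0, 0), (0, 2)]),
    (415, .PP [3] [3, 0, 0, 1]),
    (-286, .PP [0] [0, 3, 1, 3]),
    (286, .PP [0] [3, 1, 3, 0]),
    (4, .Mrg 0 3 [0, 0, 0, 0, 1]),
    (-4, .Nt 3 [0, 1] 0 [(1, 1), (1, 1)]),
    (620, .Mrg 1 3 [0, 0, 1, 1, 1]),
    (-2, .Nt 1 [0, 3] 0 [(3, 0), (3, 0), (3, 1)]),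
    (435, .PP [0] [1, 3, 3, 3]),
    (-766, .Mrg 0 1 [0, 0, 3, 3, 3]),
    (-141, .Nt 0 [1, 3] 0 [(1, 0), (1, 1), (3, 0)]),
    (-141, .PP [3] [0, 1, 1, 3]),
    (705, .PP [1] [0, 3, 0, 3]),
    (-705, .PP [0] [0, 1, 3, 3]),
    (705, .PP [3] [0, 0, 3, 1]),
    (141, .PP [3] [1, 3, 0, 1]),
    (-141, .PP [1] [3, 3, 0, 1]),
    (-141, .Mrg 0 1 [0, 0, 3, 0, 3]),
    (141, .PP [1, 3] [0, 0, 3]),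
    (141, .Mrg 0 3 [0, 0, 1, 0, 1]),
    (141, .Nt 0 [1, 3] 0 [(1, 0), (1, 2)]),
    (-141, .PP [0, 1] [1, 3, 3]),
    (-141, .Nt 0 [1, 3] 0 [(3, 0), (3, 2)]),
    (141, .PP [0, 3] [1, 1, 3]),
    (-141, .Nt 1 [0, 3] 0 [(3, 0), (3, 2)]),
    (423, .PP [1] [0, 3, 3, 3]),
    (282, .PP [3] [1, 1, 0, 3]),
    (-282, .PP [3] [0, 1, 3, 1]),
    (-423, .PP [1] [1, 0, 3, 3]),
    (-141, .PP [1] [1, 3, 0, 3]),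
    (564, .PP [1] [0, 3, 1, 3]),
    (564, .PP [1] [0, 3, 3, 1]),
    (141, .PP [1] [3, 0, 1, 3]),
    (-141, .PP [1] [3, 1, 0, 3]),
    (141, .PP [1] [3, 0, 3, 1]),
    (-141, .Mrg 0 1 [0, 3, 0, 3, 3]),
    (282, .PP [1] [0, 1, 3, 3]),
    (-141, .Nt 3 [0, 1] 0 [(0, 0), (1, 2)])])

theorem c5e22_ok : checkCert5 Fin.val c5e22.1 c5e22.2.1 c5e22.2.2 = true := by
  decide +kernel

/-- A certificate. -/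
def c5e23 : ℤ × List (Fin 6) × List (ℤ × Code5 (Fin 6)) :=
  (2, [0, 1, 0, 3, 3], [
    (84, .PP [1] [0, 0, 3, 3]),
    (-216, .PP [0] [1, 0, 3, 3]),
    (16, .Nt 3 [0, 1] 0 [(0, 1), (1, 1)]),
    (1002, .PP [3] [0, 0, 0, 1]),
    (-910, .PP [1] [0, 0, 0, 3]),
    (320, .PP [0] [1, 0, 0, 3]),
    (-226, .PP [0] [1, 0, 3, 0]),
    (-16, .PP [0] [3, 0, 0, 1]),
    (-336, .PP [3] [0, 1, 0, 0]),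
    (382, .PP [0] [1, 3, 0, 0]),
    (382, .PP [0] [3, 1, 0, 0]),
    (-672, .PP [0] [0, 3, 0, 1]),
    (486, .PP [0] [3, 0, 1, 0]),
    (418, .PP [0, 0] [0, 3, 1]),
    (-232, .PP [0, 0] [0, 1, 3]),
    (278, .PP [0] [0, 0, 1, 3]),
    (-232, .PP [0] [0, 3, 1, 0]),
    (-1134, .PP [1] [3, 0, 0, 0]),
    (180, .PP [3] [0, 0, 1, 1]),
    (-360, .PP [0, 0] [1, 1, 3]),
    (228, .PP [3] [1, 1, 0, 0]),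
    (-180, .PP [0] [3, 1, 1, 1]),
    (-478, .PP [1] [0, 0, 3, 1]),
    (-96, .PP [1] [1, 0, 3, 1]),
    (-316, .PP [1] [0, 1, 3, 1]),
    (-140, .PP [1] [1, 3, 0, 0]),
    (140, .PP [1] [1, 0, 0, 3]),
    (-74, .PP [0] [1, 1, 0, 3]),
    (206, .PP [0] [1, 1, 3, 0]),
    (140, .PP [1] [0, 1, 0, 3]),
    (-360, .PP [1] [0, 3, 1, 1]),
    (-294, .PP [1] [3, 0, 0, 1]),
    (-294, .PP [1] [0, 3, 0, 1]),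
    (60, .Nt 1 [0, 3] 0 [(0, 0), (0, 2)]),
    (-60, .PP [0, 1] [0, 0, 3]),
    (44, .PP [0] [3, 0, 1, 1]),
    (296, .Mrg 1 3 [0, 0, 1, 1, 1]),
    (608, .PP [0] [0, 1, 0, 3]),
    (44, .PP [0] [0, 1, 3, 1]),
    (-44, .PP [0] [1, 3, 1, 0]),
    (-154, .PP [1] [0, 0, 1, 3]),
    (154, .PP [0] [0, 1, 1, 3]),
    (154, .PP [0] [1, 0, 1, 3]),
    (44, .PP [0] [1, 0, 3, 1]),
    (308, .Mrg 0 3 [0, 0, 0, 1, 1]),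
    (150, .Mrg 0 3 [0, 0, 1, 1, 1]),
    (46, .Nt 3 [0, 1] 0 [(0, 0), (0, 1), (1, 0)]),
    (110, .PP [0] [3, 1, 0, 1]),
    (-46, .Nt 3 [0, 1] 0 [(0, 1), (0, 1)]),
    (572, .PP [3] [0, 1, 1, 1]),
    (-88, .PP [1] [0, 1, 1, 3]),
    (132, .PP [1] [1, 0, 1, 3]),
    (44, .PP [3, 3] [0, 1, 1]),
    (-176, .PP [3] [1, 1, 0, 1]),
    (-88, .PP [1, 1] [0, 1, 3]),
    (88, .PP [1] [1, 3, 0, 1]),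
    (-176, .PP [1] [3, 0, 1, 1]),
    (88, .PP [1] [3, 1, 0, 1]),
    (10, .Nt 3 [0, 1] 0 [(1, 0), (1, 0), (1, 1)]),
    (-110, .PP [3] [3, 0, 1, 1]),
    (54, .Nt 3 [0, 1] 0 [(0, 0), (0, 0), (0, 1)]),
    (134, .Mrg 1 3 [0, 0, 0, 1, 1]),
    (-40, .Nt 1 [0, 3] 0 [(0, 3)]),
    (4, .PP [0, 1] [3, 3, 3]),
    (-2, .PP [3] [0, 3, 3, 1]),
    (-2, .PP [3, 3] [0, 1, 3]),
    (4, .Nt 3 [0, 1] 0 [(0, 3)]),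
    (-2, .PP [3] [3, 3, 0, 1]),
    (-2, .PP [3] [3, 0, 3, 1]),
    (-2, .Nt 1 [0, 3] 0 [(0, 1), (3, 1)]),
    (-390, .PP [3, 3] [0, 0, 1]),
    (-202, .PP [0] [3, 0, 3, 1]),
    (-332, .PP [0] [1, 3, 0, 3]),
    (-134, .PP [0] [3, 1, 0, 3]),
    (196, .PP [3] [0, 0, 1, 3]),
    (268, .PP [1] [3, 0, 0, 3]),
    (-202, .PP [0] [0, 3, 3, 1]),
    (-64, .PP [0] [1, 3, 3, 0]),
    (202, .PP [0] [3, 3, 1, 0]),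
    (-404, .PP [1] [3, 3, 0, 0]),
    (136, .PP [3] [1, 3, 0, 0]),
    (60, .Mrg 1 3 [0, 0, 1, 0, 1]),
    (202, .PP [0] [3, 3, 0, 1]),
    (194, .PP [3] [0, 3, 0, 1]),
    (394, .PP [0, 0] [1, 3, 3]),
    (-62, .PP [0, 3] [0, 0, 1]),
    (-4, .Nt 3 [0, 1] 0 [(0, 0), (0, 2)]),
    (62, .Mrg 1 3 [0, 1, 0, 1, 1]),
    (62, .PP [3] [0, 1, 0, 1]),
    (-62, .PP [0, 1] [0, 3, 1]),
    (-62, .PP [0, 1] [0, 1, 3]),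
    (-62, .PP [0, 3] [0, 3, 1]),
    (-62, .PP [0, 3] [0, 1, 3]),
    (194, .PP [3] [3, 0, 0, 1]),
    (-134, .PP [0] [3, 0, 1, 3]),
    (-134, .PP [0] [0, 3, 1, 3]),
    (134, .PP [0] [3, 1, 3, 0]),
    (-64, .Nt 1 [0, 3] 0 [(0, 0), (0, 1), (3, 0)]),
    (2, .Mrg 0 3 [0, 0, 0, 0, 1]),
    (186, .PP [1, 3] [0, 0, 0]),
    (-372, .PP [0] [0, 0, 3, 1]),
    (-2, .Nt 3 [0, 1] 0 [(1, 1), (1, 1)]),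
    (-184, .Mrg 0 1 [0, 0, 0, 0, 3]),
    (184, .PP [0, 3] [1, 1, 1]),
    (184, .PP [1, 1] [0, 0, 3]),
    (184, .PP [0] [1, 3, 0, 1]),
    (184, .PP [1, 1] [0, 3, 1]),
    (118, .PP [0] [0, 3, 1, 1]),
    (-118, .PP [0] [3, 1, 1, 0]),
    (-44, .Nt 0 [1, 3] 0 [(1, 3)]),
    (-374, .PP [3] [0, 3, 1, 1]),
    (-1, .Nt 1 [0, 3] 0 [(3, 0), (3, 0), (3, 1)]),
    (204, .PP [0] [1, 3, 3, 3]),
    (-356, .Mrg 0 1 [0, 0, 3, 3, 3]),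
    (-66, .Nt 0 [1, 3] 0 [(1, 0), (1, 1), (3, 0)]),
    (-66, .PP [3] [0, 1, 1, 3]),
    (330, .PP [1] [0, 3, 0, 3]),
    (-330, .PP [0] [0, 1, 3, 3]),
    (330, .PP [3] [0, 0, 3, 1]),
    (66, .PP [3] [1, 3, 0, 1]),
    (-66, .PP [1] [3, 3, 0, 1]),
    (-66, .Mrg 0 1 [0, 0, 3, 0, 3]),
    (66, .PP [1, 3] [0, 0, 3]),
    (66, .Mrg 0 3 [0, 0, 1, 0, 1]),
    (66, .PP [1, 3] [0, 0, 1]),
    (66, .Nt 3 [0, 1] 0 [(1, 0), (1, 2)]),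
    (66, .Nt 0 [1, 3] 0 [(1, 0), (1, 2)]),
    (-66, .PP [0, 1] [1, 3, 3]),
    (66, .Mrg 0 3 [0, 1, 0, 1, 1]),
    (-66, .Nt 0 [1, 3] 0 [(3, 0), (3, 2)]),
    (66, .PP [0, 3] [1, 1, 3]),
    (-66, .Nt 1 [0, 3] 0 [(3, 0), (3, 2)]),
    (198, .PP [1] [0, 3, 3, 3]),
    (132, .PP [3] [1, 1, 0, 3]),
    (-132, .PP [3] [0, 1, 3, 1]),
    (-198, .PP [1] [1, 0, 3, 3]),
    (-66, .PP [1] [1, 3, 0, 3]),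
    (264, .PP [1] [0, 3, 1, 3]),
    (264, .PP [1] [0, 3, 3, 1]),
    (66, .PP [1] [3, 0, 1, 3]),
    (-66, .PP [1] [3, 1, 0, 3]),
    (66, .PP [1] [3, 0, 3, 1]),
    (-66, .Mrg 0 1 [0, 3, 0, 3, 3]),
    (132, .PP [1] [0, 1, 3, 3]),
    (-66, .Nt 3 [0, 1] 0 [(0, 0), (1, 2)])])

theorem c5e23_ok : checkCert5 Fin.val c5e23.1 c5e23.2.1 c5e23.2.2 = true := by
  decide +kernel

/-- A certificate. -/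
def c5e24 : ℤ × List (Fin 6) × List (ℤ × Code5 (Fin 6)) :=
  (1, [0, 1, 0, 3, 4], [
    (-33, .PP [0] [3, 4, 0, 1]),
    (-22, .PP [0, 1] [0, 3, 4]),
    (4, .PP [0] [3, 0, 1, 4]),
    (22, .PP [4] [0, 3, 0, 1]),
    (-69, .PP [0] [4, 3, 0, 1]),
    (19, .PP [4] [0, 0, 1, 3]),
    (4, .PP [0] [0, 3, 1, 4]),
    (37, .PP [0] [0, 4, 1, 3]),
    (69, .PP [0] [0, 4, 3, 1]),
    (4, .PP [0] [3, 1, 0, 4]),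
    (-4, .PP [0] [3, 1, 4, 0]),
    (28, .PP [0] [4, 0, 3, 1]),
    (-37, .PP [0] [4, 1, 3, 0]),
    (-69, .PP [0] [4, 3, 1, 0]),
    (-118, .PP [3] [0, 0, 4, 1]),
    (-102, .PP [4] [1, 3, 0, 0]),
    (-8, .PP [1] [3, 0, 0, 4]),
    (15, .PP [1] [0, 3, 0, 4]),
    (-15, .PP [0] [0, 1, 3, 4]),
    (140, .PP [1] [0, 0, 3, 4]),
    (-15, .PP [0] [1, 0, 3, 4]),
    (79, .PP [0] [1, 3, 4, 0]),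
    (66, .PP [1] [3, 4, 0, 0]),
    (138, .PP [1] [4, 3, 0, 0]),
    (-36, .PP [1] [4, 0, 0, 3]),
    (-7, .PP [1] [0, 4, 0, 3]),
    (7, .PP [0] [0, 1, 4, 3]),
    (68, .PP [1] [0, 0, 4, 3]),
    (7, .PP [0] [1, 0, 4, 3]),
    (29, .PP [0] [1, 4, 3, 0]),
    (33, .PP [0] [0, 3, 4, 1]),
    (33, .PP [0] [3, 0, 4, 1]),
    (-33, .PP [0] [3, 4, 1, 0]),
    (25, .Mrg 1 3 [0, 0, 1, 1, 4]),
    (-22, .Mrg 0 4 [0, 0, 3, 0, 1]),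
    (-64, .PP [0, 0] [1, 3, 4]),
    (87, .PP [0] [1, 3, 0, 4]),
    (2, .PP [4] [0, 3, 4, 1]),
    (41, .Nt 4 [0, 1, 3] 0 [(0, 0), (0, 1), (1, 0)]),
    (-36, .PP [0, 0] [1, 4, 3]),
    (65, .PP [0] [1, 4, 0, 3]),
    (-60, .PP [4] [0, 0, 3, 1]),
    (-46, .Mrg 0 1 [0, 0, 0, 4, 3]),
    (92, .PP [1] [1, 0, 4, 3]),
    (-29, .Mrg 0 1 [0, 0, 4, 0, 3]),
    (-52, .PP [1, 1] [0, 3, 4]),
    (-75, .PP [4] [1, 1, 0, 3]),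
    (98, .PP [1] [1, 0, 3, 4]),
    (52, .PP [1] [1, 4, 0, 3]),
    (-29, .PP [1] [4, 0, 3, 1]),
    (52, .PP [4] [0, 3, 1, 1]),
    (52, .PP [4] [0, 1, 3, 1]),
    (52, .PP [4] [0, 1, 1, 3]),
    (-60, .PP [1] [0, 4, 3, 3]),
    (23, .PP [1] [0, 4, 1, 3]),
    (-23, .PP [1, 4] [0, 1, 3]),
    (-23, .PP [1, 3] [0, 4, 1]),
    (60, .Mrg 0 3 [0, 0, 0, 4, 1]),
    (-43, .Mrg 1 4 [0, 0, 1, 1, 3]),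
    (48, .PP [3, 3] [0, 4, 1]),
    (-60, .PP [3] [3, 0, 4, 1]),
    (60, .Mrg 0 1 [0, 0, 4, 3, 3]),
    (-19, .Mrg 0 4 [0, 0, 0, 1, 3]),
    (-48, .PP [3] [0, 3, 4, 1]),
    (23, .Mrg 0 4 [0, 1, 1, 0, 3]),
    (23, .PP [3] [0, 1, 4, 1]),
    (23, .PP [3] [0, 1, 1, 4]),
    (23, .PP [1] [0, 1, 3, 4]),
    (-46, .Mrg 0 1 [0, 0, 0, 3, 4]),
    (-29, .PP [1] [4, 0, 1, 3]),
    (23, .PP [1] [4, 1, 0, 3]),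
    (-6, .PP [1] [0, 4, 3, 1]),
    (19, .Nt 4 [0, 1, 3] 0 [(0, 0), (0, 0), (1, 1)]),
    (6, .Nt 4 [0, 1, 3] 0 [(0, 0), (1, 0), (1, 1)]),
    (-6, .PP [0] [4, 1, 3, 1]),
    (-12, .PP [0] [4, 1, 1, 3]),
    (23, .Mrg 0 3 [0, 1, 0, 1, 4]),
    (-23, .PP [1] [3, 0, 1, 4]),
    (17, .PP [1] [0, 1, 4, 3]),
    (-12, .Mrg 1 3 [0, 1, 0, 4, 1]),
    (12, .PP [0, 1] [0, 4, 3]),
    (-42, .PP [0] [4, 1, 0, 3]),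
    (12, .PP [0, 3] [0, 4, 1]),
    (-58, .PP [3] [1, 4, 0, 0]),
    (-12, .PP [3] [0, 4, 0, 1]),
    (-12, .PP [4] [0, 1, 3, 3]),
    (12, .PP [4] [3, 3, 0, 1]),
    (-12, .PP [4] [0, 3, 3, 1]),
    (-12, .PP [4] [0, 3, 1, 3]),
    (-12, .PP [3] [3, 0, 1, 4]),
    (12, .PP [3] [4, 0, 1, 3]),
    (12, .PP [3] [0, 4, 1, 3]),
    (12, .Mrg 0 3 [0, 0, 4, 0, 1]),
    (12, .PP [0] [4, 3, 1, 3]),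
    (-42, .PP [0] [4, 0, 1, 3]),
    (24, .PP [0] [4, 3, 3, 1]),
    (-42, .Mrg 0 4 [0, 0, 0, 3, 1]),
    (-12, .Nt 4 [0, 1, 3] 0 [(0, 0), (3, 0), (3, 1)]),
    (23, .Mrg 1 4 [0, 1, 0, 3, 1]),
    (-23, .Mrg 0 1 [0, 0, 3, 0, 4]),
    (-40, .PP [1, 1] [0, 4, 3]),
    (-23, .PP [0, 4] [0, 3, 1]),
    (-23, .PP [1, 4] [0, 3, 1]),
    (23, .Mrg 0 3 [0, 1, 1, 0, 4]),
    (-23, .PP [3] [1, 1, 0, 4]),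
    (23, .PP [1] [1, 3, 0, 4]),
    (3, .Nt 4 [0, 1, 3] 0 [(0, 1), (1, 0), (1, 0)]),
    (23, .Mrg 0 3 [0, 0, 1, 1, 4]),
    (-6, .Nt 4 [0, 1, 3] 0 [(0, 1), (3, 0), (3, 0)]),
    (12, .PP [3, 3] [0, 1, 4]),
    (-12, .PP [3] [3, 4, 0, 1]),
    (12, .PP [3] [4, 0, 3, 1]),
    (22, .Nt 3 [0, 1, 4] 0 [(0, 0), (4, 0), (4, 1)]),
    (-22, .PP [0] [3, 4, 1, 4]),
    (-44, .PP [0] [3, 4, 4, 1]),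
    (-19, .Mrg 0 3 [0, 0, 1, 4, 4]),
    (3, .PP [4, 4] [0, 1, 3]),
    (-3, .PP [3] [0, 1, 4, 4]),
    (19, .PP [4] [0, 4, 1, 3]),
    (-3, .PP [4] [4, 0, 1, 3]),
    (-42, .Mrg 0 1 [0, 0, 3, 4, 4]),
    (42, .PP [1] [0, 3, 4, 4]),
    (20, .PP [4, 4] [0, 3, 1]),
    (-20, .PP [4] [0, 3, 1, 4]),
    (11, .Nt 3 [0, 1, 4] 0 [(0, 1), (4, 0), (4, 0)]),
    (-22, .PP [3] [0, 4, 1, 4]),
    (22, .PP [3] [4, 4, 0, 1]),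
    (-22, .PP [3] [0, 4, 4, 1]),
    (-22, .PP [4] [3, 4, 0, 1]),
    (22, .PP [4] [0, 4, 3, 1])])

theorem c5e24_ok : checkCert5 Fin.val c5e24.1 c5e24.2.1 c5e24.2.2 = true := by
  decide +kernel

/-- A certificate. -/
def c5e25 : ℤ × List (Fin 6) × List (ℤ × Code5 (Fin 6)) :=
  (2, [0, 1, 1, 0, 0], [
    (1664, .PP [0] [1, 1, 0, 0]),
    (-202, .Ar [0, 1] 0 [(0, 0), (0, 2)]),
    (-1956, .PP [1] [0, 0, 0, 0]),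
    (-3916, .PP [1] [0, 0, 0, 1]),
    (-202, .PP [0, 0] [0, 0, 1]),
    (-202, .PP [0] [0, 0, 1, 0]),
    (-404, .PP [0] [0, 1, 0, 0]),
    (1622, .PP [0, 0] [0, 1, 1]),
    (912, .PP [0] [0, 0, 1, 1]),
    (-1622, .PP [0] [0, 1, 1, 0]),
    (-1316, .PP [0] [1, 0, 0, 0]),
    (2090, .PP [0] [1, 0, 0, 1]),
    (10082, .Nt 1 [0] 4 []),
    (-4626, .PP [1] [1, 0, 0, 0]),
    (-8220, .PP [1, 1] [0, 0, 1]),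
    (-22582, .PP [1] [0, 0, 1, 1]),
    (48574, .PP [0] [0, 1, 1, 1]),
    (46060, .PP [0] [1, 0, 1, 1]),
    (-45148, .PP [0] [1, 1, 1, 0]),
    (-112, .Ar [0, 1] 0 [(0, 0), (0, 0), (0, 1)]),
    (224, .PP [0, 1] [0, 0, 0]),
    (224, .PP [0, 1] [0, 0, 1]),
    (-25992, .PP [1] [0, 1, 0, 1]),
    (-222, .PP [0, 1] [0, 1, 1]),
    (-20, .Ar [0, 1] 0 [(1, 0), (1, 2)]),
    (20, .PP [0] [1, 0, 1, 0]),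
    (15056, .PP [0] [1, 1, 0, 1]),
    (3426, .PP [0] [1, 1, 1, 1]),
    (-25992, .PP [1] [1, 0, 0, 1]),
    (-710, .Ar [0, 1] 0 [(0, 3)]),
    (710, .Ar [0, 1] 0 [(0, 0), (0, 0), (0, 0), (1, 0)]),
    (30112, .PP [1] [1, 1, 0, 0]),
    (-111, .Ar [0, 1] 0 [(1, 0), (1, 0), (1, 1)]),
    (-2352, .PP [0, 1] [1, 1, 1]),
    (1400, .PP [1, 1] [0, 1, 1]),
    (-450, .Ar [0, 1] 0 [(0, 0), (1, 0), (1, 0), (1, 0)]),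
    (710, .PP [1] [1, 1, 0, 1]),
    (710, .PP [1] [1, 0, 1, 1]),
    (710, .PP [1] [0, 1, 1, 1]),
    (-3846, .Nt 0 [1] 4 [])])

theorem c5e25_ok : checkCert5 Fin.val c5e25.1 c5e25.2.1 c5e25.2.2 = true := by
  decide +kernel

/-- A certificate. -/
def c5e26 : ℤ × List (Fin 6) × List (ℤ × Code5 (Fin 6)) :=
  (2, [0, 1, 1, 0, 1], [
    (1632, .PP [1] [0, 1, 0, 1]),
    (-2898, .PP [0] [1, 0, 1, 1]),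
    (-3042, .PP [0] [0, 1, 1, 1]),
    (1410, .PP [1] [0, 0, 1, 1]),
    (2844, .PP [0] [1, 1, 1, 0]),
    (8, .PP [0, 1] [0, 1, 1]),
    (-948, .PP [0] [1, 1, 0, 1]),
    (1632, .PP [1] [1, 0, 0, 1]),
    (-1896, .PP [1] [1, 1, 0, 0]),
    (3, .Ar [0, 1] 0 [(1, 0), (1, 0), (1, 1)]),
    (-198, .PP [0] [1, 1, 1, 1]),
    (528, .PP [1, 1] [0, 0, 1]),
    (132, .PP [0, 1] [1, 1, 1]),
    (-84, .PP [1, 1] [0, 1, 1]),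
    (6, .Ar [0, 1] 0 [(0, 0), (0, 0), (0, 1)]),
    (114, .PP [1] [0, 0, 0, 0]),
    (-12, .PP [0, 1] [0, 0, 0]),
    (-588, .Nt 1 [0] 4 []),
    (-12, .PP [0, 1] [0, 0, 1]),
    (228, .PP [1] [0, 0, 0, 1]),
    (-120, .PP [0] [1, 0, 0, 1]),
    (12, .Ar [0, 1] 0 [(0, 0), (0, 2)]),
    (12, .PP [0, 0] [0, 0, 1]),
    (12, .PP [0] [0, 0, 1, 0]),
    (24, .PP [0] [0, 1, 0, 0]),
    (-96, .PP [0, 0] [0, 1, 1]),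
    (-54, .PP [0] [0, 0, 1, 1]),
    (96, .PP [0] [0, 1, 1, 0]),
    (78, .PP [0] [1, 0, 0, 0]),
    (-96, .PP [0] [1, 1, 0, 0]),
    (270, .PP [1] [1, 0, 0, 0]),
    (42, .Ar [0, 1] 0 [(0, 3)]),
    (-42, .Ar [0, 1] 0 [(0, 0), (0, 0), (0, 0), (1, 0)]),
    (30, .Ar [0, 1] 0 [(0, 0), (1, 0), (1, 0), (1, 0)]),
    (-42, .PP [1] [1, 1, 0, 1]),
    (-42, .PP [1] [1, 0, 1, 1]),
    (-42, .PP [1] [0, 1, 1, 1]),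
    (306, .Nt 0 [1] 4 [])])

theorem c5e26_ok : checkCert5 Fin.val c5e26.1 c5e26.2.1 c5e26.2.2 = true := by
  decide +kernel

/-- A certificate. -/
def c5e27 : ℤ × List (Fin 6) × List (ℤ × Code5 (Fin 6)) :=
  (2, [0, 1, 1, 0, 4], [
    (-1496, .Mrg 1 4 [0, 0, 1, 1, 1]),
    (1692, .PP [0] [1, 4, 0, 4]),
    (-432, .PP [1] [0, 0, 4, 4]),
    (684, .PP [0] [4, 0, 1, 4]),
    (684, .PP [0] [4, 1, 0, 4]),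
    (1116, .PP [0] [1, 0, 4, 4]),
    (-234, .Nt 4 [0, 1] 0 [(0, 0), (0, 1), (1, 0)]),
    (-1376, .PP [0] [0, 0, 1, 4]),
    (-3010, .PP [0] [0, 1, 0, 4]),
    (-2102, .PP [0, 0] [0, 4, 1]),
    (104, .PP [0] [4, 0, 0, 1]),
    (-2386, .PP [0] [4, 0, 1, 0]),
    (5586, .PP [1] [4, 0, 0, 0]),
    (-714, .Mrg 1 4 [0, 0, 0, 1, 1]),
    (-4962, .PP [4] [0, 0, 0, 1]),
    (1160, .PP [0, 0] [0, 1, 4]),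
    (1160, .PP [0] [0, 4, 1, 0]),
    (1664, .PP [4] [0, 1, 0, 0]),
    (3328, .PP [0] [0, 4, 0, 1]),
    (-314, .Nt 1 [0, 4] 0 [(0, 0), (0, 2)]),
    (-1558, .PP [0] [1, 0, 0, 4]),
    (-1882, .PP [0] [1, 4, 0, 0]),
    (-1882, .PP [0] [4, 1, 0, 0]),
    (4454, .PP [1] [0, 0, 0, 4]),
    (314, .PP [0, 1] [0, 0, 4]),
    (314, .PP [0, 4] [0, 0, 1]),
    (22, .Nt 4 [0, 1] 0 [(0, 0), (0, 2)]),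
    (-278, .Nt 4 [0, 1] 0 [(0, 0), (0, 0), (0, 1)]),
    (-222, .PP [0] [4, 0, 1, 1]),
    (-312, .PP [4] [0, 1, 0, 1]),
    (312, .PP [0, 1] [0, 4, 1]),
    (312, .PP [0, 1] [0, 1, 4]),
    (-942, .PP [1, 4] [0, 0, 0]),
    (1886, .PP [0] [0, 0, 4, 1]),
    (-774, .PP [0] [1, 0, 1, 4]),
    (378, .PP [0] [1, 1, 0, 4]),
    (-218, .PP [0] [1, 0, 4, 1]),
    (234, .Nt 4 [0, 1] 0 [(0, 1), (0, 1)]),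
    (-2, .Ar [0, 1, 4] 0 [(0, 0), (0, 1), (1, 0)]),
    (1030, .PP [0] [4, 0, 4, 1]),
    (-904, .PP [4] [0, 0, 1, 1]),
    (324, .Nt 1 [0, 4] 0 [(0, 0), (0, 1), (4, 0)]),
    (-314, .Mrg 1 4 [0, 1, 0, 1, 1]),
    (314, .PP [0, 4] [0, 4, 1]),
    (314, .PP [0, 4] [0, 1, 4]),
    (-80, .Nt 4 [0, 1] 0 [(0, 1), (1, 1)]),
    (1130, .PP [0] [1, 0, 4, 0]),
    (932, .Mrg 0 1 [0, 0, 0, 0, 4]),
    (1824, .PP [0, 0] [1, 1, 4]),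
    (-1152, .PP [4] [1, 1, 0, 0]),
    (-932, .PP [0, 4] [1, 1, 1]),
    (912, .PP [0] [4, 1, 1, 1]),
    (-932, .PP [1, 1] [0, 0, 4]),
    (2420, .PP [1] [0, 0, 4, 1]),
    (-932, .PP [0] [1, 4, 0, 1]),
    (-932, .PP [1, 1] [0, 4, 1]),
    (492, .PP [1] [1, 0, 4, 1]),
    (1592, .PP [1] [0, 1, 4, 1]),
    (712, .PP [1] [1, 4, 0, 0]),
    (-712, .PP [1] [1, 0, 0, 4]),
    (-1048, .PP [0] [1, 1, 4, 0]),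
    (-712, .PP [1] [0, 1, 0, 4]),
    (1812, .PP [1] [0, 4, 1, 1]),
    (1488, .PP [1] [4, 0, 0, 1]),
    (-596, .PP [0] [0, 4, 1, 1]),
    (596, .PP [0] [4, 1, 1, 0]),
    (1488, .PP [1] [0, 4, 0, 1]),
    (-220, .PP [0] [0, 1, 4, 1]),
    (220, .PP [0] [1, 4, 1, 0]),
    (776, .PP [1] [0, 0, 1, 4]),
    (-776, .PP [0] [0, 1, 1, 4]),
    (-1564, .Mrg 0 4 [0, 0, 0, 1, 1]),
    (-768, .Mrg 0 4 [0, 0, 1, 1, 1]),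
    (-556, .PP [0] [4, 1, 0, 1]),
    (-2860, .PP [4] [0, 1, 1, 1]),
    (440, .PP [1] [0, 1, 1, 4]),
    (-660, .PP [1] [1, 0, 1, 4]),
    (-220, .PP [4, 4] [0, 1, 1]),
    (880, .PP [4] [1, 1, 0, 1]),
    (440, .PP [1, 1] [0, 1, 4]),
    (-440, .PP [1] [1, 4, 0, 1]),
    (880, .PP [1] [4, 0, 1, 1]),
    (-440, .PP [1] [4, 1, 0, 1]),
    (-50, .Nt 4 [0, 1] 0 [(1, 0), (1, 0), (1, 1)]),
    (556, .PP [4] [4, 0, 1, 1]),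
    (200, .Nt 1 [0, 4] 0 [(0, 3)]),
    (-20, .PP [0, 1] [4, 4, 4]),
    (10, .PP [4] [0, 4, 4, 1]),
    (10, .PP [4, 4] [0, 1, 4]),
    (-20, .Nt 4 [0, 1] 0 [(0, 3)]),
    (220, .Nt 0 [1, 4] 0 [(1, 3)]),
    (1900, .PP [4] [0, 4, 1, 1]),
    (10, .PP [4] [4, 4, 0, 1]),
    (10, .PP [4] [4, 0, 4, 1]),
    (10, .Nt 1 [0, 4] 0 [(0, 1), (4, 1)]),
    (1986, .PP [4, 4] [0, 0, 1]),
    (-998, .PP [4] [0, 0, 1, 4]),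
    (-1364, .PP [1] [4, 0, 0, 4]),
    (1028, .PP [0] [0, 4, 4, 1]),
    (326, .PP [0] [1, 4, 4, 0]),
    (-1028, .PP [0] [4, 4, 1, 0]),
    (2056, .PP [1] [4, 4, 0, 0]),
    (-692, .PP [4] [1, 4, 0, 0]),
    (-306, .Mrg 1 4 [0, 0, 1, 0, 1]),
    (-1028, .PP [0] [4, 4, 0, 1]),
    (-988, .PP [4] [0, 4, 0, 1]),
    (-2006, .PP [0, 0] [1, 4, 4]),
    (-988, .PP [4] [4, 0, 0, 1]),
    (682, .PP [0] [0, 4, 1, 4]),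
    (-682, .PP [0] [4, 1, 4, 0]),
    (-10, .Mrg 0 4 [0, 0, 0, 0, 1]),
    (10, .Nt 4 [0, 1] 0 [(1, 1), (1, 1)]),
    (5, .Nt 1 [0, 4] 0 [(4, 0), (4, 0), (4, 1)]),
    (-1038, .PP [0] [1, 4, 4, 4]),
    (1816, .Mrg 0 1 [0, 0, 4, 4, 4]),
    (336, .Nt 0 [1, 4] 0 [(1, 0), (1, 1), (4, 0)]),
    (336, .PP [4] [0, 1, 1, 4]),
    (-1680, .PP [1] [0, 4, 0, 4]),
    (1680, .PP [0] [0, 1, 4, 4]),
    (-1680, .PP [4] [0, 0, 4, 1]),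
    (-336, .PP [4] [1, 4, 0, 1]),
    (336, .PP [1] [4, 4, 0, 1]),
    (336, .Mrg 0 1 [0, 0, 4, 0, 4]),
    (-336, .PP [1, 4] [0, 0, 4]),
    (-336, .Mrg 0 4 [0, 0, 1, 0, 1]),
    (-336, .PP [1, 4] [0, 0, 1]),
    (-336, .Nt 4 [0, 1] 0 [(1, 0), (1, 2)]),
    (-336, .Nt 0 [1, 4] 0 [(1, 0), (1, 2)]),
    (336, .PP [0, 1] [1, 4, 4]),
    (-336, .Mrg 0 4 [0, 1, 0, 1, 1]),
    (336, .Nt 0 [1, 4] 0 [(4, 0), (4, 2)]),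
    (-336, .PP [0, 4] [1, 1, 4]),
    (336, .Nt 1 [0, 4] 0 [(4, 0), (4, 2)]),
    (-1008, .PP [1] [0, 4, 4, 4]),
    (-672, .PP [4] [1, 1, 0, 4]),
    (672, .PP [4] [0, 1, 4, 1]),
    (1008, .PP [1] [1, 0, 4, 4]),
    (336, .PP [1] [1, 4, 0, 4]),
    (-1344, .PP [1] [0, 4, 1, 4]),
    (-1344, .PP [1] [0, 4, 4, 1]),
    (-336, .PP [1] [4, 0, 1, 4]),
    (336, .PP [1] [4, 1, 0, 4]),
    (-336, .PP [1] [4, 0, 4, 1]),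
    (336, .Mrg 0 1 [0, 4, 0, 4, 4]),
    (-672, .PP [1] [0, 1, 4, 4]),
    (336, .Nt 4 [0, 1] 0 [(0, 0), (1, 2)])])

theorem c5e27_ok : checkCert5 Fin.val c5e27.1 c5e27.2.1 c5e27.2.2 = true := by
  decide +kernel

/-- A certificate. -/
def c5e28 : ℤ × List (Fin 6) × List (ℤ × Code5 (Fin 6)) :=
  (1, [0, 1, 1, 1, 0], [
    (-951, .PP [0] [1, 1, 1, 0]),
    (-3, .PP [0, 1] [0, 1, 1]),
    (-472, .PP [1] [0, 0, 1, 1]),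
    (1018, .PP [0] [0, 1, 1, 1]),
    (969, .PP [0] [1, 0, 1, 1]),
    (317, .PP [0] [1, 1, 0, 1]),
    (-546, .PP [1] [1, 0, 0, 1]),
    (-546, .PP [1] [0, 1, 0, 1]),
    (634, .PP [1] [1, 1, 0, 0]),
    (-1, .Ar [0, 1] 0 [(1, 0), (1, 0), (1, 1)]),
    (66, .PP [0] [1, 1, 1, 1]),
    (-176, .PP [1, 1] [0, 0, 1]),
    (-44, .PP [0, 1] [1, 1, 1]),
    (28, .PP [1, 1] [0, 1, 1]),
    (-2, .Ar [0, 1] 0 [(0, 0), (0, 0), (0, 1)]),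
    (-38, .PP [1] [0, 0, 0, 0]),
    (4, .PP [0, 1] [0, 0, 0]),
    (196, .Nt 1 [0] 4 []),
    (4, .PP [0, 1] [0, 0, 1]),
    (-76, .PP [1] [0, 0, 0, 1]),
    (40, .PP [0] [1, 0, 0, 1]),
    (-4, .Ar [0, 1] 0 [(0, 0), (0, 2)]),
    (-4, .PP [0, 0] [0, 0, 1]),
    (-4, .PP [0] [0, 0, 1, 0]),
    (-8, .PP [0] [0, 1, 0, 0]),
    (32, .PP [0, 0] [0, 1, 1]),
    (18, .PP [0] [0, 0, 1, 1]),
    (-32, .PP [0] [0, 1, 1, 0]),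
    (-26, .PP [0] [1, 0, 0, 0]),
    (32, .PP [0] [1, 1, 0, 0]),
    (-90, .PP [1] [1, 0, 0, 0]),
    (-14, .Ar [0, 1] 0 [(0, 3)]),
    (14, .Ar [0, 1] 0 [(0, 0), (0, 0), (0, 0), (1, 0)]),
    (-10, .Ar [0, 1] 0 [(0, 0), (1, 0), (1, 0), (1, 0)]),
    (14, .PP [1] [1, 1, 0, 1]),
    (14, .PP [1] [1, 0, 1, 1]),
    (14, .PP [1] [0, 1, 1, 1]),
    (-102, .Nt 0 [1] 4 [])])

theorem c5e28_ok : checkCert5 Fin.val c5e28.1 c5e28.2.1 c5e28.2.2 = true := by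
  decide +kernel

/-- A certificate. -/
def c5e29 : ℤ × List (Fin 6) × List (ℤ × Code5 (Fin 6)) :=
  (1, [0, 1, 1, 1, 1], [
    (1, .Nt 0 [1] 4 [])])

theorem c5e29_ok : checkCert5 Fin.val c5e29.1 c5e29.2.1 c5e29.2.2 = true := by
  decide +kernel

/-- A certificate. -/
def c5e30 : ℤ × List (Fin 6) × List (ℤ × Code5 (Fin 6)) :=
  (1, [0, 1, 1, 1, 4], [
    (-1, .PP [1] [0, 1, 1, 4]),
    (1, .PP [1, 4] [0, 1, 1]),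
    (1, .PP [4] [0, 1, 1, 1]),
    (-1, .PP [1] [0, 1, 4, 1]),
    (-1, .PP [1] [4, 0, 1, 1]),
    (-1, .PP [1] [0, 4, 1, 1]),
    (1, .Mrg 0 4 [0, 1, 0, 1, 1]),
    (2, .Mrg 0 4 [0, 0, 1, 1, 1])])

theorem c5e30_ok : checkCert5 Fin.val c5e30.1 c5e30.2.1 c5e30.2.2 = true := by
  decide +kernel

/-- A certificate. -/
def c5e31 : ℤ × List (Fin 6) × List (ℤ × Code5 (Fin 6)) :=
  (2, [0, 1, 1, 3, 0], [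
    (1450, .PP [0] [1, 1, 3, 0]),
    (1094, .PP [0] [1, 0, 1, 3]),
    (-1100, .PP [1] [0, 0, 1, 3]),
    (1100, .PP [0] [0, 1, 1, 3]),
    (778, .PP [0] [3, 1, 0, 1]),
    (-2548, .PP [0, 0] [1, 1, 3]),
    (1276, .PP [3] [0, 0, 1, 1]),
    (1616, .PP [3] [1, 1, 0, 0]),
    (2, .PP [0, 3] [0, 1, 1]),
    (-522, .PP [0] [1, 1, 0, 3]),
    (-2084, .PP [1] [3, 0, 0, 1]),
    (-984, .PP [1] [1, 3, 0, 0]),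
    (984, .PP [1] [1, 0, 0, 3]),
    (-3384, .PP [1] [0, 0, 3, 1]),
    (984, .PP [1] [0, 1, 0, 3]),
    (-2084, .PP [1] [0, 3, 0, 1]),
    (316, .PP [0] [0, 1, 3, 1]),
    (312, .PP [0] [1, 0, 3, 1]),
    (-316, .PP [0] [1, 3, 1, 0]),
    (2076, .Mrg 1 3 [0, 0, 1, 1, 1]),
    (310, .PP [0] [3, 0, 1, 1]),
    (836, .PP [0] [0, 3, 1, 1]),
    (-836, .PP [0] [3, 1, 1, 0]),
    (-2358, .PP [0] [1, 3, 0, 3]),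
    (604, .PP [1] [0, 0, 3, 3]),
    (-954, .PP [0] [3, 0, 1, 3]),
    (-954, .PP [0] [3, 1, 0, 3]),
    (-1558, .PP [0] [1, 0, 3, 3]),
    (2176, .Mrg 0 3 [0, 0, 0, 1, 1]),
    (326, .Nt 3 [0, 1] 0 [(0, 0), (0, 1), (1, 0)]),
    (1902, .PP [0] [0, 0, 1, 3]),
    (4168, .PP [0] [0, 1, 0, 3]),
    (2924, .PP [0, 0] [0, 3, 1]),
    (-150, .PP [0] [3, 0, 0, 1]),
    (3302, .PP [0] [3, 0, 1, 0]),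
    (-7734, .PP [1] [3, 0, 0, 0]),
    (1000, .Mrg 1 3 [0, 0, 0, 1, 1]),
    (6882, .PP [3] [0, 0, 0, 1]),
    (-1610, .PP [0, 0] [0, 1, 3]),
    (-1610, .PP [0] [0, 3, 1, 0]),
    (-2308, .PP [3] [0, 1, 0, 0]),
    (-4616, .PP [0] [0, 3, 0, 1]),
    (436, .Nt 1 [0, 3] 0 [(0, 0), (0, 2)]),
    (2154, .PP [0] [1, 0, 0, 3]),
    (2604, .PP [0] [1, 3, 0, 0]),
    (2604, .PP [0] [3, 1, 0, 0]),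
    (-6158, .PP [1] [0, 0, 0, 3]),
    (-436, .PP [0, 1] [0, 0, 3]),
    (428, .Mrg 1 3 [0, 0, 1, 0, 1]),
    (-438, .PP [0, 3] [0, 0, 1]),
    (-30, .Nt 3 [0, 1] 0 [(0, 0), (0, 2)]),
    (386, .Nt 3 [0, 1] 0 [(0, 0), (0, 0), (0, 1)]),
    (-434, .PP [0, 1] [0, 3, 1]),
    (-1568, .PP [0] [1, 0, 3, 0]),
    (1314, .PP [1, 3] [0, 0, 0]),
    (-2632, .PP [0] [0, 0, 3, 1]),
    (-326, .Nt 3 [0, 1] 0 [(0, 1), (0, 1)]),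
    (4, .Ar [0, 1, 3] 0 [(0, 0), (0, 1), (1, 0)]),
    (-1436, .PP [0] [3, 0, 3, 1]),
    (-450, .Nt 1 [0, 3] 0 [(0, 0), (0, 1), (3, 0)]),
    (436, .Mrg 1 3 [0, 1, 0, 1, 1]),
    (436, .PP [3] [0, 1, 0, 1]),
    (-436, .PP [0, 1] [0, 1, 3]),
    (-436, .PP [0, 3] [0, 3, 1]),
    (-436, .PP [0, 3] [0, 1, 3]),
    (112, .Nt 3 [0, 1] 0 [(0, 1), (1, 1)]),
    (-1300, .Mrg 0 1 [0, 0, 0, 0, 3]),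
    (1300, .PP [0, 3] [1, 1, 1]),
    (-1272, .PP [0] [3, 1, 1, 1]),
    (1300, .PP [1, 1] [0, 0, 3]),
    (1300, .PP [0] [1, 3, 0, 1]),
    (1300, .PP [1, 1] [0, 3, 1]),
    (-692, .PP [1] [1, 0, 3, 1]),
    (-2212, .PP [1] [0, 1, 3, 1]),
    (-2516, .PP [1] [0, 3, 1, 1]),
    (1072, .Mrg 0 3 [0, 0, 1, 1, 1]),
    (3952, .PP [3] [0, 1, 1, 1]),
    (-608, .PP [1] [0, 1, 1, 3]),
    (912, .PP [1] [1, 0, 1, 3]),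
    (304, .PP [3, 3] [0, 1, 1]),
    (-1216, .PP [3] [1, 1, 0, 1]),
    (-608, .PP [1, 1] [0, 1, 3]),
    (608, .PP [1] [1, 3, 0, 1]),
    (-1216, .PP [1] [3, 0, 1, 1]),
    (608, .PP [1] [3, 1, 0, 1]),
    (70, .Nt 3 [0, 1] 0 [(1, 0), (1, 0), (1, 1)]),
    (-772, .PP [3] [3, 0, 1, 1]),
    (-276, .Nt 1 [0, 3] 0 [(0, 3)]),
    (28, .PP [0, 1] [3, 3, 3]),
    (-14, .PP [3] [0, 3, 3, 1]),
    (-14, .PP [3, 3] [0, 1, 3]),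
    (28, .Nt 3 [0, 1] 0 [(0, 3)]),
    (-304, .Nt 0 [1, 3] 0 [(1, 3)]),
    (-2644, .PP [3] [0, 3, 1, 1]),
    (-14, .PP [3] [3, 3, 0, 1]),
    (-14, .PP [3] [3, 0, 3, 1]),
    (-14, .Nt 1 [0, 3] 0 [(0, 1), (3, 1)]),
    (-2766, .PP [3, 3] [0, 0, 1]),
    (1390, .PP [3] [0, 0, 1, 3]),
    (1900, .PP [1] [3, 0, 0, 3]),
    (-1432, .PP [0] [0, 3, 3, 1]),
    (-454, .PP [0] [1, 3, 3, 0]),
    (1432, .PP [0] [3, 3, 1, 0]),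
    (-2864, .PP [1] [3, 3, 0, 0]),
    (964, .PP [3] [1, 3, 0, 0]),
    (1432, .PP [0] [3, 3, 0, 1]),
    (1376, .PP [3] [0, 3, 0, 1]),
    (2794, .PP [0, 0] [1, 3, 3]),
    (1376, .PP [3] [3, 0, 0, 1]),
    (-950, .PP [0] [0, 3, 1, 3]),
    (950, .PP [0] [3, 1, 3, 0]),
    (14, .Mrg 0 3 [0, 0, 0, 0, 1]),
    (-14, .Nt 3 [0, 1] 0 [(1, 1), (1, 1)]),
    (-7, .Nt 1 [0, 3] 0 [(3, 0), (3, 0), (3, 1)]),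
    (1446, .PP [0] [1, 3, 3, 3]),
    (-2532, .Mrg 0 1 [0, 0, 3, 3, 3]),
    (-468, .Nt 0 [1, 3] 0 [(1, 0), (1, 1), (3, 0)]),
    (-468, .PP [3] [0, 1, 1, 3]),
    (2340, .PP [1] [0, 3, 0, 3]),
    (-2340, .PP [0] [0, 1, 3, 3]),
    (2340, .PP [3] [0, 0, 3, 1]),
    (468, .PP [3] [1, 3, 0, 1]),
    (-468, .PP [1] [3, 3, 0, 1]),
    (-468, .Mrg 0 1 [0, 0, 3, 0, 3]),
    (468, .PP [1, 3] [0, 0, 3]),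
    (468, .Mrg 0 3 [0, 0, 1, 0, 1]),
    (468, .PP [1, 3] [0, 0, 1]),
    (468, .Nt 3 [0, 1] 0 [(1, 0), (1, 2)]),
    (468, .Nt 0 [1, 3] 0 [(1, 0), (1, 2)]),
    (-468, .PP [0, 1] [1, 3, 3]),
    (468, .Mrg 0 3 [0, 1, 0, 1, 1]),
    (-468, .Nt 0 [1, 3] 0 [(3, 0), (3, 2)]),
    (468, .PP [0, 3] [1, 1, 3]),
    (-468, .Nt 1 [0, 3] 0 [(3, 0), (3, 2)]),
    (1404, .PP [1] [0, 3, 3, 3]),
    (936, .PP [3] [1, 1, 0, 3]),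
    (-936, .PP [3] [0, 1, 3, 1]),
    (-1404, .PP [1] [1, 0, 3, 3]),
    (-468, .PP [1] [1, 3, 0, 3]),
    (1872, .PP [1] [0, 3, 1, 3]),
    (1872, .PP [1] [0, 3, 3, 1]),
    (468, .PP [1] [3, 0, 1, 3]),
    (-468, .PP [1] [3, 1, 0, 3]),
    (468, .PP [1] [3, 0, 3, 1]),
    (-468, .Mrg 0 1 [0, 3, 0, 3, 3]),
    (936, .PP [1] [0, 1, 3, 3]),
    (-468, .Nt 3 [0, 1] 0 [(0, 0), (1, 2)])])

theorem c5e31_ok : checkCert5 Fin.val c5e31.1 c5e31.2.1 c5e31.2.2 = true := by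
  decide +kernel

/-- A certificate. -/
def c5e32 : ℤ × List (Fin 6) × List (ℤ × Code5 (Fin 6)) :=
  (2, [0, 1, 1, 3, 1], [
    (278, .PP [1] [0, 1, 3, 1]),
    (-2, .PP [0, 1] [1, 1, 3]),
    (-478, .PP [3] [0, 1, 1, 1]),
    (168, .PP [0] [3, 1, 1, 1]),
    (78, .PP [1] [0, 1, 1, 3]),
    (-2, .PP [1, 3] [0, 1, 1]),
    (-108, .PP [1] [1, 0, 1, 3]),
    (146, .PP [3] [1, 1, 0, 1]),
    (72, .PP [1, 1] [0, 1, 3]),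
    (-72, .PP [1] [1, 3, 0, 1]),
    (94, .PP [1] [1, 0, 3, 1]),
    (146, .PP [1] [3, 0, 1, 1]),
    (312, .PP [1] [0, 3, 1, 1]),
    (-74, .PP [1] [3, 1, 0, 1]),
    (-40, .PP [3, 3] [0, 1, 1]),
    (-142, .Mrg 0 3 [0, 0, 1, 1, 1]),
    (-10, .Nt 3 [0, 1] 0 [(1, 0), (1, 0), (1, 1)]),
    (100, .PP [3] [3, 0, 1, 1]),
    (-62, .Mrg 0 3 [0, 1, 0, 1, 1]),
    (40, .Nt 0 [1, 3] 0 [(1, 3)]),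
    (-4, .PP [0, 1] [3, 3, 3]),
    (340, .PP [3] [0, 3, 1, 1]),
    (2, .PP [3, 3] [0, 1, 3]),
    (2, .PP [3] [3, 3, 0, 1]),
    (2, .PP [3] [3, 0, 3, 1]),
    (2, .PP [3] [0, 3, 3, 1]),
    (2, .Nt 1 [0, 3] 0 [(0, 1), (3, 1)]),
    (800, .PP [1] [0, 0, 0, 3]),
    (-888, .PP [3] [0, 0, 0, 1]),
    (-540, .PP [0] [0, 1, 0, 3]),
    (18, .PP [0] [3, 0, 0, 1]),
    (298, .PP [3] [0, 1, 0, 0]),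
    (596, .PP [0] [0, 3, 0, 1]),
    (-428, .PP [0] [3, 0, 1, 0]),
    (354, .PP [3, 3] [0, 0, 1]),
    (-76, .PP [1] [0, 0, 3, 3]),
    (184, .PP [0] [3, 0, 3, 1]),
    (302, .PP [0] [1, 3, 0, 3]),
    (122, .PP [0] [3, 1, 0, 3]),
    (-178, .PP [3] [0, 0, 1, 3]),
    (1002, .PP [1] [3, 0, 0, 0]),
    (-244, .PP [1] [3, 0, 0, 3]),
    (184, .PP [0] [0, 3, 3, 1]),
    (58, .PP [0] [1, 3, 3, 0]),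
    (-184, .PP [0] [3, 3, 1, 0]),
    (368, .PP [1] [3, 3, 0, 0]),
    (-124, .PP [3] [1, 3, 0, 0]),
    (198, .PP [0] [1, 0, 3, 3]),
    (-54, .Mrg 1 3 [0, 0, 1, 0, 1]),
    (-56, .Nt 1 [0, 3] 0 [(0, 0), (0, 2)]),
    (-184, .PP [0] [3, 3, 0, 1]),
    (56, .PP [0, 1] [0, 0, 3]),
    (-176, .PP [3] [0, 3, 0, 1]),
    (-358, .PP [0, 0] [1, 3, 3]),
    (-280, .PP [0] [1, 0, 0, 3]),
    (-338, .PP [0] [1, 3, 0, 0]),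
    (-338, .PP [0] [3, 1, 0, 0]),
    (-42, .Nt 3 [0, 1] 0 [(0, 0), (0, 1), (1, 0)]),
    (56, .PP [0, 3] [0, 0, 1]),
    (4, .Nt 3 [0, 1] 0 [(0, 0), (0, 2)]),
    (-50, .Nt 3 [0, 1] 0 [(0, 0), (0, 0), (0, 1)]),
    (-56, .Mrg 1 3 [0, 1, 0, 1, 1]),
    (-40, .PP [0] [3, 0, 1, 1]),
    (-56, .PP [3] [0, 1, 0, 1]),
    (56, .PP [0, 1] [0, 3, 1]),
    (56, .PP [0, 1] [0, 1, 3]),
    (56, .PP [0, 3] [0, 3, 1]),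
    (56, .PP [0, 3] [0, 1, 3]),
    (326, .PP [0, 0] [1, 1, 3]),
    (140, .PP [1] [0, 0, 1, 3]),
    (-140, .PP [0] [0, 1, 1, 3]),
    (-140, .PP [0] [1, 0, 1, 3]),
    (-100, .PP [0] [3, 1, 0, 1]),
    (-206, .PP [3] [1, 1, 0, 0]),
    (266, .PP [1] [3, 0, 0, 1]),
    (126, .PP [1] [1, 3, 0, 0]),
    (-126, .PP [1] [1, 0, 0, 3]),
    (432, .PP [1] [0, 0, 3, 1]),
    (66, .PP [0] [1, 1, 0, 3]),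
    (-186, .PP [0] [1, 1, 3, 0]),
    (-126, .PP [1] [0, 1, 0, 3]),
    (266, .PP [1] [0, 3, 0, 1]),
    (-40, .PP [0] [0, 1, 3, 1]),
    (-40, .PP [0] [1, 0, 3, 1]),
    (40, .PP [0] [1, 3, 1, 0]),
    (-176, .PP [3] [3, 0, 0, 1]),
    (122, .PP [0] [3, 0, 1, 3]),
    (122, .PP [0] [0, 3, 1, 3]),
    (-122, .PP [0] [3, 1, 3, 0]),
    (42, .Nt 3 [0, 1] 0 [(0, 1), (0, 1)]),
    (58, .Nt 1 [0, 3] 0 [(0, 0), (0, 1), (3, 0)]),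
    (202, .PP [0] [1, 0, 3, 0]),
    (-2, .Mrg 0 3 [0, 0, 0, 0, 1]),
    (-168, .PP [1, 3] [0, 0, 0]),
    (-248, .PP [0] [0, 0, 1, 3]),
    (336, .PP [0] [0, 0, 3, 1]),
    (208, .PP [0, 0] [0, 1, 3]),
    (208, .PP [0] [0, 3, 1, 0]),
    (-376, .PP [0, 0] [0, 3, 1]),
    (-126, .Mrg 1 3 [0, 0, 0, 1, 1]),
    (2, .Nt 3 [0, 1] 0 [(1, 1), (1, 1)]),
    (-162, .PP [3] [0, 0, 1, 1]),
    (-280, .Mrg 0 3 [0, 0, 0, 1, 1]),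
    (-14, .Nt 3 [0, 1] 0 [(0, 1), (1, 1)]),
    (166, .Mrg 0 1 [0, 0, 0, 0, 3]),
    (-166, .PP [0, 3] [1, 1, 1]),
    (-166, .PP [1, 1] [0, 0, 3]),
    (-166, .PP [0] [1, 3, 0, 1]),
    (-166, .PP [1, 1] [0, 3, 1]),
    (-106, .PP [0] [0, 3, 1, 1]),
    (106, .PP [0] [3, 1, 1, 0]),
    (-268, .Mrg 1 3 [0, 0, 1, 1, 1]),
    (36, .Nt 1 [0, 3] 0 [(0, 3)]),
    (-4, .Nt 3 [0, 1] 0 [(0, 3)]),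
    (1, .Nt 1 [0, 3] 0 [(3, 0), (3, 0), (3, 1)]),
    (-186, .PP [0] [1, 3, 3, 3]),
    (324, .Mrg 0 1 [0, 0, 3, 3, 3]),
    (60, .Nt 0 [1, 3] 0 [(1, 0), (1, 1), (3, 0)]),
    (60, .PP [3] [0, 1, 1, 3]),
    (-300, .PP [1] [0, 3, 0, 3]),
    (300, .PP [0] [0, 1, 3, 3]),
    (-300, .PP [3] [0, 0, 3, 1]),
    (-60, .PP [3] [1, 3, 0, 1]),
    (60, .PP [1] [3, 3, 0, 1]),
    (60, .Mrg 0 1 [0, 0, 3, 0, 3]),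
    (-60, .PP [1, 3] [0, 0, 3]),
    (-60, .Mrg 0 3 [0, 0, 1, 0, 1]),
    (-60, .PP [1, 3] [0, 0, 1]),
    (-60, .Nt 3 [0, 1] 0 [(1, 0), (1, 2)]),
    (-60, .Nt 0 [1, 3] 0 [(1, 0), (1, 2)]),
    (60, .PP [0, 1] [1, 3, 3]),
    (60, .Nt 0 [1, 3] 0 [(3, 0), (3, 2)]),
    (-60, .PP [0, 3] [1, 1, 3]),
    (60, .Nt 1 [0, 3] 0 [(3, 0), (3, 2)]),
    (-180, .PP [1] [0, 3, 3, 3]),
    (-120, .PP [3] [1, 1, 0, 3]),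
    (120, .PP [3] [0, 1, 3, 1]),
    (180, .PP [1] [1, 0, 3, 3]),
    (60, .PP [1] [1, 3, 0, 3]),
    (-240, .PP [1] [0, 3, 1, 3]),
    (-240, .PP [1] [0, 3, 3, 1]),
    (-60, .PP [1] [3, 0, 1, 3]),
    (60, .PP [1] [3, 1, 0, 3]),
    (-60, .PP [1] [3, 0, 3, 1]),
    (60, .Mrg 0 1 [0, 3, 0, 3, 3]),
    (-120, .PP [1] [0, 1, 3, 3]),
    (60, .Nt 3 [0, 1] 0 [(0, 0), (1, 2)])])

theorem c5e32_ok : checkCert5 Fin.val c5e32.1 c5e32.2.1 c5e32.2.2 = true := by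
  decide +kernel

/-- A certificate. -/
def c5e33 : ℤ × List (Fin 6) × List (ℤ × Code5 (Fin 6)) :=
  (2, [0, 1, 1, 3, 3], [
    (-42, .PP [3, 3] [0, 1, 1]),
    (104, .PP [3] [3, 0, 1, 1]),
    (352, .PP [3] [0, 3, 1, 1]),
    (2, .Nt 1 [0, 3] 0 [(0, 1), (3, 1)]),
    (794, .PP [1] [0, 0, 0, 3]),
    (-892, .PP [3] [0, 0, 0, 1]),
    (-542, .PP [0] [0, 1, 0, 3]),
    (22, .PP [0] [3, 0, 0, 1]),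
    (300, .PP [3] [0, 1, 0, 0]),
    (600, .PP [0] [0, 3, 0, 1]),
    (-426, .PP [0] [3, 0, 1, 0]),
    (366, .PP [3, 3] [0, 0, 1]),
    (-80, .PP [1] [0, 0, 3, 3]),
    (190, .PP [0] [3, 0, 3, 1]),
    (312, .PP [0] [1, 3, 0, 3]),
    (126, .PP [0] [3, 1, 0, 3]),
    (-184, .PP [3] [0, 0, 1, 3]),
    (-4, .PP [0, 1] [3, 3, 3]),
    (1002, .PP [1] [3, 0, 0, 0]),
    (-252, .PP [1] [3, 0, 0, 3]),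
    (190, .PP [0] [0, 3, 3, 1]),
    (60, .PP [0] [1, 3, 3, 0]),
    (-190, .PP [0] [3, 3, 1, 0]),
    (380, .PP [1] [3, 3, 0, 0]),
    (-128, .PP [3] [1, 3, 0, 0]),
    (206, .PP [0] [1, 0, 3, 3]),
    (-56, .Mrg 1 3 [0, 0, 1, 0, 1]),
    (-58, .Nt 1 [0, 3] 0 [(0, 0), (0, 2)]),
    (-190, .PP [0] [3, 3, 0, 1]),
    (58, .PP [0, 1] [0, 0, 3]),
    (-182, .PP [3] [0, 3, 0, 1]),
    (-370, .PP [0, 0] [1, 3, 3]),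
    (2, .PP [3] [0, 3, 3, 1]),
    (-278, .PP [0] [1, 0, 0, 3]),
    (-338, .PP [0] [1, 3, 0, 0]),
    (-338, .PP [0] [3, 1, 0, 0]),
    (-44, .Nt 3 [0, 1] 0 [(0, 0), (0, 1), (1, 0)]),
    (58, .PP [0, 3] [0, 0, 1]),
    (4, .Nt 3 [0, 1] 0 [(0, 0), (0, 2)]),
    (-52, .Nt 3 [0, 1] 0 [(0, 0), (0, 0), (0, 1)]),
    (-58, .Mrg 1 3 [0, 1, 0, 1, 1]),
    (-40, .PP [0] [3, 0, 1, 1]),
    (-58, .PP [3] [0, 1, 0, 1]),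
    (58, .PP [0, 1] [0, 3, 1]),
    (58, .PP [0, 1] [0, 1, 3]),
    (58, .PP [0, 3] [0, 3, 1]),
    (58, .PP [0, 3] [0, 1, 3]),
    (338, .PP [0, 0] [1, 1, 3]),
    (146, .PP [1] [0, 0, 1, 3]),
    (-146, .PP [0] [0, 1, 1, 3]),
    (-146, .PP [0] [1, 0, 1, 3]),
    (-104, .PP [0] [3, 1, 0, 1]),
    (-214, .PP [3] [1, 1, 0, 0]),
    (276, .PP [1] [3, 0, 0, 1]),
    (130, .PP [1] [1, 3, 0, 0]),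
    (-130, .PP [1] [1, 0, 0, 3]),
    (448, .PP [1] [0, 0, 3, 1]),
    (68, .PP [0] [1, 1, 0, 3]),
    (-192, .PP [0] [1, 1, 3, 0]),
    (-130, .PP [1] [0, 1, 0, 3]),
    (276, .PP [1] [0, 3, 0, 1]),
    (-42, .PP [0] [0, 1, 3, 1]),
    (-42, .PP [0] [1, 0, 3, 1]),
    (42, .PP [0] [1, 3, 1, 0]),
    (-182, .PP [3] [3, 0, 0, 1]),
    (126, .PP [0] [3, 0, 1, 3]),
    (126, .PP [0] [0, 3, 1, 3]),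
    (-126, .PP [0] [3, 1, 3, 0]),
    (44, .Nt 3 [0, 1] 0 [(0, 1), (0, 1)]),
    (2, .PP [3, 3] [0, 1, 3]),
    (160, .PP [0] [3, 1, 1, 1]),
    (-60, .Nt 0 [1, 3] 0 [(1, 0), (1, 2)]),
    (-616, .PP [3] [0, 1, 1, 1]),
    (92, .PP [1] [0, 1, 1, 3]),
    (314, .PP [1] [0, 1, 3, 1]),
    (2, .PP [0, 1] [1, 1, 3]),
    (-144, .PP [1] [1, 0, 1, 3]),
    (190, .PP [3] [1, 1, 0, 1]),
    (96, .PP [1, 1] [0, 1, 3]),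
    (-96, .PP [1] [1, 3, 0, 1]),
    (76, .PP [1] [1, 0, 3, 1]),
    (192, .PP [1] [3, 0, 1, 1]),
    (364, .PP [1] [0, 3, 1, 1]),
    (-94, .PP [1] [3, 1, 0, 1]),
    (-8, .Nt 3 [0, 1] 0 [(1, 0), (1, 0), (1, 1)]),
    (60, .Nt 1 [0, 3] 0 [(0, 0), (0, 1), (3, 0)]),
    (204, .PP [0] [1, 0, 3, 0]),
    (-2, .Mrg 0 3 [0, 0, 0, 0, 1]),
    (-174, .PP [1, 3] [0, 0, 0]),
    (-250, .PP [0] [0, 0, 1, 3]),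
    (348, .PP [0] [0, 0, 3, 1]),
    (212, .PP [0, 0] [0, 1, 3]),
    (212, .PP [0] [0, 3, 1, 0]),
    (-386, .PP [0, 0] [0, 3, 1]),
    (-134, .Mrg 1 3 [0, 0, 0, 1, 1]),
    (2, .Nt 3 [0, 1] 0 [(1, 1), (1, 1)]),
    (-170, .PP [3] [0, 0, 1, 1]),
    (-290, .Mrg 0 3 [0, 0, 0, 1, 1]),
    (-134, .Mrg 0 3 [0, 0, 1, 1, 1]),
    (-14, .Nt 3 [0, 1] 0 [(0, 1), (1, 1)]),
    (172, .Mrg 0 1 [0, 0, 0, 0, 3]),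
    (-172, .PP [0, 3] [1, 1, 1]),
    (-172, .PP [1, 1] [0, 0, 3]),
    (-172, .PP [0] [1, 3, 0, 1]),
    (-172, .PP [1, 1] [0, 3, 1]),
    (-110, .PP [0] [0, 3, 1, 1]),
    (110, .PP [0] [3, 1, 1, 0]),
    (-276, .Mrg 1 3 [0, 0, 1, 1, 1]),
    (36, .Nt 1 [0, 3] 0 [(0, 3)]),
    (-6, .Nt 3 [0, 1] 0 [(0, 3)]),
    (40, .Nt 0 [1, 3] 0 [(1, 3)]),
    (2, .PP [3] [3, 3, 0, 1]),
    (2, .PP [3] [3, 0, 3, 1]),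
    (1, .Nt 1 [0, 3] 0 [(3, 0), (3, 0), (3, 1)]),
    (-192, .PP [0] [1, 3, 3, 3]),
    (336, .Mrg 0 1 [0, 0, 3, 3, 3]),
    (62, .Nt 0 [1, 3] 0 [(1, 0), (1, 1), (3, 0)]),
    (62, .PP [3] [0, 1, 1, 3]),
    (-310, .PP [1] [0, 3, 0, 3]),
    (310, .PP [0] [0, 1, 3, 3]),
    (-310, .PP [3] [0, 0, 3, 1]),
    (-62, .PP [3] [1, 3, 0, 1]),
    (62, .PP [1] [3, 3, 0, 1]),
    (62, .Mrg 0 1 [0, 0, 3, 0, 3]),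
    (-62, .PP [1, 3] [0, 0, 3]),
    (-62, .Mrg 0 3 [0, 0, 1, 0, 1]),
    (-62, .PP [1, 3] [0, 0, 1]),
    (-62, .Nt 3 [0, 1] 0 [(1, 0), (1, 2)]),
    (62, .PP [0, 1] [1, 3, 3]),
    (-62, .Mrg 0 3 [0, 1, 0, 1, 1]),
    (62, .Nt 0 [1, 3] 0 [(3, 0), (3, 2)]),
    (-62, .PP [0, 3] [1, 1, 3]),
    (62, .Nt 1 [0, 3] 0 [(3, 0), (3, 2)]),
    (-186, .PP [1] [0, 3, 3, 3]),
    (-124, .PP [3] [1, 1, 0, 3]),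
    (124, .PP [3] [0, 1, 3, 1]),
    (186, .PP [1] [1, 0, 3, 3]),
    (62, .PP [1] [1, 3, 0, 3]),
    (-248, .PP [1] [0, 3, 1, 3]),
    (-248, .PP [1] [0, 3, 3, 1]),
    (-62, .PP [1] [3, 0, 1, 3]),
    (62, .PP [1] [3, 1, 0, 3]),
    (-62, .PP [1] [3, 0, 3, 1]),
    (62, .Mrg 0 1 [0, 3, 0, 3, 3]),
    (-124, .PP [1] [0, 1, 3, 3]),
    (62, .Nt 3 [0, 1] 0 [(0, 0), (1, 2)])])

theorem c5e33_ok : checkCert5 Fin.val c5e33.1 c5e33.2.1 c5e33.2.2 = true := by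
  decide +kernel

/-- A certificate. -/
def c5e34 : ℤ × List (Fin 6) × List (ℤ × Code5 (Fin 6)) :=
  (2, [0, 1, 1, 3, 4], [
    (6, .PP [1] [0, 3, 1, 4]),
    (4, .PP [1] [0, 3, 4, 1]),
    (2, .PP [4] [0, 1, 3, 1]),
    (4, .PP [4] [0, 1, 1, 3]),
    (2, .PP [3] [0, 1, 4, 1]),
    (2, .PP [3] [0, 1, 1, 4]),
    (-4, .PP [3] [0, 4, 1, 1]),
    (2, .Nt 4 [0, 1, 3] 0 [(0, 1), (1, 0), (1, 0)]),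
    (-2, .Mrg 0 3 [0, 0, 0, 4, 1]),
    (-22, .PP [1] [0, 0, 3, 4]),
    (-14, .PP [1] [0, 0, 4, 3]),
    (-8, .PP [0] [0, 3, 4, 1]),
    (16, .PP [0, 0] [1, 4, 3]),
    (36, .PP [0, 0] [1, 3, 4]),
    (-12, .PP [0] [0, 4, 3, 1]),
    (-34, .PP [0] [1, 3, 0, 4]),
    (-12, .PP [0] [1, 4, 0, 3]),
    (-8, .PP [0] [3, 0, 4, 1]),
    (8, .PP [0] [3, 4, 0, 1]),
    (8, .PP [0] [3, 4, 1, 0]),
    (12, .PP [0] [4, 3, 0, 1]),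
    (12, .PP [0] [4, 3, 1, 0]),
    (-24, .PP [1] [4, 3, 0, 0]),
    (28, .PP [4] [1, 3, 0, 0]),
    (-30, .PP [0] [1, 3, 4, 0]),
    (36, .PP [4] [0, 0, 3, 1]),
    (-2, .PP [3, 3] [0, 4, 1]),
    (2, .PP [3] [3, 0, 4, 1]),
    (2, .PP [3] [0, 3, 4, 1]),
    (12, .PP [3] [1, 4, 0, 0]),
    (-16, .PP [1] [3, 4, 0, 0]),
    (-16, .PP [0] [1, 4, 3, 0]),
    (-2, .Mrg 0 1 [0, 0, 0, 4, 3]),
    (-16, .PP [0] [4, 0, 3, 1]),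
    (4, .PP [1] [1, 0, 4, 3]),
    (-2, .Mrg 0 1 [0, 0, 4, 3, 3]),
    (2, .PP [1] [0, 4, 3, 3]),
    (-2, .Mrg 0 4 [0, 1, 0, 3, 1]),
    (-2, .Mrg 0 3 [0, 1, 0, 1, 4]),
    (2, .PP [1] [3, 0, 1, 4]),
    (-4, .PP [1, 3] [0, 1, 4]),
    (-6, .Mrg 0 3 [0, 0, 1, 4, 1]),
    (-6, .Mrg 0 3 [0, 0, 1, 1, 4]),
    (-8, .Mrg 0 4 [0, 0, 0, 3, 1]),
    (-2, .Mrg 0 1 [0, 0, 0, 3, 4]),
    (4, .PP [0] [0, 4, 1, 3]),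
    (-4, .PP [0] [4, 0, 1, 3]),
    (-4, .PP [0] [4, 1, 0, 3]),
    (-4, .PP [0] [4, 1, 3, 0]),
    (-4, .PP [4] [1, 1, 0, 3]),
    (6, .PP [1] [1, 0, 3, 4]),
    (-4, .PP [1] [4, 0, 0, 3]),
    (2, .PP [1] [0, 4, 3, 1]),
    (-2, .Mrg 0 3 [0, 1, 0, 4, 1]),
    (2, .PP [1] [3, 0, 4, 1]),
    (4, .PP [4] [0, 0, 1, 3]),
    (-2, .PP [0] [0, 3, 1, 4]),
    (-2, .PP [0] [3, 0, 1, 4]),
    (-2, .PP [0] [3, 1, 0, 4]),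
    (2, .PP [0] [3, 1, 4, 0]),
    (4, .PP [1] [3, 0, 0, 4]),
    (6, .PP [1] [0, 3, 0, 4]),
    (-6, .PP [0] [0, 1, 3, 4]),
    (-6, .PP [0] [1, 0, 3, 4]),
    (-4, .Mrg 0 4 [0, 0, 0, 1, 3]),
    (2, .Mrg 1 4 [0, 1, 0, 3, 1]),
    (-2, .PP [0, 1] [0, 3, 4]),
    (2, .PP [4] [0, 3, 0, 1]),
    (14, .PP [3] [0, 0, 4, 1]),
    (-2, .Mrg 0 1 [0, 0, 3, 0, 4]),
    (2, .PP [1] [0, 1, 4, 3]),
    (-2, .PP [1] [4, 0, 3, 1]),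
    (-2, .PP [0, 4] [0, 3, 1]),
    (-2, .PP [1, 4] [0, 3, 1]),
    (-4, .Mrg 1 4 [0, 0, 1, 1, 3]),
    (2, .Mrg 0 3 [0, 1, 1, 0, 4]),
    (-2, .PP [3] [1, 1, 0, 4]),
    (2, .PP [1] [1, 3, 0, 4]),
    (-2, .Mrg 0 4 [0, 0, 3, 0, 1]),
    (-4, .PP [4] [0, 3, 4, 1]),
    (-4, .PP [1, 1] [0, 3, 4]),
    (4, .PP [1] [1, 4, 0, 3]),
    (2, .Nt 3 [0, 1, 4] 0 [(0, 0), (4, 0), (4, 1)]),
    (-2, .PP [0] [3, 4, 1, 4]),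
    (-4, .PP [0] [3, 4, 4, 1]),
    (2, .Nt 4 [0, 1, 3] 0 [(0, 0), (0, 0), (1, 1)]),
    (4, .Nt 4 [0, 1, 3] 0 [(0, 0), (0, 1), (1, 0)]),
    (4, .PP [1] [0, 1, 3, 4]),
    (-4, .Mrg 0 1 [0, 0, 4, 0, 3]),
    (-4, .PP [1, 3] [0, 4, 1]),
    (-4, .PP [1] [4, 0, 1, 3]),
    (4, .PP [1] [0, 4, 1, 3]),
    (-4, .Mrg 0 3 [0, 0, 1, 4, 4]),
    (-2, .PP [4, 4] [0, 1, 3]),
    (2, .PP [3] [0, 1, 4, 4]),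
    (4, .PP [4] [0, 4, 1, 3]),
    (2, .PP [4] [4, 0, 1, 3]),
    (-8, .Mrg 0 1 [0, 0, 3, 4, 4]),
    (8, .PP [1] [0, 3, 4, 4]),
    (6, .PP [4, 4] [0, 3, 1]),
    (-6, .PP [4] [0, 3, 1, 4]),
    (1, .Nt 3 [0, 1, 4] 0 [(0, 1), (4, 0), (4, 0)]),
    (-2, .PP [3] [0, 4, 1, 4]),
    (2, .PP [3] [4, 4, 0, 1]),
    (-2, .PP [3] [0, 4, 4, 1]),
    (-2, .PP [4] [3, 4, 0, 1]),
    (2, .PP [4] [0, 4, 3, 1])])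

theorem c5e34_ok : checkCert5 Fin.val c5e34.1 c5e34.2.1 c5e34.2.2 = true := by
  decide +kernel

/-- A certificate. -/
def c5e35 : ℤ × List (Fin 6) × List (ℤ × Code5 (Fin 6)) :=
  (2, [0, 1, 2, 0, 0], [
    (396, .PP [0] [1, 2, 0, 0]),
    (1038, .PP [2] [0, 0, 0, 1]),
    (632, .PP [0] [0, 1, 0, 2]),
    (326, .PP [0] [1, 0, 0, 2]),
    (-238, .PP [0] [1, 0, 2, 0]),
    (394, .PP [0] [2, 1, 0, 0]),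
    (-348, .PP [2] [0, 1, 0, 0]),
    (-934, .PP [1] [0, 0, 0, 2]),
    (-696, .PP [0] [0, 2, 0, 1]),
    (498, .PP [0] [2, 0, 1, 0]),
    (-1170, .PP [1] [2, 0, 0, 0]),
    (-242, .PP [0] [1, 0, 2, 2]),
    (198, .PP [1, 2] [0, 0, 0]),
    (290, .PP [0] [0, 0, 1, 2]),
    (-396, .PP [0] [0, 0, 2, 1]),
    (-244, .PP [0, 0] [0, 1, 2]),
    (-244, .PP [0] [0, 2, 1, 0]),
    (96, .PP [1] [0, 0, 2, 2]),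
    (-22, .PP [0] [2, 0, 0, 1]),
    (16, .Nt 2 [0, 1] 0 [(0, 1), (1, 1)]),
    (442, .PP [0, 0] [0, 2, 1]),
    (-196, .Mrg 0 1 [0, 0, 0, 0, 2]),
    (192, .PP [2] [0, 0, 1, 1]),
    (-384, .PP [0, 0] [1, 1, 2]),
    (240, .PP [2] [1, 1, 0, 0]),
    (196, .PP [0, 2] [1, 1, 1]),
    (-192, .PP [0] [2, 1, 1, 1]),
    (196, .PP [1, 1] [0, 0, 2]),
    (-508, .PP [1] [0, 0, 2, 1]),
    (196, .PP [0] [1, 2, 0, 1]),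
    (196, .PP [1, 1] [0, 2, 1]),
    (-108, .PP [1] [1, 0, 2, 1]),
    (-328, .PP [1] [0, 1, 2, 1]),
    (-152, .PP [1] [1, 2, 0, 0]),
    (152, .PP [1] [1, 0, 0, 2]),
    (-80, .PP [0] [1, 1, 0, 2]),
    (224, .PP [0] [1, 1, 2, 0]),
    (152, .PP [1] [0, 1, 0, 2]),
    (-372, .PP [1] [0, 2, 1, 1]),
    (-312, .PP [1] [2, 0, 0, 1]),
    (124, .PP [0] [0, 2, 1, 1]),
    (-124, .PP [0] [2, 1, 1, 0]),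
    (-312, .PP [1] [0, 2, 0, 1]),
    (-66, .PP [0, 1] [0, 0, 2]),
    (44, .PP [0] [2, 0, 1, 1]),
    (320, .Mrg 1 2 [0, 0, 1, 1, 1]),
    (44, .PP [0] [0, 1, 2, 1]),
    (-44, .PP [0] [1, 2, 1, 0]),
    (-160, .PP [1] [0, 0, 1, 2]),
    (160, .PP [0] [0, 1, 1, 2]),
    (160, .PP [0] [1, 0, 1, 2]),
    (44, .PP [0] [1, 0, 2, 1]),
    (332, .Mrg 0 2 [0, 0, 0, 1, 1]),
    (168, .Mrg 0 2 [0, 0, 1, 1, 1]),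
    (52, .Nt 2 [0, 1] 0 [(0, 0), (0, 1), (1, 0)]),
    (116, .PP [0] [2, 1, 0, 1]),
    (-52, .Nt 2 [0, 1] 0 [(0, 1), (0, 1)]),
    (572, .PP [2] [0, 1, 1, 1]),
    (-88, .PP [1] [0, 1, 1, 2]),
    (132, .PP [1] [1, 0, 1, 2]),
    (44, .PP [2, 2] [0, 1, 1]),
    (-176, .PP [2] [1, 1, 0, 1]),
    (-88, .PP [1, 1] [0, 1, 2]),
    (88, .PP [1] [1, 2, 0, 1]),
    (-176, .PP [1] [2, 0, 1, 1]),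
    (88, .PP [1] [2, 1, 0, 1]),
    (10, .Nt 2 [0, 1] 0 [(1, 0), (1, 0), (1, 1)]),
    (-116, .PP [2] [2, 0, 1, 1]),
    (60, .Nt 2 [0, 1] 0 [(0, 0), (0, 0), (0, 1)]),
    (158, .Mrg 1 2 [0, 0, 0, 1, 1]),
    (-40, .Nt 1 [0, 2] 0 [(0, 3)]),
    (4, .PP [0, 1] [2, 2, 2]),
    (-2, .PP [2] [0, 2, 2, 1]),
    (-2, .PP [2, 2] [0, 1, 2]),
    (4, .Nt 2 [0, 1] 0 [(0, 3)]),
    (-44, .Nt 0 [1, 2] 0 [(1, 3)]),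
    (-404, .PP [2] [0, 2, 1, 1]),
    (-2, .PP [2] [2, 2, 0, 1]),
    (-2, .PP [2] [2, 0, 2, 1]),
    (-2, .Nt 1 [0, 2] 0 [(0, 1), (2, 1)]),
    (-426, .PP [2, 2] [0, 0, 1]),
    (-220, .PP [0] [2, 0, 2, 1]),
    (-362, .PP [0] [1, 2, 0, 2]),
    (-146, .PP [0] [2, 1, 0, 2]),
    (214, .PP [2] [0, 0, 1, 2]),
    (292, .PP [1] [2, 0, 0, 2]),
    (-220, .PP [0] [0, 2, 2, 1]),
    (-70, .PP [0] [1, 2, 2, 0]),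
    (220, .PP [0] [2, 2, 1, 0]),
    (-440, .PP [1] [2, 2, 0, 0]),
    (148, .PP [2] [1, 2, 0, 0]),
    (66, .Mrg 1 2 [0, 0, 1, 0, 1]),
    (68, .Nt 1 [0, 2] 0 [(0, 0), (0, 2)]),
    (220, .PP [0] [2, 2, 0, 1]),
    (212, .PP [2] [0, 2, 0, 1]),
    (430, .PP [0, 0] [1, 2, 2]),
    (-68, .PP [0, 2] [0, 0, 1]),
    (-4, .Nt 2 [0, 1] 0 [(0, 0), (0, 2)]),
    (68, .Mrg 1 2 [0, 1, 0, 1, 1]),
    (68, .PP [2] [0, 1, 0, 1]),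
    (-68, .PP [0, 1] [0, 2, 1]),
    (-68, .PP [0, 1] [0, 1, 2]),
    (-68, .PP [0, 2] [0, 2, 1]),
    (-68, .PP [0, 2] [0, 1, 2]),
    (212, .PP [2] [2, 0, 0, 1]),
    (-146, .PP [0] [2, 0, 1, 2]),
    (-146, .PP [0] [0, 2, 1, 2]),
    (146, .PP [0] [2, 1, 2, 0]),
    (-70, .Nt 1 [0, 2] 0 [(0, 0), (0, 1), (2, 0)]),
    (2, .Mrg 0 2 [0, 0, 0, 0, 1]),
    (-2, .Nt 2 [0, 1] 0 [(1, 1), (1, 1)]),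
    (-1, .Nt 1 [0, 2] 0 [(2, 0), (2, 0), (2, 1)]),
    (222, .PP [0] [1, 2, 2, 2]),
    (-392, .Mrg 0 1 [0, 0, 2, 2, 2]),
    (-72, .Nt 0 [1, 2] 0 [(1, 0), (1, 1), (2, 0)]),
    (-72, .PP [2] [0, 1, 1, 2]),
    (360, .PP [1] [0, 2, 0, 2]),
    (-360, .PP [0] [0, 1, 2, 2]),
    (360, .PP [2] [0, 0, 2, 1]),
    (72, .PP [2] [1, 2, 0, 1]),
    (-72, .PP [1] [2, 2, 0, 1]),
    (-72, .Mrg 0 1 [0, 0, 2, 0, 2]),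
    (72, .PP [1, 2] [0, 0, 2]),
    (72, .Mrg 0 2 [0, 0, 1, 0, 1]),
    (72, .PP [1, 2] [0, 0, 1]),
    (72, .Nt 2 [0, 1] 0 [(1, 0), (1, 2)]),
    (72, .Nt 0 [1, 2] 0 [(1, 0), (1, 2)]),
    (-72, .PP [0, 1] [1, 2, 2]),
    (72, .Mrg 0 2 [0, 1, 0, 1, 1]),
    (-72, .Nt 0 [1, 2] 0 [(2, 0), (2, 2)]),
    (72, .PP [0, 2] [1, 1, 2]),
    (-72, .Nt 1 [0, 2] 0 [(2, 0), (2, 2)]),
    (216, .PP [1] [0, 2, 2, 2]),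
    (144, .PP [2] [1, 1, 0, 2]),
    (-144, .PP [2] [0, 1, 2, 1]),
    (-216, .PP [1] [1, 0, 2, 2]),
    (-72, .PP [1] [1, 2, 0, 2]),
    (288, .PP [1] [0, 2, 1, 2]),
    (288, .PP [1] [0, 2, 2, 1]),
    (72, .PP [1] [2, 0, 1, 2]),
    (-72, .PP [1] [2, 1, 0, 2]),
    (72, .PP [1] [2, 0, 2, 1]),
    (-72, .Mrg 0 1 [0, 2, 0, 2, 2]),
    (144, .PP [1] [0, 1, 2, 2]),
    (-72, .Nt 2 [0, 1] 0 [(0, 0), (1, 2)])])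

theorem c5e35_ok : checkCert5 Fin.val c5e35.1 c5e35.2.1 c5e35.2.2 = true := by
  decide +kernel

/-- A certificate. -/
def c5e36 : ℤ × List (Fin 6) × List (ℤ × Code5 (Fin 6)) :=
  (1, [0, 1, 2, 0, 1], [
    (-114, .PP [0] [2, 1, 0, 1]),
    (-46, .PP [0] [2, 0, 1, 1]),
    (-63, .PP [2] [0, 1, 0, 1]),
    (342, .PP [2] [0, 1, 0, 0]),
    (-322, .PP [0] [1, 0, 0, 2]),
    (233, .PP [0] [1, 0, 2, 0]),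
    (-389, .PP [0] [1, 2, 0, 0]),
    (-389, .PP [0] [2, 1, 0, 0]),
    (-622, .PP [0] [0, 1, 0, 2]),
    (-1020, .PP [2] [0, 0, 0, 1]),
    (922, .PP [1] [0, 0, 0, 2]),
    (684, .PP [0] [0, 2, 0, 1]),
    (-492, .PP [0] [2, 0, 1, 0]),
    (-431, .PP [0, 0] [0, 2, 1]),
    (239, .PP [0, 0] [0, 1, 2]),
    (-286, .PP [0] [0, 0, 1, 2]),
    (239, .PP [0] [0, 2, 1, 0]),
    (20, .PP [0] [2, 0, 0, 1]),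
    (230, .PP [0] [1, 0, 2, 2]),
    (1152, .PP [1] [2, 0, 0, 0]),
    (-90, .PP [1] [0, 0, 2, 2]),
    (-182, .PP [2] [0, 0, 1, 1]),
    (-48, .Nt 2 [0, 1] 0 [(0, 0), (0, 1), (1, 0)]),
    (-149, .Mrg 1 2 [0, 0, 0, 1, 1]),
    (64, .PP [0, 1] [0, 2, 1]),
    (64, .PP [0, 1] [0, 1, 2]),
    (-192, .PP [1, 2] [0, 0, 0]),
    (384, .PP [0] [0, 0, 2, 1]),
    (48, .Nt 2 [0, 1] 0 [(0, 1), (0, 1)]),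
    (-16, .Nt 2 [0, 1] 0 [(0, 1), (1, 1)]),
    (190, .Mrg 0 1 [0, 0, 0, 0, 2]),
    (372, .PP [0, 0] [1, 1, 2]),
    (-234, .PP [2] [1, 1, 0, 0]),
    (-190, .PP [0, 2] [1, 1, 1]),
    (186, .PP [0] [2, 1, 1, 1]),
    (-190, .PP [1, 1] [0, 0, 2]),
    (493, .PP [1] [0, 0, 2, 1]),
    (-190, .PP [0] [1, 2, 0, 1]),
    (-190, .PP [1, 1] [0, 2, 1]),
    (102, .PP [1] [1, 0, 2, 1]),
    (322, .PP [1] [0, 1, 2, 1]),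
    (146, .PP [1] [1, 2, 0, 0]),
    (-146, .PP [1] [1, 0, 0, 2]),
    (77, .PP [0] [1, 1, 0, 2]),
    (-215, .PP [0] [1, 1, 2, 0]),
    (-146, .PP [1] [0, 1, 0, 2]),
    (366, .PP [1] [0, 2, 1, 1]),
    (303, .PP [1] [2, 0, 0, 1]),
    (-121, .PP [0] [0, 2, 1, 1]),
    (121, .PP [0] [2, 1, 1, 0]),
    (303, .PP [1] [0, 2, 0, 1]),
    (-308, .Mrg 1 2 [0, 0, 1, 1, 1]),
    (-44, .PP [0] [0, 1, 2, 1]),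
    (44, .PP [0] [1, 2, 1, 0]),
    (157, .PP [1] [0, 0, 1, 2]),
    (-157, .PP [0] [0, 1, 1, 2]),
    (-157, .PP [0] [1, 0, 1, 2]),
    (-44, .PP [0] [1, 0, 2, 1]),
    (-320, .Mrg 0 2 [0, 0, 0, 1, 1]),
    (-159, .Mrg 0 2 [0, 0, 1, 1, 1]),
    (-572, .PP [2] [0, 1, 1, 1]),
    (88, .PP [1] [0, 1, 1, 2]),
    (-132, .PP [1] [1, 0, 1, 2]),
    (-44, .PP [2, 2] [0, 1, 1]),
    (176, .PP [2] [1, 1, 0, 1]),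
    (88, .PP [1, 1] [0, 1, 2]),
    (-88, .PP [1] [1, 2, 0, 1]),
    (176, .PP [1] [2, 0, 1, 1]),
    (-88, .PP [1] [2, 1, 0, 1]),
    (-10, .Nt 2 [0, 1] 0 [(1, 0), (1, 0), (1, 1)]),
    (113, .PP [2] [2, 0, 1, 1]),
    (-57, .Nt 2 [0, 1] 0 [(0, 0), (0, 0), (0, 1)]),
    (40, .Nt 1 [0, 2] 0 [(0, 3)]),
    (-4, .PP [0, 1] [2, 2, 2]),
    (2, .PP [2] [0, 2, 2, 1]),
    (2, .PP [2, 2] [0, 1, 2]),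
    (-4, .Nt 2 [0, 1] 0 [(0, 3)]),
    (44, .Nt 0 [1, 2] 0 [(1, 3)]),
    (389, .PP [2] [0, 2, 1, 1]),
    (2, .PP [2] [2, 2, 0, 1]),
    (2, .PP [2] [2, 0, 2, 1]),
    (2, .Nt 1 [0, 2] 0 [(0, 1), (2, 1)]),
    (408, .PP [2, 2] [0, 0, 1]),
    (211, .PP [0] [2, 0, 2, 1]),
    (347, .PP [0] [1, 2, 0, 2]),
    (140, .PP [0] [2, 1, 0, 2]),
    (-205, .PP [2] [0, 0, 1, 2]),
    (-280, .PP [1] [2, 0, 0, 2]),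
    (211, .PP [0] [0, 2, 2, 1]),
    (67, .PP [0] [1, 2, 2, 0]),
    (-211, .PP [0] [2, 2, 1, 0]),
    (422, .PP [1] [2, 2, 0, 0]),
    (-142, .PP [2] [1, 2, 0, 0]),
    (-63, .Mrg 1 2 [0, 0, 1, 0, 1]),
    (-65, .Nt 1 [0, 2] 0 [(0, 0), (0, 2)]),
    (-211, .PP [0] [2, 2, 0, 1]),
    (65, .PP [0, 1] [0, 0, 2]),
    (-203, .PP [2] [0, 2, 0, 1]),
    (-412, .PP [0, 0] [1, 2, 2]),
    (65, .PP [0, 2] [0, 0, 1]),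
    (4, .Nt 2 [0, 1] 0 [(0, 0), (0, 2)]),
    (-65, .Mrg 1 2 [0, 1, 0, 1, 1]),
    (65, .PP [0, 2] [0, 2, 1]),
    (65, .PP [0, 2] [0, 1, 2]),
    (-203, .PP [2] [2, 0, 0, 1]),
    (140, .PP [0] [2, 0, 1, 2]),
    (140, .PP [0] [0, 2, 1, 2]),
    (-140, .PP [0] [2, 1, 2, 0]),
    (67, .Nt 1 [0, 2] 0 [(0, 0), (0, 1), (2, 0)]),
    (-2, .Mrg 0 2 [0, 0, 0, 0, 1]),
    (2, .Nt 2 [0, 1] 0 [(1, 1), (1, 1)]),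
    (1, .Nt 1 [0, 2] 0 [(2, 0), (2, 0), (2, 1)]),
    (-213, .PP [0] [1, 2, 2, 2]),
    (374, .Mrg 0 1 [0, 0, 2, 2, 2]),
    (69, .Nt 0 [1, 2] 0 [(1, 0), (1, 1), (2, 0)]),
    (69, .PP [2] [0, 1, 1, 2]),
    (-345, .PP [1] [0, 2, 0, 2]),
    (345, .PP [0] [0, 1, 2, 2]),
    (-345, .PP [2] [0, 0, 2, 1]),
    (-69, .PP [2] [1, 2, 0, 1]),
    (69, .PP [1] [2, 2, 0, 1]),
    (69, .Mrg 0 1 [0, 0, 2, 0, 2]),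
    (-69, .PP [1, 2] [0, 0, 2]),
    (-69, .Mrg 0 2 [0, 0, 1, 0, 1]),
    (-69, .PP [1, 2] [0, 0, 1]),
    (-69, .Nt 2 [0, 1] 0 [(1, 0), (1, 2)]),
    (-69, .Nt 0 [1, 2] 0 [(1, 0), (1, 2)]),
    (69, .PP [0, 1] [1, 2, 2]),
    (-69, .Mrg 0 2 [0, 1, 0, 1, 1]),
    (69, .Nt 0 [1, 2] 0 [(2, 0), (2, 2)]),
    (-69, .PP [0, 2] [1, 1, 2]),
    (69, .Nt 1 [0, 2] 0 [(2, 0), (2, 2)]),
    (-207, .PP [1] [0, 2, 2, 2]),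
    (-138, .PP [2] [1, 1, 0, 2]),
    (138, .PP [2] [0, 1, 2, 1]),
    (207, .PP [1] [1, 0, 2, 2]),
    (69, .PP [1] [1, 2, 0, 2]),
    (-276, .PP [1] [0, 2, 1, 2]),
    (-276, .PP [1] [0, 2, 2, 1]),
    (-69, .PP [1] [2, 0, 1, 2]),
    (69, .PP [1] [2, 1, 0, 2]),
    (-69, .PP [1] [2, 0, 2, 1]),
    (69, .Mrg 0 1 [0, 2, 0, 2, 2]),
    (-138, .PP [1] [0, 1, 2, 2]),
    (69, .Nt 2 [0, 1] 0 [(0, 0), (1, 2)])])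

theorem c5e36_ok : checkCert5 Fin.val c5e36.1 c5e36.2.1 c5e36.2.2 = true := by
  decide +kernel

/-- A certificate. -/
def c5e37 : ℤ × List (Fin 6) × List (ℤ × Code5 (Fin 6)) :=
  (1, [0, 1, 2, 0, 2], [
    (-90, .PP [1] [0, 0, 2, 2]),
    (230, .PP [0] [1, 0, 2, 2]),
    (-284, .PP [0] [0, 0, 1, 2]),
    (-620, .PP [0] [0, 1, 0, 2]),
    (19, .PP [0] [2, 0, 0, 1]),
    (-492, .PP [0] [2, 0, 1, 0]),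
    (1152, .PP [1] [2, 0, 0, 0]),
    (-1020, .PP [2] [0, 0, 0, 1]),
    (238, .PP [0, 0] [0, 1, 2]),
    (238, .PP [0] [0, 2, 1, 0]),
    (342, .PP [2] [0, 1, 0, 0]),
    (684, .PP [0] [0, 2, 0, 1]),
    (-323, .PP [0] [1, 0, 0, 2]),
    (-388, .PP [0] [1, 2, 0, 0]),
    (-388, .PP [0] [2, 1, 0, 0]),
    (922, .PP [1] [0, 0, 0, 2]),
    (232, .PP [0] [1, 0, 2, 0]),
    (348, .PP [0] [1, 2, 0, 2]),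
    (-192, .PP [1, 2] [0, 0, 0]),
    (384, .PP [0] [0, 0, 2, 1]),
    (66, .Nt 1 [0, 2] 0 [(0, 0), (0, 1), (2, 0)]),
    (-16, .Nt 2 [0, 1] 0 [(0, 1), (1, 1)]),
    (-430, .PP [0, 0] [0, 2, 1]),
    (190, .Mrg 0 1 [0, 0, 0, 0, 2]),
    (-186, .PP [2] [0, 0, 1, 1]),
    (372, .PP [0, 0] [1, 1, 2]),
    (-234, .PP [2] [1, 1, 0, 0]),
    (-190, .PP [0, 2] [1, 1, 1]),
    (186, .PP [0] [2, 1, 1, 1]),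
    (-190, .PP [1, 1] [0, 0, 2]),
    (493, .PP [1] [0, 0, 2, 1]),
    (-190, .PP [0] [1, 2, 0, 1]),
    (-190, .PP [1, 1] [0, 2, 1]),
    (102, .PP [1] [1, 0, 2, 1]),
    (322, .PP [1] [0, 1, 2, 1]),
    (146, .PP [1] [1, 2, 0, 0]),
    (-146, .PP [1] [1, 0, 0, 2]),
    (77, .PP [0] [1, 1, 0, 2]),
    (-215, .PP [0] [1, 1, 2, 0]),
    (-146, .PP [1] [0, 1, 0, 2]),
    (366, .PP [1] [0, 2, 1, 1]),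
    (303, .PP [1] [2, 0, 0, 1]),
    (-121, .PP [0] [0, 2, 1, 1]),
    (121, .PP [0] [2, 1, 1, 0]),
    (303, .PP [1] [0, 2, 0, 1]),
    (-63, .Nt 1 [0, 2] 0 [(0, 0), (0, 2)]),
    (63, .PP [0, 1] [0, 0, 2]),
    (-44, .PP [0] [2, 0, 1, 1]),
    (-308, .Mrg 1 2 [0, 0, 1, 1, 1]),
    (-44, .PP [0] [0, 1, 2, 1]),
    (44, .PP [0] [1, 2, 1, 0]),
    (157, .PP [1] [0, 0, 1, 2]),
    (-157, .PP [0] [0, 1, 1, 2]),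
    (-157, .PP [0] [1, 0, 1, 2]),
    (-44, .PP [0] [1, 0, 2, 1]),
    (-320, .Mrg 0 2 [0, 0, 0, 1, 1]),
    (-159, .Mrg 0 2 [0, 0, 1, 1, 1]),
    (-49, .Nt 2 [0, 1] 0 [(0, 0), (0, 1), (1, 0)]),
    (-113, .PP [0] [2, 1, 0, 1]),
    (49, .Nt 2 [0, 1] 0 [(0, 1), (0, 1)]),
    (-572, .PP [2] [0, 1, 1, 1]),
    (88, .PP [1] [0, 1, 1, 2]),
    (-132, .PP [1] [1, 0, 1, 2]),
    (-44, .PP [2, 2] [0, 1, 1]),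
    (176, .PP [2] [1, 1, 0, 1]),
    (88, .PP [1, 1] [0, 1, 2]),
    (-88, .PP [1] [1, 2, 0, 1]),
    (176, .PP [1] [2, 0, 1, 1]),
    (-88, .PP [1] [2, 1, 0, 1]),
    (-10, .Nt 2 [0, 1] 0 [(1, 0), (1, 0), (1, 1)]),
    (113, .PP [2] [2, 0, 1, 1]),
    (-57, .Nt 2 [0, 1] 0 [(0, 0), (0, 0), (0, 1)]),
    (-146, .Mrg 1 2 [0, 0, 0, 1, 1]),
    (40, .Nt 1 [0, 2] 0 [(0, 3)]),
    (-4, .PP [0, 1] [2, 2, 2]),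
    (2, .PP [2] [0, 2, 2, 1]),
    (2, .PP [2, 2] [0, 1, 2]),
    (-4, .Nt 2 [0, 1] 0 [(0, 3)]),
    (44, .Nt 0 [1, 2] 0 [(1, 3)]),
    (389, .PP [2] [0, 2, 1, 1]),
    (2, .PP [2] [2, 2, 0, 1]),
    (2, .PP [2] [2, 0, 2, 1]),
    (2, .Nt 1 [0, 2] 0 [(0, 1), (2, 1)]),
    (408, .PP [2, 2] [0, 0, 1]),
    (211, .PP [0] [2, 0, 2, 1]),
    (140, .PP [0] [2, 1, 0, 2]),
    (-205, .PP [2] [0, 0, 1, 2]),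
    (-280, .PP [1] [2, 0, 0, 2]),
    (211, .PP [0] [0, 2, 2, 1]),
    (67, .PP [0] [1, 2, 2, 0]),
    (-211, .PP [0] [2, 2, 1, 0]),
    (422, .PP [1] [2, 2, 0, 0]),
    (-142, .PP [2] [1, 2, 0, 0]),
    (-63, .Mrg 1 2 [0, 0, 1, 0, 1]),
    (-211, .PP [0] [2, 2, 0, 1]),
    (-203, .PP [2] [0, 2, 0, 1]),
    (-412, .PP [0, 0] [1, 2, 2]),
    (65, .PP [0, 2] [0, 0, 1]),
    (4, .Nt 2 [0, 1] 0 [(0, 0), (0, 2)]),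
    (-65, .Mrg 1 2 [0, 1, 0, 1, 1]),
    (-65, .PP [2] [0, 1, 0, 1]),
    (65, .PP [0, 1] [0, 2, 1]),
    (65, .PP [0, 1] [0, 1, 2]),
    (65, .PP [0, 2] [0, 2, 1]),
    (65, .PP [0, 2] [0, 1, 2]),
    (-203, .PP [2] [2, 0, 0, 1]),
    (140, .PP [0] [2, 0, 1, 2]),
    (140, .PP [0] [0, 2, 1, 2]),
    (-140, .PP [0] [2, 1, 2, 0]),
    (-2, .Mrg 0 2 [0, 0, 0, 0, 1]),
    (2, .Nt 2 [0, 1] 0 [(1, 1), (1, 1)]),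
    (1, .Nt 1 [0, 2] 0 [(2, 0), (2, 0), (2, 1)]),
    (-213, .PP [0] [1, 2, 2, 2]),
    (374, .Mrg 0 1 [0, 0, 2, 2, 2]),
    (69, .Nt 0 [1, 2] 0 [(1, 0), (1, 1), (2, 0)]),
    (69, .PP [2] [0, 1, 1, 2]),
    (-345, .PP [1] [0, 2, 0, 2]),
    (345, .PP [0] [0, 1, 2, 2]),
    (-345, .PP [2] [0, 0, 2, 1]),
    (-69, .PP [2] [1, 2, 0, 1]),
    (69, .PP [1] [2, 2, 0, 1]),
    (69, .Mrg 0 1 [0, 0, 2, 0, 2]),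
    (-69, .PP [1, 2] [0, 0, 2]),
    (-69, .Mrg 0 2 [0, 0, 1, 0, 1]),
    (-69, .PP [1, 2] [0, 0, 1]),
    (-69, .Nt 2 [0, 1] 0 [(1, 0), (1, 2)]),
    (-69, .Nt 0 [1, 2] 0 [(1, 0), (1, 2)]),
    (69, .PP [0, 1] [1, 2, 2]),
    (-69, .Mrg 0 2 [0, 1, 0, 1, 1]),
    (69, .Nt 0 [1, 2] 0 [(2, 0), (2, 2)]),
    (-69, .PP [0, 2] [1, 1, 2]),
    (69, .Nt 1 [0, 2] 0 [(2, 0), (2, 2)]),
    (-207, .PP [1] [0, 2, 2, 2]),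
    (-138, .PP [2] [1, 1, 0, 2]),
    (138, .PP [2] [0, 1, 2, 1]),
    (207, .PP [1] [1, 0, 2, 2]),
    (69, .PP [1] [1, 2, 0, 2]),
    (-276, .PP [1] [0, 2, 1, 2]),
    (-276, .PP [1] [0, 2, 2, 1]),
    (-69, .PP [1] [2, 0, 1, 2]),
    (69, .PP [1] [2, 1, 0, 2]),
    (-69, .PP [1] [2, 0, 2, 1]),
    (69, .Mrg 0 1 [0, 2, 0, 2, 2]),
    (-138, .PP [1] [0, 1, 2, 2]),
    (69, .Nt 2 [0, 1] 0 [(0, 0), (1, 2)])])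

theorem c5e37_ok : checkCert5 Fin.val c5e37.1 c5e37.2.1 c5e37.2.2 = true := by
  decide +kernel

/-- A certificate. -/
def c5e38 : ℤ × List (Fin 6) × List (ℤ × Code5 (Fin 6)) :=
  (1, [0, 1, 2, 0, 4], [
    (-5, .PP [0, 1] [0, 4, 2]),
    (-21, .PP [0] [4, 0, 2, 1]),
    (8, .PP [0, 1] [0, 2, 4]),
    (-8, .PP [4] [0, 2, 0, 1]),
    (46, .PP [4] [1, 2, 0, 0]),
    (-66, .PP [1] [0, 0, 2, 4]),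
    (-37, .PP [0] [1, 2, 4, 0]),
    (12, .PP [0, 0] [1, 4, 2]),
    (26, .PP [0, 0] [1, 2, 4]),
    (-35, .PP [0] [1, 2, 0, 4]),
    (-23, .PP [0] [1, 4, 0, 2]),
    (30, .PP [4] [0, 0, 2, 1]),
    (16, .Mrg 1 4 [0, 0, 1, 1, 2]),
    (3, .PP [0] [1, 4, 2, 0]),
    (-23, .Mrg 0 2 [0, 0, 0, 4, 1]),
    (-5, .Mrg 0 2 [0, 0, 4, 0, 1]),
    (3, .PP [0] [2, 4, 0, 1]),
    (5, .PP [4] [0, 1, 2, 2]),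
    (5, .PP [4] [0, 2, 2, 1]),
    (5, .PP [2] [2, 0, 1, 4]),
    (8, .PP [2] [1, 4, 0, 0]),
    (-6, .PP [1] [2, 4, 0, 0]),
    (-3, .PP [0] [0, 2, 4, 1]),
    (-3, .PP [0] [2, 0, 4, 1]),
    (3, .PP [0] [2, 4, 1, 0]),
    (-1, .Mrg 0 2 [0, 0, 1, 0, 4]),
    (1, .PP [2] [0, 1, 0, 4]),
    (1, .PP [1] [2, 2, 0, 4]),
    (-2, .PP [1] [0, 2, 2, 4]),
    (-2, .PP [1] [0, 2, 4, 2]),
    (-1, .PP [2] [1, 2, 0, 4]),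
    (1, .PP [2] [0, 4, 2, 1]),
    (1, .Mrg 0 1 [0, 2, 2, 0, 4]),
    (1, .PP [0, 2] [1, 4, 2]),
    (-1, .PP [1] [4, 0, 2, 2]),
    (18, .PP [1] [0, 4, 2, 2]),
    (1, .PP [1, 2] [0, 4, 2]),
    (-1, .PP [1, 4] [0, 2, 2]),
    (-4, .Mrg 0 2 [0, 0, 0, 1, 4]),
    (4, .PP [2] [0, 0, 1, 4]),
    (4, .PP [4] [0, 2, 1, 2]),
    (18, .PP [2] [0, 2, 4, 1]),
    (-1, .PP [2] [0, 1, 2, 4]),
    (1, .Mrg 0 4 [0, 1, 2, 0, 2]),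
    (-1, .PP [2] [0, 1, 4, 2]),
    (1, .PP [0, 1] [2, 2, 4]),
    (-8, .PP [0] [4, 2, 2, 1]),
    (1, .Mrg 0 4 [0, 1, 0, 2, 2]),
    (-9, .Mrg 1 2 [0, 0, 1, 1, 4]),
    (8, .Mrg 0 4 [0, 0, 2, 0, 1]),
    (-20, .PP [0] [0, 4, 1, 2]),
    (9, .PP [0] [4, 0, 1, 2]),
    (9, .PP [0] [4, 1, 0, 2]),
    (20, .PP [0] [4, 1, 2, 0]),
    (26, .PP [1] [4, 0, 0, 2]),
    (15, .PP [1] [0, 4, 0, 2]),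
    (-15, .PP [0] [0, 1, 4, 2]),
    (-15, .PP [0] [1, 0, 4, 2]),
    (-4, .PP [0] [4, 2, 1, 2]),
    (-15, .Nt 4 [0, 1, 2] 0 [(0, 0), (0, 1), (1, 0)]),
    (31, .PP [2] [0, 0, 4, 1]),
    (18, .Mrg 0 1 [0, 0, 0, 4, 2]),
    (-36, .PP [1] [1, 0, 4, 2]),
    (11, .Mrg 0 1 [0, 0, 4, 0, 2]),
    (20, .PP [1, 1] [0, 2, 4]),
    (29, .PP [4] [1, 1, 0, 2]),
    (-38, .PP [1] [1, 0, 2, 4]),
    (-20, .PP [1] [1, 4, 0, 2]),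
    (11, .PP [1] [4, 0, 2, 1]),
    (-20, .PP [4] [0, 2, 1, 1]),
    (-20, .PP [4] [0, 1, 2, 1]),
    (-20, .PP [4] [0, 1, 1, 2]),
    (-9, .PP [1] [0, 4, 1, 2]),
    (9, .PP [1, 4] [0, 1, 2]),
    (9, .PP [1, 2] [0, 4, 1]),
    (5, .PP [2] [0, 4, 0, 1]),
    (-9, .Mrg 0 4 [0, 1, 1, 0, 2]),
    (-9, .PP [2] [0, 1, 4, 1]),
    (-9, .PP [2] [0, 1, 1, 4]),
    (-9, .PP [1] [0, 1, 2, 4]),
    (18, .Mrg 0 1 [0, 0, 0, 2, 4]),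
    (11, .PP [1] [4, 0, 1, 2]),
    (-9, .PP [1] [4, 1, 0, 2]),
    (2, .PP [1] [0, 4, 2, 1]),
    (-7, .Nt 4 [0, 1, 2] 0 [(0, 0), (0, 0), (1, 1)]),
    (-2, .Nt 4 [0, 1, 2] 0 [(0, 0), (1, 0), (1, 1)]),
    (2, .PP [0] [4, 1, 2, 1]),
    (4, .PP [0] [4, 1, 1, 2]),
    (-9, .Mrg 0 2 [0, 1, 0, 1, 4]),
    (9, .PP [1] [2, 0, 1, 4]),
    (-7, .PP [1] [0, 1, 4, 2]),
    (4, .Mrg 1 2 [0, 1, 0, 4, 1]),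
    (-4, .PP [0, 2] [0, 4, 1]),
    (-4, .PP [4] [2, 2, 0, 1]),
    (-17, .PP [2, 2] [0, 4, 1]),
    (21, .PP [2] [2, 0, 4, 1]),
    (-4, .PP [2] [4, 0, 1, 2]),
    (-4, .PP [2] [0, 4, 1, 2]),
    (-21, .Mrg 0 1 [0, 0, 4, 2, 2]),
    (-10, .PP [4] [0, 0, 1, 2]),
    (1, .PP [0] [0, 2, 1, 4]),
    (1, .PP [0] [2, 0, 1, 4]),
    (1, .PP [0] [2, 1, 0, 4]),
    (-1, .PP [0] [2, 1, 4, 0]),
    (-2, .PP [1] [2, 0, 0, 4]),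
    (-11, .PP [1] [0, 2, 0, 4]),
    (11, .PP [0] [0, 1, 2, 4]),
    (11, .PP [0] [1, 0, 2, 4]),
    (10, .Mrg 0 4 [0, 0, 0, 1, 2]),
    (-1, .Mrg 0 1 [0, 0, 2, 4, 2]),
    (4, .Nt 4 [0, 1, 2] 0 [(0, 0), (2, 0), (2, 1)]),
    (-9, .Mrg 1 4 [0, 1, 0, 2, 1]),
    (9, .Mrg 0 1 [0, 0, 2, 0, 4]),
    (16, .PP [1, 1] [0, 4, 2]),
    (9, .PP [0, 4] [0, 2, 1]),
    (9, .PP [1, 4] [0, 2, 1]),
    (-9, .Mrg 0 2 [0, 1, 1, 0, 4]),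
    (9, .PP [2] [1, 1, 0, 4]),
    (-9, .PP [1] [1, 2, 0, 4]),
    (16, .Mrg 0 4 [0, 0, 0, 2, 1]),
    (-1, .Nt 4 [0, 1, 2] 0 [(0, 1), (1, 0), (1, 0)]),
    (-9, .Mrg 0 2 [0, 0, 1, 1, 4]),
    (1, .Mrg 0 4 [0, 0, 2, 1, 2]),
    (1, .PP [0, 2] [1, 2, 4]),
    (1, .PP [1, 2] [0, 2, 4]),
    (-1, .PP [4] [1, 2, 0, 2]),
    (-1, .Mrg 0 1 [0, 0, 2, 2, 4]),
    (2, .Nt 4 [0, 1, 2] 0 [(0, 1), (2, 0), (2, 0)]),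
    (-36, .PP [0] [0, 4, 2, 1]),
    (36, .PP [0] [4, 2, 0, 1]),
    (36, .PP [0] [4, 2, 1, 0]),
    (-72, .PP [1] [4, 2, 0, 0]),
    (-4, .PP [2, 2] [0, 1, 4]),
    (4, .PP [2] [2, 4, 0, 1]),
    (-4, .PP [2] [4, 0, 2, 1]),
    (2, .PP [2] [0, 2, 1, 4]),
    (-8, .Nt 2 [0, 1, 4] 0 [(0, 0), (4, 0), (4, 1)]),
    (8, .PP [0] [2, 4, 1, 4]),
    (16, .PP [0] [2, 4, 4, 1]),
    (10, .Mrg 0 2 [0, 0, 1, 4, 4]),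
    (2, .PP [4, 4] [0, 1, 2]),
    (-2, .PP [2] [0, 1, 4, 4]),
    (-10, .PP [4] [0, 4, 1, 2]),
    (-2, .PP [4] [4, 0, 1, 2]),
    (16, .Mrg 0 1 [0, 0, 2, 4, 4]),
    (-16, .PP [1] [0, 2, 4, 4]),
    (-8, .PP [4, 4] [0, 2, 1]),
    (8, .PP [4] [0, 2, 1, 4]),
    (-4, .Nt 2 [0, 1, 4] 0 [(0, 1), (4, 0), (4, 0)]),
    (8, .PP [2] [0, 4, 1, 4]),
    (-8, .PP [2] [4, 4, 0, 1]),
    (8, .PP [2] [0, 4, 4, 1]),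
    (8, .PP [4] [2, 4, 0, 1]),
    (-8, .PP [4] [0, 4, 2, 1])])

theorem c5e38_ok : checkCert5 Fin.val c5e38.1 c5e38.2.1 c5e38.2.2 = true := by
  decide +kernel

/-- A certificate. -/
def c5e39 : ℤ × List (Fin 6) × List (ℤ × Code5 (Fin 6)) :=
  (1, [0, 1, 2, 1, 0], [
    (87, .PP [0] [1, 2, 1, 0]),
    (123, .PP [0, 1] [0, 1, 2]),
    (-364, .PP [2] [0, 0, 1, 1]),
    (306, .PP [1] [0, 0, 1, 2]),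
    (-306, .PP [0] [0, 1, 1, 2]),
    (-304, .PP [0] [1, 0, 1, 2]),
    (-85, .PP [0] [1, 0, 2, 1]),
    (-369, .PP [0] [1, 2, 0, 1]),
    (-218, .PP [0] [2, 1, 0, 1]),
    (-86, .PP [0] [0, 1, 2, 1]),
    (282, .PP [1] [1, 2, 0, 0]),
    (-282, .PP [1] [1, 0, 0, 2]),
    (152, .PP [0] [1, 1, 0, 2]),
    (-414, .PP [0] [1, 1, 2, 0]),
    (-282, .PP [1] [0, 1, 0, 2]),
    (-84, .PP [0] [2, 0, 1, 1]),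
    (-612, .Mrg 0 2 [0, 0, 0, 1, 1]),
    (-2, .Ar [0, 1, 2] 0 [(0, 0), (0, 1), (1, 0)]),
    (-526, .PP [0] [0, 0, 1, 2]),
    (746, .PP [0] [0, 0, 2, 1]),
    (-1158, .PP [0] [0, 1, 0, 2]),
    (-596, .PP [0] [1, 0, 0, 2]),
    (644, .PP [2] [0, 1, 0, 0]),
    (-1920, .PP [2] [0, 0, 0, 1]),
    (1288, .PP [0] [0, 2, 0, 1]),
    (-916, .PP [0] [2, 0, 1, 0]),
    (450, .PP [0, 0] [0, 1, 2]),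
    (450, .PP [0] [0, 2, 1, 0]),
    (46, .PP [0] [2, 0, 0, 1]),
    (-2, .PP [0, 2] [0, 1, 1]),
    (2148, .PP [1] [2, 0, 0, 0]),
    (442, .PP [0] [1, 0, 2, 2]),
    (270, .PP [0] [2, 0, 1, 2]),
    (-822, .PP [0, 0] [0, 2, 1]),
    (-286, .Mrg 1 2 [0, 0, 0, 1, 1]),
    (-122, .Mrg 1 2 [0, 0, 1, 0, 1]),
    (-122, .Nt 1 [0, 2] 0 [(0, 0), (0, 2)]),
    (122, .PP [0, 1] [0, 0, 2]),
    (406, .PP [0] [2, 0, 2, 1]),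
    (438, .PP [0] [1, 0, 2, 0]),
    (-580, .Mrg 1 2 [0, 0, 1, 1, 1]),
    (-722, .PP [0] [1, 2, 0, 0]),
    (-722, .PP [0] [2, 1, 0, 0]),
    (1704, .PP [1] [0, 0, 0, 2]),
    (270, .PP [0] [2, 1, 0, 2]),
    (126, .Nt 1 [0, 2] 0 [(0, 0), (0, 1), (2, 0)]),
    (666, .PP [0] [1, 2, 0, 2]),
    (-122, .Mrg 1 2 [0, 1, 0, 1, 1]),
    (122, .PP [0, 1] [0, 2, 1]),
    (122, .PP [0, 2] [0, 2, 1]),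
    (122, .PP [0, 2] [0, 1, 2]),
    (-172, .PP [1] [0, 0, 2, 2]),
    (-32, .Nt 2 [0, 1] 0 [(0, 1), (1, 1)]),
    (720, .PP [0, 0] [1, 1, 2]),
    (-456, .PP [2] [1, 1, 0, 0]),
    (360, .PP [0] [2, 1, 1, 1]),
    (956, .PP [1] [0, 0, 2, 1]),
    (200, .PP [1] [1, 0, 2, 1]),
    (620, .PP [1] [0, 1, 2, 1]),
    (704, .PP [1] [0, 2, 1, 1]),
    (588, .PP [1] [2, 0, 0, 1]),
    (588, .PP [1] [0, 2, 0, 1]),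
    (-304, .Mrg 0 2 [0, 0, 1, 1, 1]),
    (-92, .Nt 2 [0, 1] 0 [(0, 0), (0, 1), (1, 0)]),
    (92, .Nt 2 [0, 1] 0 [(0, 1), (0, 1)]),
    (-1092, .PP [2] [0, 1, 1, 1]),
    (168, .PP [1] [0, 1, 1, 2]),
    (-252, .PP [1] [1, 0, 1, 2]),
    (-84, .PP [2, 2] [0, 1, 1]),
    (336, .PP [2] [1, 1, 0, 1]),
    (168, .PP [1, 1] [0, 1, 2]),
    (-168, .PP [1] [1, 2, 0, 1]),
    (336, .PP [1] [2, 0, 1, 1]),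
    (-168, .PP [1] [2, 1, 0, 1]),
    (-20, .Nt 2 [0, 1] 0 [(1, 0), (1, 0), (1, 1)]),
    (216, .PP [2] [2, 0, 1, 1]),
    (-108, .Nt 2 [0, 1] 0 [(0, 0), (0, 0), (0, 1)]),
    (76, .Nt 1 [0, 2] 0 [(0, 3)]),
    (-8, .PP [0, 1] [2, 2, 2]),
    (4, .PP [2] [0, 2, 2, 1]),
    (4, .PP [2, 2] [0, 1, 2]),
    (-8, .Nt 2 [0, 1] 0 [(0, 3)]),
    (84, .Nt 0 [1, 2] 0 [(1, 3)]),
    (744, .PP [2] [0, 2, 1, 1]),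
    (4, .PP [2] [2, 2, 0, 1]),
    (4, .PP [2] [2, 0, 2, 1]),
    (4, .Nt 1 [0, 2] 0 [(0, 1), (2, 1)]),
    (780, .PP [2, 2] [0, 0, 1]),
    (-392, .PP [2] [0, 0, 1, 2]),
    (-536, .PP [1] [2, 0, 0, 2]),
    (404, .PP [0] [0, 2, 2, 1]),
    (128, .PP [0] [1, 2, 2, 0]),
    (-404, .PP [0] [2, 2, 1, 0]),
    (808, .PP [1] [2, 2, 0, 0]),
    (-272, .PP [2] [1, 2, 0, 0]),
    (-404, .PP [0] [2, 2, 0, 1]),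
    (-388, .PP [2] [0, 2, 0, 1]),
    (-788, .PP [0, 0] [1, 2, 2]),
    (124, .PP [0, 2] [0, 0, 1]),
    (8, .Nt 2 [0, 1] 0 [(0, 0), (0, 2)]),
    (-124, .PP [2] [0, 1, 0, 1]),
    (-388, .PP [2] [2, 0, 0, 1]),
    (268, .PP [0] [0, 2, 1, 2]),
    (-268, .PP [0] [2, 1, 2, 0]),
    (-4, .Mrg 0 2 [0, 0, 0, 0, 1]),
    (-372, .PP [1, 2] [0, 0, 0]),
    (4, .Nt 2 [0, 1] 0 [(1, 1), (1, 1)]),
    (368, .Mrg 0 1 [0, 0, 0, 0, 2]),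
    (-368, .PP [0, 2] [1, 1, 1]),
    (-368, .PP [1, 1] [0, 0, 2]),
    (-368, .PP [1, 1] [0, 2, 1]),
    (-236, .PP [0] [0, 2, 1, 1]),
    (236, .PP [0] [2, 1, 1, 0]),
    (2, .Nt 1 [0, 2] 0 [(2, 0), (2, 0), (2, 1)]),
    (-408, .PP [0] [1, 2, 2, 2]),
    (716, .Mrg 0 1 [0, 0, 2, 2, 2]),
    (132, .Nt 0 [1, 2] 0 [(1, 0), (1, 1), (2, 0)]),
    (132, .PP [2] [0, 1, 1, 2]),
    (-660, .PP [1] [0, 2, 0, 2]),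
    (660, .PP [0] [0, 1, 2, 2]),
    (-660, .PP [2] [0, 0, 2, 1]),
    (-132, .PP [2] [1, 2, 0, 1]),
    (132, .PP [1] [2, 2, 0, 1]),
    (132, .Mrg 0 1 [0, 0, 2, 0, 2]),
    (-132, .PP [1, 2] [0, 0, 2]),
    (-132, .Mrg 0 2 [0, 0, 1, 0, 1]),
    (-132, .PP [1, 2] [0, 0, 1]),
    (-132, .Nt 2 [0, 1] 0 [(1, 0), (1, 2)]),
    (-132, .Nt 0 [1, 2] 0 [(1, 0), (1, 2)]),
    (132, .PP [0, 1] [1, 2, 2]),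
    (-132, .Mrg 0 2 [0, 1, 0, 1, 1]),
    (132, .Nt 0 [1, 2] 0 [(2, 0), (2, 2)]),
    (-132, .PP [0, 2] [1, 1, 2]),
    (132, .Nt 1 [0, 2] 0 [(2, 0), (2, 2)]),
    (-396, .PP [1] [0, 2, 2, 2]),
    (-264, .PP [2] [1, 1, 0, 2]),
    (264, .PP [2] [0, 1, 2, 1]),
    (396, .PP [1] [1, 0, 2, 2]),
    (132, .PP [1] [1, 2, 0, 2]),
    (-528, .PP [1] [0, 2, 1, 2]),
    (-528, .PP [1] [0, 2, 2, 1]),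
    (-132, .PP [1] [2, 0, 1, 2]),
    (132, .PP [1] [2, 1, 0, 2]),
    (-132, .PP [1] [2, 0, 2, 1]),
    (132, .Mrg 0 1 [0, 2, 0, 2, 2]),
    (-264, .PP [1] [0, 1, 2, 2]),
    (132, .Nt 2 [0, 1] 0 [(0, 0), (1, 2)])])

theorem c5e39_ok : checkCert5 Fin.val c5e39.1 c5e39.2.1 c5e39.2.2 = true := by
  decide +kernel

/-- A certificate. -/
def c5e40 : ℤ × List (Fin 6) × List (ℤ × Code5 (Fin 6)) :=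
  (2, [0, 1, 2, 1, 1], [
    (2, .PP [0, 1] [1, 1, 2]),
    (502, .PP [2] [0, 1, 1, 1]),
    (-168, .PP [0] [2, 1, 1, 1]),
    (-154, .PP [2] [1, 1, 0, 1]),
    (114, .PP [1] [1, 0, 1, 2]),
    (-282, .PP [1] [0, 1, 2, 1]),
    (-76, .PP [1, 1] [0, 1, 2]),
    (76, .PP [1] [1, 2, 0, 1]),
    (-90, .PP [1] [1, 0, 2, 1]),
    (-152, .PP [1] [2, 0, 1, 1]),
    (-318, .PP [1] [0, 2, 1, 1]),
    (78, .PP [1] [2, 1, 0, 1]),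
    (136, .Mrg 0 2 [0, 0, 1, 1, 1]),
    (-80, .PP [1] [0, 1, 1, 2]),
    (40, .PP [2, 2] [0, 1, 1]),
    (10, .Nt 2 [0, 1] 0 [(1, 0), (1, 0), (1, 1)]),
    (-100, .PP [2] [2, 0, 1, 1]),
    (-40, .Nt 0 [1, 2] 0 [(1, 3)]),
    (4, .PP [0, 1] [2, 2, 2]),
    (-340, .PP [2] [0, 2, 1, 1]),
    (-2, .PP [2, 2] [0, 1, 2]),
    (-2, .PP [2] [2, 2, 0, 1]),
    (-2, .PP [2] [2, 0, 2, 1]),
    (-2, .PP [2] [0, 2, 2, 1]),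
    (-2, .Nt 1 [0, 2] 0 [(0, 1), (2, 1)]),
    (-800, .PP [1] [0, 0, 0, 2]),
    (888, .PP [2] [0, 0, 0, 1]),
    (540, .PP [0] [0, 1, 0, 2]),
    (-18, .PP [0] [2, 0, 0, 1]),
    (-298, .PP [2] [0, 1, 0, 0]),
    (-596, .PP [0] [0, 2, 0, 1]),
    (428, .PP [0] [2, 0, 1, 0]),
    (-354, .PP [2, 2] [0, 0, 1]),
    (76, .PP [1] [0, 0, 2, 2]),
    (-184, .PP [0] [2, 0, 2, 1]),
    (-302, .PP [0] [1, 2, 0, 2]),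
    (-122, .PP [0] [2, 1, 0, 2]),
    (178, .PP [2] [0, 0, 1, 2]),
    (-1002, .PP [1] [2, 0, 0, 0]),
    (244, .PP [1] [2, 0, 0, 2]),
    (-184, .PP [0] [0, 2, 2, 1]),
    (-58, .PP [0] [1, 2, 2, 0]),
    (184, .PP [0] [2, 2, 1, 0]),
    (-368, .PP [1] [2, 2, 0, 0]),
    (124, .PP [2] [1, 2, 0, 0]),
    (-198, .PP [0] [1, 0, 2, 2]),
    (54, .Mrg 1 2 [0, 0, 1, 0, 1]),
    (56, .Nt 1 [0, 2] 0 [(0, 0), (0, 2)]),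
    (184, .PP [0] [2, 2, 0, 1]),
    (-56, .PP [0, 1] [0, 0, 2]),
    (176, .PP [2] [0, 2, 0, 1]),
    (358, .PP [0, 0] [1, 2, 2]),
    (280, .PP [0] [1, 0, 0, 2]),
    (338, .PP [0] [1, 2, 0, 0]),
    (338, .PP [0] [2, 1, 0, 0]),
    (42, .Nt 2 [0, 1] 0 [(0, 0), (0, 1), (1, 0)]),
    (-56, .PP [0, 2] [0, 0, 1]),
    (-4, .Nt 2 [0, 1] 0 [(0, 0), (0, 2)]),
    (50, .Nt 2 [0, 1] 0 [(0, 0), (0, 0), (0, 1)]),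
    (56, .Mrg 1 2 [0, 1, 0, 1, 1]),
    (40, .PP [0] [2, 0, 1, 1]),
    (56, .PP [2] [0, 1, 0, 1]),
    (-56, .PP [0, 1] [0, 2, 1]),
    (-56, .PP [0, 1] [0, 1, 2]),
    (-56, .PP [0, 2] [0, 2, 1]),
    (-56, .PP [0, 2] [0, 1, 2]),
    (-326, .PP [0, 0] [1, 1, 2]),
    (-140, .PP [1] [0, 0, 1, 2]),
    (140, .PP [0] [0, 1, 1, 2]),
    (140, .PP [0] [1, 0, 1, 2]),
    (100, .PP [0] [2, 1, 0, 1]),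
    (206, .PP [2] [1, 1, 0, 0]),
    (-266, .PP [1] [2, 0, 0, 1]),
    (-126, .PP [1] [1, 2, 0, 0]),
    (126, .PP [1] [1, 0, 0, 2]),
    (-432, .PP [1] [0, 0, 2, 1]),
    (-66, .PP [0] [1, 1, 0, 2]),
    (186, .PP [0] [1, 1, 2, 0]),
    (126, .PP [1] [0, 1, 0, 2]),
    (-266, .PP [1] [0, 2, 0, 1]),
    (40, .PP [0] [0, 1, 2, 1]),
    (40, .PP [0] [1, 0, 2, 1]),
    (-40, .PP [0] [1, 2, 1, 0]),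
    (176, .PP [2] [2, 0, 0, 1]),
    (-122, .PP [0] [2, 0, 1, 2]),
    (-122, .PP [0] [0, 2, 1, 2]),
    (122, .PP [0] [2, 1, 2, 0]),
    (-42, .Nt 2 [0, 1] 0 [(0, 1), (0, 1)]),
    (-58, .Nt 1 [0, 2] 0 [(0, 0), (0, 1), (2, 0)]),
    (-202, .PP [0] [1, 0, 2, 0]),
    (2, .Mrg 0 2 [0, 0, 0, 0, 1]),
    (168, .PP [1, 2] [0, 0, 0]),
    (248, .PP [0] [0, 0, 1, 2]),
    (-336, .PP [0] [0, 0, 2, 1]),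
    (-208, .PP [0, 0] [0, 1, 2]),
    (-208, .PP [0] [0, 2, 1, 0]),
    (376, .PP [0, 0] [0, 2, 1]),
    (126, .Mrg 1 2 [0, 0, 0, 1, 1]),
    (-2, .Nt 2 [0, 1] 0 [(1, 1), (1, 1)]),
    (162, .PP [2] [0, 0, 1, 1]),
    (280, .Mrg 0 2 [0, 0, 0, 1, 1]),
    (14, .Nt 2 [0, 1] 0 [(0, 1), (1, 1)]),
    (-166, .Mrg 0 1 [0, 0, 0, 0, 2]),
    (166, .PP [0, 2] [1, 1, 1]),
    (166, .PP [1, 1] [0, 0, 2]),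
    (166, .PP [0] [1, 2, 0, 1]),
    (166, .PP [1, 1] [0, 2, 1]),
    (106, .PP [0] [0, 2, 1, 1]),
    (-106, .PP [0] [2, 1, 1, 0]),
    (268, .Mrg 1 2 [0, 0, 1, 1, 1]),
    (-36, .Nt 1 [0, 2] 0 [(0, 3)]),
    (4, .Nt 2 [0, 1] 0 [(0, 3)]),
    (-1, .Nt 1 [0, 2] 0 [(2, 0), (2, 0), (2, 1)]),
    (186, .PP [0] [1, 2, 2, 2]),
    (-324, .Mrg 0 1 [0, 0, 2, 2, 2]),
    (-60, .Nt 0 [1, 2] 0 [(1, 0), (1, 1), (2, 0)]),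
    (-60, .PP [2] [0, 1, 1, 2]),
    (300, .PP [1] [0, 2, 0, 2]),
    (-300, .PP [0] [0, 1, 2, 2]),
    (300, .PP [2] [0, 0, 2, 1]),
    (60, .PP [2] [1, 2, 0, 1]),
    (-60, .PP [1] [2, 2, 0, 1]),
    (-60, .Mrg 0 1 [0, 0, 2, 0, 2]),
    (60, .PP [1, 2] [0, 0, 2]),
    (60, .Mrg 0 2 [0, 0, 1, 0, 1]),
    (60, .PP [1, 2] [0, 0, 1]),
    (60, .Nt 2 [0, 1] 0 [(1, 0), (1, 2)]),
    (60, .Nt 0 [1, 2] 0 [(1, 0), (1, 2)]),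
    (-60, .PP [0, 1] [1, 2, 2]),
    (60, .Mrg 0 2 [0, 1, 0, 1, 1]),
    (-60, .Nt 0 [1, 2] 0 [(2, 0), (2, 2)]),
    (60, .PP [0, 2] [1, 1, 2]),
    (-60, .Nt 1 [0, 2] 0 [(2, 0), (2, 2)]),
    (180, .PP [1] [0, 2, 2, 2]),
    (120, .PP [2] [1, 1, 0, 2]),
    (-120, .PP [2] [0, 1, 2, 1]),
    (-180, .PP [1] [1, 0, 2, 2]),
    (-60, .PP [1] [1, 2, 0, 2]),
    (240, .PP [1] [0, 2, 1, 2]),
    (240, .PP [1] [0, 2, 2, 1]),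
    (60, .PP [1] [2, 0, 1, 2]),
    (-60, .PP [1] [2, 1, 0, 2]),
    (60, .PP [1] [2, 0, 2, 1]),
    (-60, .Mrg 0 1 [0, 2, 0, 2, 2]),
    (120, .PP [1] [0, 1, 2, 2]),
    (-60, .Nt 2 [0, 1] 0 [(0, 0), (1, 2)])])

theorem c5e40_ok : checkCert5 Fin.val c5e40.1 c5e40.2.1 c5e40.2.2 = true := by
  decide +kernel

/-- A certificate. -/
def c5e41 : ℤ × List (Fin 6) × List (ℤ × Code5 (Fin 6)) :=
  (1, [0, 1, 2, 1, 2], [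
    (-67, .PP [2] [0, 1, 1, 2]),
    (-69, .PP [0, 1] [1, 2, 2]),
    (273, .PP [1] [0, 2, 1, 2]),
    (273, .PP [1] [0, 2, 2, 1]),
    (-111, .PP [2] [2, 0, 1, 1]),
    (-385, .PP [2] [0, 2, 1, 1]),
    (69, .PP [2] [1, 2, 0, 1]),
    (1, .Ar [0, 1, 2] 0 [(0, 0), (0, 1), (1, 0)]),
    (265, .PP [0] [0, 0, 1, 2]),
    (-385, .PP [0] [0, 0, 2, 1]),
    (581, .PP [0] [0, 1, 0, 2]),
    (296, .PP [0] [1, 0, 0, 2]),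
    (-324, .PP [2] [0, 1, 0, 0]),
    (964, .PP [2] [0, 0, 0, 1]),
    (-648, .PP [0] [0, 2, 0, 1]),
    (456, .PP [0] [2, 0, 1, 0]),
    (-80, .PP [0] [1, 1, 0, 2]),
    (-229, .PP [0, 0] [0, 1, 2]),
    (-229, .PP [0] [0, 2, 1, 0]),
    (-27, .PP [0] [2, 0, 0, 1]),
    (41, .PP [0] [1, 0, 2, 1]),
    (1, .PP [0, 2] [0, 1, 1]),
    (41, .PP [0] [2, 0, 1, 1]),
    (-1074, .PP [1] [2, 0, 0, 0]),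
    (-229, .PP [0] [1, 0, 2, 2]),
    (-139, .PP [0] [2, 0, 1, 2]),
    (421, .PP [0, 0] [0, 2, 1]),
    (151, .Mrg 1 2 [0, 0, 0, 1, 1]),
    (63, .Mrg 1 2 [0, 0, 1, 0, 1]),
    (63, .Nt 1 [0, 2] 0 [(0, 0), (0, 2)]),
    (-63, .PP [0, 1] [0, 0, 2]),
    (-209, .PP [0] [2, 0, 2, 1]),
    (-221, .PP [0] [1, 0, 2, 0]),
    (298, .Mrg 1 2 [0, 0, 1, 1, 1]),
    (361, .PP [0] [1, 2, 0, 0]),
    (361, .PP [0] [2, 1, 0, 0]),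
    (-846, .PP [1] [0, 0, 0, 2]),
    (-139, .PP [0] [2, 1, 0, 2]),
    (-370, .PP [0, 0] [1, 1, 2]),
    (184, .PP [2] [0, 0, 1, 1]),
    (-153, .PP [1] [0, 0, 1, 2]),
    (153, .PP [0] [0, 1, 1, 2]),
    (111, .PP [0] [2, 1, 0, 1]),
    (232, .PP [2] [1, 1, 0, 0]),
    (-301, .PP [1] [2, 0, 0, 1]),
    (-148, .PP [1] [1, 2, 0, 0]),
    (148, .PP [1] [1, 0, 0, 2]),
    (-491, .PP [1] [0, 0, 2, 1]),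
    (217, .PP [0] [1, 1, 2, 0]),
    (148, .PP [1] [0, 1, 0, 2]),
    (-301, .PP [1] [0, 2, 0, 1]),
    (69, .Mrg 0 2 [0, 0, 1, 0, 1]),
    (121, .PP [0] [0, 2, 1, 1]),
    (-121, .PP [0] [2, 1, 1, 0]),
    (69, .PP [1, 2] [0, 0, 1]),
    (137, .PP [1] [0, 1, 2, 2]),
    (-69, .PP [1] [2, 2, 0, 1]),
    (69, .Nt 2 [0, 1] 0 [(1, 0), (1, 2)]),
    (-181, .PP [0] [2, 1, 1, 1]),
    (67, .Nt 0 [1, 2] 0 [(1, 0), (1, 2)]),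
    (603, .PP [2] [0, 1, 1, 1]),
    (-90, .PP [1] [0, 1, 1, 2]),
    (-329, .PP [1] [0, 1, 2, 1]),
    (141, .PP [1] [1, 0, 1, 2]),
    (-186, .PP [2] [1, 1, 0, 1]),
    (-94, .PP [1, 1] [0, 1, 2]),
    (94, .PP [1] [1, 2, 0, 1]),
    (-96, .PP [1] [1, 0, 2, 1]),
    (-188, .PP [1] [2, 0, 1, 1]),
    (-378, .PP [1] [0, 2, 1, 1]),
    (92, .PP [1] [2, 1, 0, 1]),
    (9, .Nt 2 [0, 1] 0 [(1, 0), (1, 0), (1, 1)]),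
    (69, .Mrg 0 2 [0, 1, 0, 1, 1]),
    (-65, .Nt 1 [0, 2] 0 [(0, 0), (0, 1), (2, 0)]),
    (-343, .PP [0] [1, 2, 0, 2]),
    (63, .Mrg 1 2 [0, 1, 0, 1, 1]),
    (63, .PP [2] [0, 1, 0, 1]),
    (-63, .PP [0, 1] [0, 2, 1]),
    (-63, .PP [0, 1] [0, 1, 2]),
    (-63, .PP [0, 2] [0, 2, 1]),
    (-63, .PP [0, 2] [0, 1, 2]),
    (90, .PP [1] [0, 0, 2, 2]),
    (16, .Nt 2 [0, 1] 0 [(0, 1), (1, 1)]),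
    (318, .Mrg 0 2 [0, 0, 0, 1, 1]),
    (156, .Mrg 0 2 [0, 0, 1, 1, 1]),
    (48, .Nt 2 [0, 1] 0 [(0, 0), (0, 1), (1, 0)]),
    (-48, .Nt 2 [0, 1] 0 [(0, 1), (0, 1)]),
    (42, .PP [2, 2] [0, 1, 1]),
    (56, .Nt 2 [0, 1] 0 [(0, 0), (0, 0), (0, 1)]),
    (-38, .Nt 1 [0, 2] 0 [(0, 3)]),
    (4, .PP [0, 1] [2, 2, 2]),
    (-2, .PP [2] [0, 2, 2, 1]),
    (-2, .PP [2, 2] [0, 1, 2]),
    (6, .Nt 2 [0, 1] 0 [(0, 3)]),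
    (152, .PP [0] [1, 0, 1, 2]),
    (42, .PP [0] [0, 1, 2, 1]),
    (-42, .PP [0] [1, 2, 1, 0]),
    (-42, .Nt 0 [1, 2] 0 [(1, 3)]),
    (-2, .PP [2] [2, 2, 0, 1]),
    (-2, .PP [2] [2, 0, 2, 1]),
    (-2, .Nt 1 [0, 2] 0 [(0, 1), (2, 1)]),
    (-402, .PP [2, 2] [0, 0, 1]),
    (202, .PP [2] [0, 0, 1, 2]),
    (276, .PP [1] [2, 0, 0, 2]),
    (-208, .PP [0] [0, 2, 2, 1]),
    (-66, .PP [0] [1, 2, 2, 0]),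
    (208, .PP [0] [2, 2, 1, 0]),
    (-416, .PP [1] [2, 2, 0, 0]),
    (140, .PP [2] [1, 2, 0, 0]),
    (208, .PP [0] [2, 2, 0, 1]),
    (200, .PP [2] [0, 2, 0, 1]),
    (406, .PP [0, 0] [1, 2, 2]),
    (-64, .PP [0, 2] [0, 0, 1]),
    (-4, .Nt 2 [0, 1] 0 [(0, 0), (0, 2)]),
    (200, .PP [2] [2, 0, 0, 1]),
    (-138, .PP [0] [0, 2, 1, 2]),
    (138, .PP [0] [2, 1, 2, 0]),
    (-2, .PP [0, 1] [1, 1, 2]),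
    (2, .Mrg 0 2 [0, 0, 0, 0, 1]),
    (192, .PP [1, 2] [0, 0, 0]),
    (-2, .Nt 2 [0, 1] 0 [(1, 1), (1, 1)]),
    (-190, .Mrg 0 1 [0, 0, 0, 0, 2]),
    (190, .PP [0, 2] [1, 1, 1]),
    (190, .PP [1, 1] [0, 0, 2]),
    (190, .PP [0] [1, 2, 0, 1]),
    (190, .PP [1, 1] [0, 2, 1]),
    (-1, .Nt 1 [0, 2] 0 [(2, 0), (2, 0), (2, 1)]),
    (210, .PP [0] [1, 2, 2, 2]),
    (-370, .Mrg 0 1 [0, 0, 2, 2, 2]),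
    (-68, .Nt 0 [1, 2] 0 [(1, 0), (1, 1), (2, 0)]),
    (340, .PP [1] [0, 2, 0, 2]),
    (-340, .PP [0] [0, 1, 2, 2]),
    (340, .PP [2] [0, 0, 2, 1]),
    (-68, .Mrg 0 1 [0, 0, 2, 0, 2]),
    (68, .PP [1, 2] [0, 0, 2]),
    (-68, .Nt 0 [1, 2] 0 [(2, 0), (2, 2)]),
    (68, .PP [0, 2] [1, 1, 2]),
    (-68, .Nt 1 [0, 2] 0 [(2, 0), (2, 2)]),
    (204, .PP [1] [0, 2, 2, 2]),
    (136, .PP [2] [1, 1, 0, 2]),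
    (-136, .PP [2] [0, 1, 2, 1]),
    (-204, .PP [1] [1, 0, 2, 2]),
    (-68, .PP [1] [1, 2, 0, 2]),
    (68, .PP [1] [2, 0, 1, 2]),
    (-68, .PP [1] [2, 1, 0, 2]),
    (68, .PP [1] [2, 0, 2, 1]),
    (-68, .Mrg 0 1 [0, 2, 0, 2, 2]),
    (-68, .Nt 2 [0, 1] 0 [(0, 0), (1, 2)])])

theorem c5e41_ok : checkCert5 Fin.val c5e41.1 c5e41.2.1 c5e41.2.2 = true := by
  decide +kernel

/-- A certificate. -/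
def c5e42 : ℤ × List (Fin 6) × List (ℤ × Code5 (Fin 6)) :=
  (1, [0, 1, 2, 1, 4], [
    (-1, .PP [1] [0, 2, 1, 4]),
    (1, .Mrg 0 4 [0, 0, 1, 1, 2]),
    (1, .PP [2] [0, 1, 4, 1]),
    (1, .Mrg 0 2 [0, 1, 0, 1, 4]),
    (-1, .PP [1] [2, 0, 1, 4]),
    (-1, .PP [4] [0, 1, 1, 2]),
    (1, .PP [2] [0, 1, 1, 4]),
    (1, .PP [1, 2] [0, 1, 4]),
    (1, .Mrg 0 2 [0, 0, 1, 1, 4]),
    (-1, .PP [1] [0, 1, 2, 4]),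
    (-1, .PP [1] [0, 1, 4, 2])])

theorem c5e42_ok : checkCert5 Fin.val c5e42.1 c5e42.2.1 c5e42.2.2 = true := by
  decide +kernel

/-- A certificate. -/
def c5e43 : ℤ × List (Fin 6) × List (ℤ × Code5 (Fin 6)) :=
  (2, [0, 1, 2, 2, 0], [
    (-64, .PP [0] [1, 2, 2, 0]),
    (112, .PP [1] [0, 0, 2, 2]),
    (-254, .PP [0] [1, 0, 2, 2]),
    (-150, .PP [0] [2, 0, 1, 2]),
    (-366, .PP [0] [1, 2, 0, 2]),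
    (-150, .PP [0] [2, 1, 0, 2]),
    (300, .PP [1] [2, 0, 0, 2]),
    (368, .PP [1] [0, 2, 0, 2]),
    (-368, .PP [0] [0, 1, 2, 2]),
    (-150, .PP [0] [0, 2, 1, 2]),
    (150, .PP [0] [2, 1, 2, 0]),
    (140, .PP [2] [1, 2, 0, 0]),
    (220, .PP [2] [0, 2, 0, 1]),
    (298, .PP [0] [0, 0, 1, 2]),
    (644, .PP [0] [0, 1, 0, 2]),
    (-18, .PP [0] [2, 0, 0, 1]),
    (506, .PP [0] [2, 0, 1, 0]),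
    (-1194, .PP [1] [2, 0, 0, 0]),
    (1050, .PP [2] [0, 0, 0, 1]),
    (-248, .PP [0, 0] [0, 1, 2]),
    (-248, .PP [0] [0, 2, 1, 0]),
    (-352, .PP [2] [0, 1, 0, 0]),
    (-704, .PP [0] [0, 2, 0, 1]),
    (334, .PP [0] [1, 0, 0, 2]),
    (402, .PP [0] [1, 2, 0, 0]),
    (402, .PP [0] [2, 1, 0, 0]),
    (-954, .PP [1] [0, 0, 0, 2]),
    (-242, .PP [0] [1, 0, 2, 0]),
    (434, .PP [0, 0] [1, 2, 2]),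
    (-438, .PP [2, 2] [0, 0, 1]),
    (-2, .Mrg 0 2 [0, 0, 0, 0, 1]),
    (198, .PP [1, 2] [0, 0, 0]),
    (-396, .PP [0] [0, 0, 2, 1]),
    (220, .PP [2] [2, 0, 0, 1]),
    (-68, .Nt 1 [0, 2] 0 [(0, 0), (0, 1), (2, 0)]),
    (218, .PP [2] [0, 0, 1, 2]),
    (16, .Nt 2 [0, 1] 0 [(0, 1), (1, 1)]),
    (446, .PP [0, 0] [0, 2, 1]),
    (-200, .Mrg 0 1 [0, 0, 0, 0, 2]),
    (200, .PP [2] [0, 0, 1, 1]),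
    (-392, .PP [0, 0] [1, 1, 2]),
    (248, .PP [2] [1, 1, 0, 0]),
    (200, .PP [0, 2] [1, 1, 1]),
    (-192, .PP [0] [2, 1, 1, 1]),
    (200, .PP [1, 1] [0, 0, 2]),
    (-520, .PP [1] [0, 0, 2, 1]),
    (200, .PP [0] [1, 2, 0, 1]),
    (200, .PP [1, 1] [0, 2, 1]),
    (-104, .PP [1] [1, 0, 2, 1]),
    (-344, .PP [1] [0, 1, 2, 1]),
    (-152, .PP [1] [1, 2, 0, 0]),
    (152, .PP [1] [1, 0, 0, 2]),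
    (-80, .PP [0] [1, 1, 0, 2]),
    (224, .PP [0] [1, 1, 2, 0]),
    (152, .PP [1] [0, 1, 0, 2]),
    (-392, .PP [1] [0, 2, 1, 1]),
    (-320, .PP [1] [2, 0, 0, 1]),
    (128, .PP [0] [0, 2, 1, 1]),
    (-128, .PP [0] [2, 1, 1, 0]),
    (-320, .PP [1] [0, 2, 0, 1]),
    (66, .Nt 1 [0, 2] 0 [(0, 0), (0, 2)]),
    (-66, .PP [0, 1] [0, 0, 2]),
    (44, .PP [0] [2, 0, 1, 1]),
    (320, .Mrg 1 2 [0, 0, 1, 1, 1]),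
    (48, .PP [0] [0, 1, 2, 1]),
    (-48, .PP [0] [1, 2, 1, 0]),
    (-168, .PP [1] [0, 0, 1, 2]),
    (168, .PP [0] [0, 1, 1, 2]),
    (168, .PP [0] [1, 0, 1, 2]),
    (48, .PP [0] [1, 0, 2, 1]),
    (336, .Mrg 0 2 [0, 0, 0, 1, 1]),
    (160, .Mrg 0 2 [0, 0, 1, 1, 1]),
    (52, .Nt 2 [0, 1] 0 [(0, 0), (0, 1), (1, 0)]),
    (120, .PP [0] [2, 1, 0, 1]),
    (-52, .Nt 2 [0, 1] 0 [(0, 1), (0, 1)]),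
    (624, .PP [2] [0, 1, 1, 1]),
    (-96, .PP [1] [0, 1, 1, 2]),
    (144, .PP [1] [1, 0, 1, 2]),
    (48, .PP [2, 2] [0, 1, 1]),
    (-192, .PP [2] [1, 1, 0, 1]),
    (-96, .PP [1, 1] [0, 1, 2]),
    (96, .PP [1] [1, 2, 0, 1]),
    (-192, .PP [1] [2, 0, 1, 1]),
    (96, .PP [1] [2, 1, 0, 1]),
    (10, .Nt 2 [0, 1] 0 [(1, 0), (1, 0), (1, 1)]),
    (-120, .PP [2] [2, 0, 1, 1]),
    (60, .Nt 2 [0, 1] 0 [(0, 0), (0, 0), (0, 1)]),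
    (158, .Mrg 1 2 [0, 0, 0, 1, 1]),
    (-40, .Nt 1 [0, 2] 0 [(0, 3)]),
    (-4, .PP [0, 1] [2, 2, 2]),
    (2, .PP [2] [0, 2, 2, 1]),
    (2, .PP [2, 2] [0, 1, 2]),
    (8, .Nt 2 [0, 1] 0 [(0, 3)]),
    (-48, .Nt 0 [1, 2] 0 [(1, 3)]),
    (-408, .PP [2] [0, 2, 1, 1]),
    (2, .PP [2] [2, 2, 0, 1]),
    (2, .PP [2] [2, 0, 2, 1]),
    (-2, .Nt 1 [0, 2] 0 [(0, 1), (2, 1)]),
    (-220, .PP [0] [2, 0, 2, 1]),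
    (-220, .PP [0] [0, 2, 2, 1]),
    (220, .PP [0] [2, 2, 1, 0]),
    (-440, .PP [1] [2, 2, 0, 0]),
    (66, .Mrg 1 2 [0, 0, 1, 0, 1]),
    (220, .PP [0] [2, 2, 0, 1]),
    (-68, .PP [0, 2] [0, 0, 1]),
    (-4, .Nt 2 [0, 1] 0 [(0, 0), (0, 2)]),
    (68, .Mrg 1 2 [0, 1, 0, 1, 1]),
    (68, .PP [2] [0, 1, 0, 1]),
    (-68, .PP [0, 1] [0, 2, 1]),
    (-68, .PP [0, 1] [0, 1, 2]),
    (-68, .PP [0, 2] [0, 2, 1]),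
    (-68, .PP [0, 2] [0, 1, 2]),
    (-2, .Nt 2 [0, 1] 0 [(1, 1), (1, 1)]),
    (-1, .Nt 1 [0, 2] 0 [(2, 0), (2, 0), (2, 1)]),
    (222, .PP [0] [1, 2, 2, 2]),
    (-392, .Mrg 0 1 [0, 0, 2, 2, 2]),
    (-72, .Nt 0 [1, 2] 0 [(1, 0), (1, 1), (2, 0)]),
    (-72, .PP [2] [0, 1, 1, 2]),
    (360, .PP [2] [0, 0, 2, 1]),
    (72, .PP [2] [1, 2, 0, 1]),
    (-72, .PP [1] [2, 2, 0, 1]),
    (-72, .Mrg 0 1 [0, 0, 2, 0, 2]),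
    (72, .PP [1, 2] [0, 0, 2]),
    (72, .Mrg 0 2 [0, 0, 1, 0, 1]),
    (72, .PP [1, 2] [0, 0, 1]),
    (72, .Nt 2 [0, 1] 0 [(1, 0), (1, 2)]),
    (72, .Nt 0 [1, 2] 0 [(1, 0), (1, 2)]),
    (-72, .PP [0, 1] [1, 2, 2]),
    (72, .Mrg 0 2 [0, 1, 0, 1, 1]),
    (-72, .Nt 0 [1, 2] 0 [(2, 0), (2, 2)]),
    (72, .PP [0, 2] [1, 1, 2]),
    (-72, .Nt 1 [0, 2] 0 [(2, 0), (2, 2)]),
    (216, .PP [1] [0, 2, 2, 2]),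
    (144, .PP [2] [1, 1, 0, 2]),
    (-144, .PP [2] [0, 1, 2, 1]),
    (-216, .PP [1] [1, 0, 2, 2]),
    (-72, .PP [1] [1, 2, 0, 2]),
    (288, .PP [1] [0, 2, 1, 2]),
    (288, .PP [1] [0, 2, 2, 1]),
    (72, .PP [1] [2, 0, 1, 2]),
    (-72, .PP [1] [2, 1, 0, 2]),
    (72, .PP [1] [2, 0, 2, 1]),
    (-72, .Mrg 0 1 [0, 2, 0, 2, 2]),
    (144, .PP [1] [0, 1, 2, 2]),
    (-72, .Nt 2 [0, 1] 0 [(0, 0), (1, 2)])])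

theorem c5e43_ok : checkCert5 Fin.val c5e43.1 c5e43.2.1 c5e43.2.2 = true := by
  decide +kernel

/-- A certificate. -/
def c5e44 : ℤ × List (Fin 6) × List (ℤ × Code5 (Fin 6)) :=
  (2, [0, 1, 2, 2, 1], [
    (70, .PP [2] [0, 1, 1, 2]),
    (406, .PP [2] [0, 2, 1, 1]),
    (114, .PP [2] [2, 0, 1, 1]),
    (-2, .Ar [0, 1, 2] 0 [(0, 0), (0, 1), (1, 0)]),
    (-278, .PP [0] [0, 0, 1, 2]),
    (410, .PP [0] [0, 0, 2, 1]),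
    (-618, .PP [0] [0, 1, 0, 2]),
    (-316, .PP [0] [1, 0, 0, 2]),
    (346, .PP [2] [0, 1, 0, 0]),
    (-1032, .PP [2] [0, 0, 0, 1]),
    (692, .PP [0] [0, 2, 0, 1]),
    (-488, .PP [0] [2, 0, 1, 0]),
    (90, .PP [0] [1, 1, 0, 2]),
    (242, .PP [0, 0] [0, 1, 2]),
    (242, .PP [0] [0, 2, 1, 0]),
    (28, .PP [0] [2, 0, 0, 1]),
    (-38, .PP [0] [1, 0, 2, 1]),
    (-2, .PP [0, 2] [0, 1, 1]),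
    (-42, .PP [0] [2, 0, 1, 1]),
    (1146, .PP [1] [2, 0, 0, 0]),
    (244, .PP [0] [1, 0, 2, 2]),
    (148, .PP [0] [2, 0, 1, 2]),
    (-446, .PP [0, 0] [0, 2, 1]),
    (-160, .Mrg 1 2 [0, 0, 0, 1, 1]),
    (-68, .Mrg 1 2 [0, 0, 1, 0, 1]),
    (-66, .Nt 1 [0, 2] 0 [(0, 0), (0, 2)]),
    (66, .PP [0, 1] [0, 0, 2]),
    (222, .PP [0] [2, 0, 2, 1]),
    (236, .PP [0] [1, 0, 2, 0]),
    (-312, .Mrg 1 2 [0, 0, 1, 1, 1]),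
    (-384, .PP [0] [1, 2, 0, 0]),
    (-384, .PP [0] [2, 1, 0, 0]),
    (904, .PP [1] [0, 0, 0, 2]),
    (148, .PP [0] [2, 1, 0, 2]),
    (390, .PP [0, 0] [1, 1, 2]),
    (-190, .PP [2] [0, 0, 1, 1]),
    (154, .PP [1] [0, 0, 1, 2]),
    (-154, .PP [0] [0, 1, 1, 2]),
    (-114, .PP [0] [2, 1, 0, 1]),
    (-242, .PP [2] [1, 1, 0, 0]),
    (316, .PP [1] [2, 0, 0, 1]),
    (162, .PP [1] [1, 2, 0, 0]),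
    (-162, .PP [1] [1, 0, 0, 2]),
    (518, .PP [1] [0, 0, 2, 1]),
    (-236, .PP [0] [1, 1, 2, 0]),
    (-162, .PP [1] [0, 1, 0, 2]),
    (316, .PP [1] [0, 2, 0, 1]),
    (-74, .Mrg 0 2 [0, 0, 1, 0, 1]),
    (-128, .PP [0] [0, 2, 1, 1]),
    (128, .PP [0] [2, 1, 1, 0]),
    (-74, .PP [1, 2] [0, 0, 1]),
    (-74, .Nt 2 [0, 1] 0 [(1, 0), (1, 2)]),
    (198, .PP [0] [2, 1, 1, 1]),
    (-590, .PP [2] [0, 1, 1, 1]),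
    (88, .PP [1] [0, 1, 1, 2]),
    (338, .PP [1] [0, 1, 2, 1]),
    (-138, .PP [1] [1, 0, 1, 2]),
    (182, .PP [2] [1, 1, 0, 1]),
    (92, .PP [1, 1] [0, 1, 2]),
    (-92, .PP [1] [1, 2, 0, 1]),
    (110, .PP [1] [1, 0, 2, 1]),
    (184, .PP [1] [2, 0, 1, 1]),
    (386, .PP [1] [0, 2, 1, 1]),
    (-90, .PP [1] [2, 1, 0, 1]),
    (-10, .Nt 2 [0, 1] 0 [(1, 0), (1, 0), (1, 1)]),
    (-74, .Mrg 0 2 [0, 1, 0, 1, 1]),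
    (68, .Nt 1 [0, 2] 0 [(0, 0), (0, 1), (2, 0)]),
    (364, .PP [0] [1, 2, 0, 2]),
    (-66, .Mrg 1 2 [0, 1, 0, 1, 1]),
    (-66, .PP [2] [0, 1, 0, 1]),
    (66, .PP [0, 1] [0, 2, 1]),
    (66, .PP [0, 1] [0, 1, 2]),
    (66, .PP [0, 2] [0, 2, 1]),
    (66, .PP [0, 2] [0, 1, 2]),
    (-146, .PP [1] [0, 1, 2, 2]),
    (-290, .PP [1] [0, 2, 1, 2]),
    (-290, .PP [1] [0, 2, 2, 1]),
    (-96, .PP [1] [0, 0, 2, 2]),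
    (-18, .Nt 2 [0, 1] 0 [(0, 1), (1, 1)]),
    (-336, .Mrg 0 2 [0, 0, 0, 1, 1]),
    (-174, .Mrg 0 2 [0, 0, 1, 1, 1]),
    (-50, .Nt 2 [0, 1] 0 [(0, 0), (0, 1), (1, 0)]),
    (50, .Nt 2 [0, 1] 0 [(0, 1), (0, 1)]),
    (74, .PP [0, 1] [1, 2, 2]),
    (-40, .PP [2, 2] [0, 1, 1]),
    (74, .PP [1] [2, 2, 0, 1]),
    (-74, .PP [2] [1, 2, 0, 1]),
    (-58, .Nt 2 [0, 1] 0 [(0, 0), (0, 0), (0, 1)]),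
    (40, .Nt 1 [0, 2] 0 [(0, 3)]),
    (-4, .PP [0, 1] [2, 2, 2]),
    (2, .PP [2] [0, 2, 2, 1]),
    (2, .PP [2, 2] [0, 1, 2]),
    (-4, .Nt 2 [0, 1] 0 [(0, 3)]),
    (-152, .PP [0] [1, 0, 1, 2]),
    (-40, .PP [0] [0, 1, 2, 1]),
    (40, .PP [0] [1, 2, 1, 0]),
    (44, .Nt 0 [1, 2] 0 [(1, 3)]),
    (2, .PP [2] [2, 2, 0, 1]),
    (2, .PP [2] [2, 0, 2, 1]),
    (2, .Nt 1 [0, 2] 0 [(0, 1), (2, 1)]),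
    (426, .PP [2, 2] [0, 0, 1]),
    (-214, .PP [2] [0, 0, 1, 2]),
    (-292, .PP [1] [2, 0, 0, 2]),
    (220, .PP [0] [0, 2, 2, 1]),
    (70, .PP [0] [1, 2, 2, 0]),
    (-220, .PP [0] [2, 2, 1, 0]),
    (440, .PP [1] [2, 2, 0, 0]),
    (-148, .PP [2] [1, 2, 0, 0]),
    (-220, .PP [0] [2, 2, 0, 1]),
    (-212, .PP [2] [0, 2, 0, 1]),
    (-430, .PP [0, 0] [1, 2, 2]),
    (68, .PP [0, 2] [0, 0, 1]),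
    (4, .Nt 2 [0, 1] 0 [(0, 0), (0, 2)]),
    (-212, .PP [2] [2, 0, 0, 1]),
    (146, .PP [0] [0, 2, 1, 2]),
    (-146, .PP [0] [2, 1, 2, 0]),
    (2, .PP [0, 1] [1, 1, 2]),
    (-2, .Mrg 0 2 [0, 0, 0, 0, 1]),
    (-204, .PP [1, 2] [0, 0, 0]),
    (2, .Nt 2 [0, 1] 0 [(1, 1), (1, 1)]),
    (202, .Mrg 0 1 [0, 0, 0, 0, 2]),
    (-202, .PP [0, 2] [1, 1, 1]),
    (-202, .PP [1, 1] [0, 0, 2]),
    (-202, .PP [0] [1, 2, 0, 1]),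
    (-202, .PP [1, 1] [0, 2, 1]),
    (1, .Nt 1 [0, 2] 0 [(2, 0), (2, 0), (2, 1)]),
    (-222, .PP [0] [1, 2, 2, 2]),
    (392, .Mrg 0 1 [0, 0, 2, 2, 2]),
    (72, .Nt 0 [1, 2] 0 [(1, 0), (1, 1), (2, 0)]),
    (-360, .PP [1] [0, 2, 0, 2]),
    (360, .PP [0] [0, 1, 2, 2]),
    (-360, .PP [2] [0, 0, 2, 1]),
    (72, .Mrg 0 1 [0, 0, 2, 0, 2]),
    (-72, .PP [1, 2] [0, 0, 2]),
    (-72, .Nt 0 [1, 2] 0 [(1, 0), (1, 2)]),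
    (72, .Nt 0 [1, 2] 0 [(2, 0), (2, 2)]),
    (-72, .PP [0, 2] [1, 1, 2]),
    (72, .Nt 1 [0, 2] 0 [(2, 0), (2, 2)]),
    (-216, .PP [1] [0, 2, 2, 2]),
    (-144, .PP [2] [1, 1, 0, 2]),
    (144, .PP [2] [0, 1, 2, 1]),
    (216, .PP [1] [1, 0, 2, 2]),
    (72, .PP [1] [1, 2, 0, 2]),
    (-72, .PP [1] [2, 0, 1, 2]),
    (72, .PP [1] [2, 1, 0, 2]),
    (-72, .PP [1] [2, 0, 2, 1]),
    (72, .Mrg 0 1 [0, 2, 0, 2, 2]),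
    (72, .Nt 2 [0, 1] 0 [(0, 0), (1, 2)])])

theorem c5e44_ok : checkCert5 Fin.val c5e44.1 c5e44.2.1 c5e44.2.2 = true := by
  decide +kernel

/-- A certificate. -/
def c5e45 : ℤ × List (Fin 6) × List (ℤ × Code5 (Fin 6)) :=
  (1, [0, 1, 2, 2, 2], [
    (1, .Nt 0 [1, 2] 0 [(1, 0), (1, 1), (2, 0)]),
    (-13, .PP [2] [0, 1, 1, 1]),
    (6, .PP [1] [0, 1, 2, 1]),
    (1, .PP [2] [0, 1, 1, 2]),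
    (-3, .PP [1] [1, 0, 1, 2]),
    (-1, .PP [2, 2] [0, 1, 1]),
    (4, .PP [2] [1, 1, 0, 1]),
    (2, .PP [1] [0, 1, 1, 2]),
    (2, .PP [1, 1] [0, 1, 2]),
    (-2, .PP [1] [1, 2, 0, 1]),
    (1, .PP [1] [1, 0, 2, 1]),
    (4, .PP [1] [2, 0, 1, 1]),
    (7, .PP [1] [0, 2, 1, 1]),
    (-2, .PP [1] [2, 1, 0, 1]),
    (-4, .Mrg 1 2 [0, 0, 1, 1, 1]),
    (-4, .Mrg 1 2 [0, 0, 0, 1, 1]),
    (-2, .PP [2] [0, 0, 0, 1]),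
    (-5, .PP [0, 0] [0, 2, 1]),
    (2, .PP [0, 0] [0, 1, 2]),
    (-1, .PP [0] [0, 0, 1, 2]),
    (2, .PP [0] [0, 2, 1, 0]),
    (1, .PP [0] [1, 0, 0, 2]),
    (1, .PP [0] [1, 0, 2, 0]),
    (1, .PP [2] [0, 1, 0, 0]),
    (-1, .PP [0] [0, 1, 0, 2]),
    (-3, .PP [1] [0, 0, 0, 2]),
    (2, .PP [0] [0, 2, 0, 1]),
    (1, .PP [0] [2, 0, 1, 0]),
    (3, .Mrg 0 1 [0, 0, 0, 0, 2]),
    (6, .PP [0, 0] [1, 1, 2]),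
    (-4, .PP [2] [1, 1, 0, 0]),
    (-3, .PP [0, 2] [1, 1, 1]),
    (-3, .PP [1, 1] [0, 0, 2]),
    (8, .PP [1] [0, 0, 2, 1]),
    (-3, .PP [0] [1, 2, 0, 1]),
    (-3, .PP [1, 1] [0, 2, 1]),
    (5, .PP [1] [2, 0, 0, 1]),
    (-2, .PP [0] [0, 2, 1, 1]),
    (2, .PP [0] [2, 1, 1, 0]),
    (5, .PP [1] [0, 2, 0, 1]),
    (-2, .PP [2] [1, 2, 0, 0]),
    (-4, .PP [1] [2, 0, 0, 2]),
    (-5, .PP [1] [0, 2, 0, 2]),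
    (5, .PP [0] [0, 1, 2, 2]),
    (-2, .PP [1] [0, 0, 2, 2]),
    (4, .PP [0] [1, 0, 2, 2]),
    (1, .PP [0] [1, 2, 2, 0]),
    (2, .PP [0] [2, 1, 0, 2]),
    (-5, .PP [2] [0, 0, 2, 1]),
    (6, .PP [2] [0, 2, 1, 1]),
    (5, .PP [0] [1, 2, 0, 2]),
    (2, .PP [0] [2, 0, 0, 1]),
    (-5, .Mrg 0 2 [0, 0, 0, 1, 1]),
    (-4, .PP [2] [0, 0, 1, 1]),
    (3, .PP [1] [0, 0, 1, 2]),
    (-3, .PP [0] [0, 1, 1, 2]),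
    (-3, .PP [0] [1, 0, 1, 2]),
    (-1, .PP [0] [0, 1, 2, 1]),
    (-1, .PP [0] [1, 0, 2, 1]),
    (1, .PP [0] [1, 2, 1, 0]),
    (2, .PP [0] [2, 0, 1, 2]),
    (2, .PP [0] [0, 2, 1, 2]),
    (-2, .PP [0] [2, 1, 2, 0]),
    (-1, .Mrg 0 2 [0, 0, 1, 1, 1]),
    (-1, .PP [2] [1, 2, 0, 1]),
    (1, .PP [1] [2, 2, 0, 1]),
    (2, .PP [2] [2, 0, 1, 1]),
    (1, .Nt 1 [0, 2] 0 [(0, 0), (0, 1), (2, 0)]),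
    (3, .PP [0] [2, 0, 2, 1]),
    (3, .PP [0] [0, 2, 2, 1]),
    (-3, .PP [0] [2, 2, 1, 0]),
    (-3, .PP [1, 2] [0, 0, 0]),
    (6, .PP [0] [0, 0, 2, 1]),
    (-1, .Nt 2 [0, 1] 0 [(0, 0), (0, 1), (1, 0)]),
    (-1, .Nt 1 [0, 2] 0 [(0, 0), (0, 2)]),
    (1, .PP [0, 1] [0, 0, 2]),
    (-1, .Mrg 1 2 [0, 0, 1, 0, 1]),
    (1, .PP [0, 2] [0, 0, 1]),
    (-1, .Nt 2 [0, 1] 0 [(0, 0), (0, 0), (0, 1)]),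
    (-1, .Mrg 1 2 [0, 1, 0, 1, 1]),
    (-1, .PP [2] [0, 1, 0, 1]),
    (1, .PP [0, 1] [0, 2, 1]),
    (1, .PP [0, 1] [0, 1, 2]),
    (1, .Mrg 0 1 [0, 0, 2, 0, 2]),
    (-1, .PP [1, 2] [0, 0, 2]),
    (1, .PP [0, 2] [0, 2, 1]),
    (1, .PP [0, 2] [0, 1, 2]),
    (2, .PP [1] [1, 2, 0, 0]),
    (-2, .PP [1] [1, 0, 0, 2]),
    (1, .PP [0] [1, 1, 0, 2]),
    (-3, .PP [0] [1, 1, 2, 0]),
    (-2, .PP [1] [0, 1, 0, 2]),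
    (-1, .Mrg 0 2 [0, 0, 1, 0, 1]),
    (-1, .PP [1, 2] [0, 0, 1]),
    (1, .Nt 2 [0, 1] 0 [(0, 1), (0, 1)]),
    (-1, .Nt 2 [0, 1] 0 [(1, 0), (1, 2)]),
    (2, .PP [0] [2, 1, 1, 1]),
    (-1, .Nt 0 [1, 2] 0 [(1, 0), (1, 2)]),
    (1, .PP [0, 1] [1, 2, 2]),
    (-1, .Mrg 0 2 [0, 1, 0, 1, 1]),
    (1, .Nt 0 [1, 2] 0 [(2, 0), (2, 2)]),
    (-1, .PP [0, 2] [1, 1, 2]),
    (1, .Nt 1 [0, 2] 0 [(2, 0), (2, 2)]),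
    (-3, .PP [0] [1, 2, 2, 2]),
    (-3, .PP [1] [0, 2, 2, 2]),
    (-6, .PP [0, 0] [1, 2, 2]),
    (-2, .PP [2] [1, 1, 0, 2]),
    (2, .PP [2] [0, 1, 2, 1]),
    (3, .PP [1] [1, 0, 2, 2]),
    (1, .PP [1] [1, 2, 0, 2]),
    (-4, .PP [1] [0, 2, 1, 2]),
    (-4, .PP [1] [0, 2, 2, 1]),
    (-1, .PP [1] [2, 0, 1, 2]),
    (1, .PP [1] [2, 1, 0, 2]),
    (6, .PP [1] [2, 2, 0, 0]),
    (-1, .PP [1] [2, 0, 2, 1]),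
    (1, .Mrg 0 1 [0, 2, 0, 2, 2]),
    (-1, .Nt 2 [0, 1] 0 [(0, 3)]),
    (-3, .PP [2] [0, 0, 1, 2]),
    (-3, .PP [0] [2, 2, 0, 1]),
    (6, .PP [2, 2] [0, 0, 1]),
    (-2, .PP [0] [2, 1, 0, 1]),
    (-3, .PP [2] [2, 0, 0, 1]),
    (-3, .PP [2] [0, 2, 0, 1]),
    (-2, .PP [1] [0, 1, 2, 2]),
    (1, .Nt 0 [1, 2] 0 [(1, 3)]),
    (6, .Mrg 0 1 [0, 0, 2, 2, 2]),
    (1, .Nt 2 [0, 1] 0 [(0, 0), (1, 2)])])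

theorem c5e45_ok : checkCert5 Fin.val c5e45.1 c5e45.2.1 c5e45.2.2 = true := by
  decide +kernel

/-- A certificate. -/
def c5e46 : ℤ × List (Fin 6) × List (ℤ × Code5 (Fin 6)) :=
  (2, [0, 1, 2, 2, 4], [
    (2, .PP [0, 1] [2, 2, 4]),
    (4, .PP [2] [0, 1, 2, 4]),
    (12, .PP [4] [2, 2, 0, 1]),
    (-16, .PP [4] [0, 2, 2, 1]),
    (-14, .PP [4] [0, 2, 1, 2]),
    (-4, .PP [2] [0, 2, 4, 1]),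
    (-14, .PP [2] [2, 0, 1, 4]),
    (8, .PP [2, 2] [0, 1, 4]),
    (-16, .PP [4] [0, 1, 2, 2]),
    (-8, .PP [2] [2, 4, 0, 1]),
    (-16, .PP [2] [2, 0, 4, 1]),
    (8, .PP [2] [4, 0, 1, 2]),
    (8, .PP [2] [0, 4, 1, 2]),
    (8, .PP [2] [4, 0, 2, 1]),
    (6, .PP [2] [0, 4, 2, 1]),
    (-4, .PP [2] [4, 2, 0, 1]),
    (-2, .Nt 4 [0, 1, 2] 0 [(0, 1), (2, 0), (2, 0)]),
    (12, .Mrg 0 1 [0, 0, 4, 2, 2]),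
    (-4, .PP [1] [0, 4, 2, 2]),
    (-6, .Mrg 0 4 [0, 0, 0, 1, 2]),
    (-28, .PP [1] [0, 0, 4, 2]),
    (-36, .PP [0, 0] [1, 2, 4]),
    (60, .PP [1] [0, 0, 2, 4]),
    (36, .PP [0] [0, 4, 2, 1]),
    (38, .PP [0] [1, 2, 0, 4]),
    (32, .PP [0] [4, 0, 2, 1]),
    (6, .PP [0] [4, 1, 0, 2]),
    (-36, .PP [0] [4, 2, 0, 1]),
    (-36, .PP [0] [4, 2, 1, 0]),
    (-24, .PP [1] [4, 0, 0, 2]),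
    (-22, .PP [1] [0, 4, 0, 2]),
    (22, .PP [0] [0, 1, 4, 2]),
    (22, .PP [0] [1, 0, 4, 2]),
    (72, .PP [1] [4, 2, 0, 0]),
    (-48, .PP [4] [1, 2, 0, 0]),
    (46, .PP [0] [1, 2, 4, 0]),
    (-46, .PP [4] [0, 0, 2, 1]),
    (6, .Mrg 0 2 [0, 0, 0, 1, 4]),
    (6, .PP [4] [0, 0, 1, 2]),
    (-6, .PP [2] [0, 0, 1, 4]),
    (-8, .PP [0] [0, 2, 4, 1]),
    (14, .PP [0] [0, 4, 1, 2]),
    (-8, .PP [0] [2, 0, 4, 1]),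
    (8, .PP [0] [2, 4, 0, 1]),
    (8, .PP [0] [2, 4, 1, 0]),
    (6, .PP [0] [4, 0, 1, 2]),
    (-14, .PP [0] [4, 1, 2, 0]),
    (-2, .PP [2] [0, 0, 4, 1]),
    (10, .PP [1] [0, 2, 0, 4]),
    (-10, .PP [0] [0, 1, 2, 4]),
    (-10, .PP [0] [1, 0, 2, 4]),
    (-16, .PP [1] [2, 4, 0, 0]),
    (6, .PP [2] [0, 1, 4, 2]),
    (8, .PP [2] [1, 4, 0, 0]),
    (-10, .PP [0] [1, 4, 2, 0]),
    (2, .Mrg 1 4 [0, 1, 0, 2, 1]),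
    (-2, .PP [0, 1] [0, 2, 4]),
    (2, .PP [4] [0, 2, 0, 1]),
    (-12, .PP [0, 0] [1, 4, 2]),
    (14, .PP [0] [1, 4, 0, 2]),
    (10, .Mrg 0 2 [0, 0, 0, 4, 1]),
    (-2, .Mrg 0 1 [0, 0, 2, 0, 4]),
    (-4, .PP [1, 1] [0, 4, 2]),
    (2, .PP [1] [0, 1, 4, 2]),
    (8, .PP [1] [1, 0, 2, 4]),
    (-2, .PP [1] [4, 0, 2, 1]),
    (-2, .PP [0, 4] [0, 2, 1]),
    (-2, .PP [1, 4] [0, 2, 1]),
    (4, .PP [4] [0, 1, 2, 1]),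
    (4, .PP [4] [0, 1, 1, 2]),
    (8, .PP [1] [1, 0, 4, 2]),
    (-4, .Mrg 1 4 [0, 0, 1, 1, 2]),
    (8, .PP [2, 2] [0, 4, 1]),
    (2, .Mrg 0 2 [0, 1, 1, 0, 4]),
    (-2, .PP [2] [1, 1, 0, 4]),
    (2, .PP [2] [0, 1, 4, 1]),
    (2, .PP [2] [0, 1, 1, 4]),
    (2, .PP [1] [1, 2, 0, 4]),
    (-4, .Mrg 0 1 [0, 0, 0, 4, 2]),
    (2, .Mrg 0 2 [0, 1, 0, 1, 4]),
    (-2, .PP [1] [2, 0, 1, 4]),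
    (2, .Mrg 0 2 [0, 0, 1, 1, 4]),
    (-2, .Mrg 0 4 [0, 0, 2, 0, 1]),
    (2, .PP [1] [0, 1, 2, 4]),
    (-4, .Mrg 0 1 [0, 0, 0, 2, 4]),
    (-2, .Mrg 0 4 [0, 0, 0, 2, 1]),
    (2, .PP [4] [0, 2, 4, 1]),
    (-2, .Mrg 1 2 [0, 1, 0, 4, 1]),
    (2, .PP [0, 1] [0, 4, 2]),
    (2, .PP [0, 2] [0, 4, 1]),
    (-2, .PP [2] [0, 4, 0, 1]),
    (2, .Mrg 0 2 [0, 0, 4, 0, 1]),
    (-2, .Mrg 0 1 [0, 0, 4, 0, 2]),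
    (-4, .PP [1, 1] [0, 2, 4]),
    (-6, .PP [4] [1, 1, 0, 2]),
    (4, .PP [1] [1, 4, 0, 2]),
    (4, .PP [4] [0, 2, 1, 1]),
    (-2, .PP [1, 4] [0, 1, 2]),
    (-2, .PP [1, 2] [0, 4, 1]),
    (2, .Mrg 0 1 [0, 2, 0, 4, 2]),
    (-2, .PP [2] [0, 2, 1, 4]),
    (-2, .PP [0, 2] [1, 4, 2]),
    (4, .PP [1] [0, 2, 4, 2]),
    (4, .PP [1] [4, 0, 2, 2]),
    (-2, .PP [1, 2] [0, 4, 2]),
    (2, .Mrg 0 4 [0, 1, 1, 0, 2]),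
    (-4, .Mrg 0 4 [0, 1, 0, 2, 2]),
    (-2, .Mrg 0 4 [0, 1, 2, 0, 2]),
    (-2, .PP [1] [4, 0, 1, 2]),
    (2, .PP [1] [4, 1, 0, 2]),
    (4, .Mrg 1 2 [0, 0, 1, 1, 4]),
    (2, .PP [1] [0, 4, 1, 2]),
    (4, .Mrg 0 1 [0, 0, 2, 4, 2]),
    (-2, .Mrg 0 4 [0, 0, 2, 1, 2]),
    (2, .Mrg 0 1 [0, 2, 0, 2, 4]),
    (-2, .PP [0, 2] [1, 2, 4]),
    (4, .PP [1] [0, 2, 2, 4]),
    (-2, .PP [1, 2] [0, 2, 4]),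
    (2, .PP [4] [1, 2, 0, 2]),
    (4, .Mrg 0 1 [0, 0, 2, 2, 4]),
    (2, .Nt 2 [0, 1, 4] 0 [(0, 0), (4, 0), (4, 1)]),
    (-2, .PP [0] [2, 4, 1, 4]),
    (-4, .PP [0] [2, 4, 4, 1]),
    (2, .Nt 4 [0, 1, 2] 0 [(0, 0), (0, 0), (1, 1)]),
    (4, .Nt 4 [0, 1, 2] 0 [(0, 0), (0, 1), (1, 0)]),
    (-4, .PP [0] [0, 2, 1, 4]),
    (-4, .PP [0] [2, 0, 1, 4]),
    (-4, .PP [0] [2, 1, 0, 4]),
    (4, .PP [0] [2, 1, 4, 0]),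
    (8, .PP [1] [2, 0, 0, 4]),
    (-6, .Mrg 0 2 [0, 0, 1, 4, 4]),
    (-4, .PP [4, 4] [0, 1, 2]),
    (4, .PP [2] [0, 1, 4, 4]),
    (6, .PP [4] [0, 4, 1, 2]),
    (4, .PP [4] [4, 0, 1, 2]),
    (1, .Nt 2 [0, 1, 4] 0 [(0, 1), (4, 0), (4, 0)]),
    (-2, .PP [2] [0, 4, 1, 4]),
    (2, .PP [2] [4, 4, 0, 1]),
    (-2, .PP [2] [0, 4, 4, 1]),
    (-2, .PP [4] [2, 4, 0, 1]),
    (2, .PP [4] [0, 4, 2, 1]),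
    (-2, .Mrg 0 1 [0, 0, 2, 4, 4]),
    (2, .PP [1] [0, 2, 4, 4])])

theorem c5e46_ok : checkCert5 Fin.val c5e46.1 c5e46.2.1 c5e46.2.2 = true := by
  decide +kernel

/-- A certificate. -/
def c5e47 : ℤ × List (Fin 6) × List (ℤ × Code5 (Fin 6)) :=
  (1, [0, 1, 2, 3, 0], [
    (15, .PP [0] [1, 2, 3, 0]),
    (-3, .PP [0] [1, 0, 2, 3]),
    (13, .PP [0] [1, 2, 0, 3]),
    (18, .PP [1] [0, 0, 2, 3]),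
    (1, .PP [0, 1] [0, 3, 2]),
    (5, .PP [0] [3, 0, 1, 2]),
    (13, .PP [0] [3, 0, 2, 1]),
    (-13, .PP [0] [3, 2, 0, 1]),
    (-4, .PP [0, 0] [1, 3, 2]),
    (5, .PP [0] [0, 3, 1, 2]),
    (-12, .PP [0, 0] [1, 2, 3]),
    (13, .PP [0] [0, 3, 2, 1]),
    (4, .PP [0] [1, 3, 0, 2]),
    (5, .PP [0] [3, 1, 0, 2]),
    (-5, .PP [0] [3, 1, 2, 0]),
    (-13, .PP [0] [3, 2, 1, 0]),
    (-10, .PP [1] [3, 0, 0, 2]),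
    (-10, .PP [1] [0, 3, 0, 2]),
    (10, .PP [0] [0, 1, 3, 2]),
    (10, .PP [0] [1, 0, 3, 2]),
    (26, .PP [1] [3, 2, 0, 0]),
    (-16, .PP [3] [1, 2, 0, 0]),
    (-16, .PP [3] [0, 0, 2, 1]),
    (1, .Mrg 1 3 [0, 0, 1, 1, 2]),
    (3, .PP [2] [0, 0, 3, 1]),
    (-6, .PP [0] [1, 3, 2, 0]),
    (-1, .PP [2] [0, 3, 0, 1]),
    (3, .Mrg 0 2 [0, 0, 0, 3, 1]),
    (1, .PP [2, 2] [0, 3, 1]),
    (-1, .PP [2] [2, 0, 3, 1]),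
    (1, .Mrg 0 2 [0, 0, 3, 0, 1]),
    (4, .PP [0] [2, 3, 0, 1]),
    (-1, .PP [3] [0, 1, 2, 2]),
    (-1, .PP [3] [0, 2, 2, 1]),
    (-1, .PP [2] [2, 0, 1, 3]),
    (6, .PP [2] [1, 3, 0, 0]),
    (-8, .PP [1] [2, 3, 0, 0]),
    (-4, .PP [0] [0, 2, 3, 1]),
    (-4, .PP [0] [2, 0, 3, 1]),
    (4, .PP [0] [2, 3, 1, 0]),
    (1, .Mrg 0 2 [0, 0, 1, 0, 3]),
    (-1, .PP [2] [0, 1, 0, 3]),
    (-1, .PP [1] [2, 2, 0, 3]),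
    (2, .PP [1] [0, 2, 2, 3]),
    (2, .PP [1] [0, 2, 3, 2]),
    (1, .PP [2] [1, 2, 0, 3]),
    (-2, .PP [2] [0, 2, 1, 3]),
    (1, .Mrg 0 1 [0, 0, 3, 2, 2]),
    (-1, .Mrg 0 1 [0, 2, 2, 0, 3]),
    (-1, .PP [0, 2] [1, 3, 2]),
    (1, .PP [1] [3, 0, 2, 2]),
    (2, .PP [1] [0, 3, 2, 2]),
    (-1, .PP [1, 2] [0, 3, 2]),
    (1, .PP [1, 3] [0, 2, 2]),
    (4, .Mrg 0 2 [0, 0, 0, 1, 3]),
    (-4, .PP [2] [0, 0, 1, 3]),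
    (-1, .Mrg 0 3 [0, 0, 0, 1, 2]),
    (1, .PP [3] [0, 0, 1, 2]),
    (-1, .PP [0] [0, 2, 1, 3]),
    (-1, .PP [0] [2, 0, 1, 3]),
    (-1, .PP [0] [2, 1, 0, 3]),
    (1, .PP [0] [2, 1, 3, 0]),
    (2, .PP [1] [2, 0, 0, 3]),
    (2, .PP [1] [0, 2, 0, 3]),
    (-2, .PP [0] [0, 1, 2, 3]),
    (-2, .PP [2] [0, 2, 3, 1]),
    (1, .PP [2] [0, 1, 2, 3]),
    (-1, .Mrg 0 3 [0, 1, 2, 0, 2]),
    (1, .PP [2] [0, 1, 3, 2]),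
    (-1, .PP [0, 1] [2, 2, 3]),
    (-1, .Mrg 0 3 [0, 1, 0, 2, 2]),
    (-16, .PP [1] [0, 0, 3, 2]),
    (-1, .Mrg 0 3 [0, 0, 2, 1, 2]),
    (1, .Mrg 0 1 [0, 0, 2, 3, 2]),
    (-1, .PP [0, 2] [1, 2, 3]),
    (-1, .PP [1, 2] [0, 2, 3]),
    (1, .PP [3] [1, 2, 0, 2]),
    (1, .Mrg 0 1 [0, 0, 2, 2, 3]),
    (-1, .PP [2] [0, 3, 2, 1]),
    (-1, .Mrg 0 2 [0, 0, 1, 3, 3]),
    (-1, .PP [3, 3] [0, 1, 2]),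
    (1, .PP [2] [0, 1, 3, 3]),
    (1, .PP [3] [0, 3, 1, 2]),
    (1, .PP [3] [3, 0, 1, 2])])

theorem c5e47_ok : checkCert5 Fin.val c5e47.1 c5e47.2.1 c5e47.2.2 = true := by
  decide +kernel

/-- A certificate. -/
def c5e48 : ℤ × List (Fin 6) × List (ℤ × Code5 (Fin 6)) :=
  (1, [0, 1, 2, 3, 1], [
    (-4, .PP [1] [0, 1, 2, 3]),
    (-4, .PP [2] [0, 1, 3, 1]),
    (-1, .PP [1] [0, 2, 3, 1]),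
    (-10, .PP [3] [0, 1, 1, 2]),
    (-4, .PP [2] [0, 1, 1, 3]),
    (-10, .PP [3] [0, 2, 1, 1]),
    (-4, .Mrg 0 2 [0, 0, 1, 1, 3]),
    (-2, .PP [1] [0, 1, 3, 2]),
    (-1, .Nt 3 [0, 1, 2] 0 [(0, 0), (1, 0), (1, 1)]),
    (1, .PP [0] [3, 1, 2, 1]),
    (2, .PP [2] [0, 3, 1, 1]),
    (1, .Mrg 0 2 [0, 0, 1, 3, 1]),
    (2, .PP [0] [3, 1, 1, 2]),
    (1, .PP [1] [0, 3, 2, 1]),
    (2, .Mrg 1 2 [0, 1, 0, 3, 1]),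
    (-2, .PP [0, 1] [0, 3, 2]),
    (-24, .PP [1] [0, 0, 2, 3]),
    (-8, .PP [1] [0, 0, 3, 2]),
    (-10, .PP [0] [1, 3, 0, 2]),
    (8, .PP [0] [3, 1, 0, 2]),
    (-2, .PP [0, 2] [0, 3, 1]),
    (8, .PP [2] [1, 3, 0, 0]),
    (-8, .PP [1] [2, 3, 0, 0]),
    (-4, .PP [0] [0, 2, 3, 1]),
    (-4, .PP [0] [2, 0, 3, 1]),
    (4, .PP [0] [2, 3, 1, 0]),
    (8, .PP [1] [3, 0, 0, 2]),
    (2, .PP [1] [0, 3, 0, 2]),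
    (-2, .PP [0] [0, 1, 3, 2]),
    (-2, .PP [0] [1, 0, 3, 2]),
    (-2, .PP [0] [1, 3, 2, 0]),
    (4, .PP [0] [2, 3, 0, 1]),
    (2, .PP [2] [0, 3, 0, 1]),
    (2, .PP [3] [0, 1, 2, 2]),
    (-2, .PP [3] [2, 2, 0, 1]),
    (2, .PP [3] [0, 2, 2, 1]),
    (2, .PP [3] [0, 2, 1, 2]),
    (8, .PP [2] [0, 2, 3, 1]),
    (2, .PP [2] [2, 0, 1, 3]),
    (-8, .PP [2, 2] [0, 3, 1]),
    (10, .PP [2] [2, 0, 3, 1]),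
    (-2, .PP [2] [3, 0, 1, 2]),
    (-2, .PP [2] [0, 3, 1, 2]),
    (-2, .Mrg 0 2 [0, 0, 3, 0, 1]),
    (8, .Mrg 0 1 [0, 0, 0, 3, 2]),
    (-16, .PP [1] [1, 0, 3, 2]),
    (6, .Mrg 0 1 [0, 0, 3, 0, 2]),
    (10, .PP [1, 1] [0, 2, 3]),
    (14, .PP [3] [1, 1, 0, 2]),
    (-18, .PP [1] [1, 0, 2, 3]),
    (-10, .PP [1] [1, 3, 0, 2]),
    (-10, .Mrg 0 2 [0, 0, 0, 3, 1]),
    (4, .PP [1, 3] [0, 1, 2]),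
    (4, .PP [0, 0] [1, 3, 2]),
    (8, .PP [0, 0] [1, 2, 3]),
    (-12, .PP [0] [1, 2, 0, 3]),
    (16, .PP [3] [1, 2, 0, 0]),
    (-12, .PP [0] [1, 2, 3, 0]),
    (8, .PP [3] [0, 0, 2, 1]),
    (-10, .Mrg 0 1 [0, 0, 3, 2, 2]),
    (10, .PP [1] [0, 3, 2, 2]),
    (-2, .PP [0] [3, 2, 1, 2]),
    (-4, .PP [3] [0, 0, 1, 2]),
    (-8, .PP [0] [0, 3, 1, 2]),
    (8, .PP [0] [3, 0, 1, 2]),
    (8, .PP [0] [3, 1, 2, 0]),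
    (-4, .PP [1] [0, 2, 0, 3]),
    (4, .PP [0] [0, 1, 2, 3]),
    (4, .PP [0] [1, 0, 2, 3]),
    (4, .Mrg 0 3 [0, 0, 0, 1, 2]),
    (18, .PP [2] [0, 0, 3, 1]),
    (-4, .Mrg 0 3 [0, 1, 1, 0, 2]),
    (-4, .PP [0] [3, 2, 2, 1]),
    (8, .Mrg 0 1 [0, 0, 0, 2, 3]),
    (6, .PP [1] [3, 0, 1, 2]),
    (-4, .PP [1] [3, 1, 0, 2]),
    (-4, .Mrg 1 2 [0, 0, 1, 1, 3]),
    (8, .Mrg 0 3 [0, 0, 0, 2, 1]),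
    (2, .Nt 3 [0, 1, 2] 0 [(0, 0), (2, 0), (2, 1)]),
    (-4, .Mrg 1 3 [0, 1, 0, 2, 1]),
    (4, .PP [0, 1] [0, 2, 3]),
    (-4, .PP [3] [0, 2, 0, 1]),
    (4, .Mrg 0 1 [0, 0, 2, 0, 3]),
    (6, .PP [1, 1] [0, 3, 2]),
    (4, .PP [0, 3] [0, 2, 1]),
    (4, .PP [1, 3] [0, 2, 1]),
    (8, .Mrg 1 3 [0, 0, 1, 1, 2]),
    (-4, .Mrg 0 2 [0, 1, 1, 0, 3]),
    (4, .PP [2] [1, 1, 0, 3]),
    (-4, .PP [1] [1, 2, 0, 3]),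
    (4, .Mrg 0 3 [0, 0, 2, 0, 1]),
    (5, .PP [1, 2] [0, 3, 1]),
    (-5, .PP [1] [0, 3, 1, 2]),
    (-1, .Nt 3 [0, 1, 2] 0 [(0, 1), (1, 0), (1, 0)]),
    (-12, .PP [0] [0, 3, 2, 1]),
    (12, .PP [0] [3, 2, 0, 1]),
    (12, .PP [0] [3, 2, 1, 0]),
    (-24, .PP [1] [3, 2, 0, 0]),
    (-4, .PP [0] [3, 0, 2, 1]),
    (-10, .PP [3] [0, 1, 2, 1]),
    (-4, .Mrg 0 2 [0, 1, 0, 1, 3]),
    (4, .PP [1] [2, 0, 1, 3]),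
    (1, .Mrg 0 2 [0, 1, 0, 3, 1]),
    (-1, .PP [1] [2, 0, 3, 1]),
    (6, .PP [1] [3, 0, 2, 1]),
    (1, .Nt 3 [0, 1, 2] 0 [(0, 1), (2, 0), (2, 0)]),
    (-2, .PP [2, 2] [0, 1, 3]),
    (2, .PP [2] [2, 3, 0, 1]),
    (-2, .PP [2] [3, 0, 2, 1]),
    (-4, .Nt 2 [0, 1, 3] 0 [(0, 0), (3, 0), (3, 1)]),
    (4, .PP [0] [2, 3, 1, 3]),
    (8, .PP [0] [2, 3, 3, 1]),
    (-4, .Nt 3 [0, 1, 2] 0 [(0, 0), (0, 0), (1, 1)]),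
    (-8, .Nt 3 [0, 1, 2] 0 [(0, 0), (0, 1), (1, 0)]),
    (4, .Mrg 0 2 [0, 0, 1, 3, 3]),
    (-4, .PP [3] [0, 3, 1, 2]),
    (8, .Mrg 0 1 [0, 0, 2, 3, 3]),
    (-8, .PP [1] [0, 2, 3, 3]),
    (-4, .PP [3, 3] [0, 2, 1]),
    (4, .PP [3] [0, 2, 1, 3]),
    (-2, .Nt 2 [0, 1, 3] 0 [(0, 1), (3, 0), (3, 0)]),
    (4, .PP [2] [0, 3, 1, 3]),
    (-4, .PP [2] [3, 3, 0, 1]),
    (4, .PP [2] [0, 3, 3, 1]),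
    (4, .PP [3] [2, 3, 0, 1]),
    (-4, .PP [3] [0, 3, 2, 1])])

theorem c5e48_ok : checkCert5 Fin.val c5e48.1 c5e48.2.1 c5e48.2.2 = true := by
  decide +kernel

/-- A certificate. -/
def c5e49 : ℤ × List (Fin 6) × List (ℤ × Code5 (Fin 6)) :=
  (1, [0, 1, 2, 3, 2], [
    (-4, .PP [2] [0, 1, 3, 2]),
    (-2, .PP [0, 1] [2, 2, 3]),
    (12, .PP [3] [0, 1, 2, 2]),
    (10, .PP [2] [2, 0, 1, 3]),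
    (-10, .PP [3] [2, 2, 0, 1]),
    (12, .PP [3] [0, 2, 2, 1]),
    (2, .PP [0] [3, 2, 2, 1]),
    (11, .PP [3] [0, 2, 1, 2]),
    (1, .PP [0] [3, 2, 1, 2]),
    (-4, .PP [2] [0, 2, 3, 1]),
    (-6, .PP [2, 2] [0, 1, 3]),
    (6, .PP [2] [2, 3, 0, 1]),
    (-6, .PP [2] [3, 0, 1, 2]),
    (-6, .PP [2] [0, 3, 1, 2]),
    (-6, .PP [2] [3, 0, 2, 1]),
    (-6, .PP [2] [0, 3, 2, 1]),
    (4, .PP [2] [3, 2, 0, 1]),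
    (-1, .Nt 3 [0, 1, 2] 0 [(0, 0), (2, 0), (2, 1)]),
    (-2, .PP [1] [0, 3, 2, 2]),
    (2, .Mrg 0 3 [0, 0, 0, 1, 2]),
    (16, .PP [1] [0, 0, 3, 2]),
    (4, .PP [0, 0] [1, 2, 3]),
    (-12, .PP [1] [0, 0, 2, 3]),
    (-8, .PP [0] [0, 3, 2, 1]),
    (-4, .PP [0] [1, 2, 0, 3]),
    (-8, .PP [0] [3, 0, 2, 1]),
    (-4, .PP [0] [3, 1, 0, 2]),
    (8, .PP [0] [3, 2, 0, 1]),
    (8, .PP [0] [3, 2, 1, 0]),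
    (8, .PP [1] [3, 0, 0, 2]),
    (8, .PP [1] [0, 3, 0, 2]),
    (-8, .PP [0] [0, 1, 3, 2]),
    (-8, .PP [0] [1, 0, 3, 2]),
    (-16, .PP [1] [3, 2, 0, 0]),
    (8, .PP [3] [1, 2, 0, 0]),
    (-8, .PP [0] [1, 2, 3, 0]),
    (8, .PP [3] [0, 0, 2, 1]),
    (-2, .Mrg 0 2 [0, 0, 0, 1, 3]),
    (-2, .PP [3] [0, 0, 1, 2]),
    (2, .PP [0] [0, 2, 1, 3]),
    (2, .PP [2] [0, 0, 1, 3]),
    (6, .PP [0] [0, 2, 3, 1]),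
    (-4, .PP [0] [0, 3, 1, 2]),
    (2, .PP [0] [2, 0, 1, 3]),
    (6, .PP [0] [2, 0, 3, 1]),
    (2, .PP [0] [2, 1, 0, 3]),
    (-2, .PP [0] [2, 1, 3, 0]),
    (-6, .PP [0] [2, 3, 0, 1]),
    (-6, .PP [0] [2, 3, 1, 0]),
    (-4, .PP [0] [3, 0, 1, 2]),
    (4, .PP [0] [3, 1, 2, 0]),
    (-8, .PP [2] [0, 0, 3, 1]),
    (-4, .PP [1] [2, 0, 0, 3]),
    (-4, .PP [1] [0, 2, 0, 3]),
    (4, .PP [0] [0, 1, 2, 3]),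
    (4, .PP [0] [1, 0, 2, 3]),
    (12, .PP [1] [2, 3, 0, 0]),
    (-2, .PP [2] [0, 1, 2, 3]),
    (-8, .PP [2] [1, 3, 0, 0]),
    (8, .PP [0] [1, 3, 2, 0]),
    (-2, .Mrg 0 1 [0, 0, 3, 2, 2]),
    (1, .Nt 3 [0, 1, 2] 0 [(0, 1), (2, 0), (2, 0)]),
    (6, .PP [2] [2, 0, 3, 1]),
    (-1, .Mrg 0 1 [0, 2, 0, 3, 2]),
    (1, .PP [0, 2] [1, 3, 2]),
    (-2, .PP [1] [0, 2, 3, 2]),
    (-2, .PP [1] [3, 0, 2, 2]),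
    (1, .PP [1, 2] [0, 3, 2]),
    (2, .Mrg 0 3 [0, 1, 0, 2, 2]),
    (1, .Mrg 0 3 [0, 1, 2, 0, 2]),
    (-2, .Mrg 0 1 [0, 0, 2, 3, 2]),
    (1, .Mrg 0 3 [0, 0, 2, 1, 2]),
    (-1, .Mrg 0 1 [0, 2, 0, 2, 3]),
    (1, .PP [0, 2] [1, 2, 3]),
    (-2, .PP [1] [0, 2, 2, 3]),
    (1, .PP [1, 2] [0, 2, 3]),
    (-1, .PP [3] [1, 2, 0, 2]),
    (-2, .Mrg 0 1 [0, 0, 2, 2, 3]),
    (2, .Mrg 0 2 [0, 0, 1, 3, 3]),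
    (2, .PP [3, 3] [0, 1, 2]),
    (-2, .PP [2] [0, 1, 3, 3]),
    (-2, .PP [3] [0, 3, 1, 2]),
    (-2, .PP [3] [3, 0, 1, 2])])

theorem c5e49_ok : checkCert5 Fin.val c5e49.1 c5e49.2.1 c5e49.2.2 = true := by
  decide +kernel

/-- A certificate. -/
def c5e50 : ℤ × List (Fin 6) × List (ℤ × Code5 (Fin 6)) :=
  (2, [0, 1, 2, 3, 3], [
    (2, .PP [0, 1] [2, 3, 3]),
    (-1, .Nt 2 [0, 1, 3] 0 [(0, 1), (3, 0), (3, 0)]),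
    (2, .Mrg 0 1 [0, 0, 2, 3, 3]),
    (-2, .PP [1] [0, 2, 3, 3])])

theorem c5e50_ok : checkCert5 Fin.val c5e50.1 c5e50.2.1 c5e50.2.2 = true := by
  decide +kernel

/-- A certificate. -/
def c5e51 : ℤ × List (Fin 6) × List (ℤ × Code5 (Fin 6)) :=
  (1, [0, 1, 2, 3, 4], [
    (1, .PP [2] [0, 3, 1, 4]),
    (1, .PP [2] [0, 3, 4, 1]),
    (-1, .PP [4] [0, 1, 2, 3]),
    (1, .PP [3] [0, 1, 2, 4]),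
    (1, .PP [3] [0, 4, 1, 2]),
    (1, .Mrg 0 4 [0, 0, 1, 2, 3]),
    (1, .Mrg 0 2 [0, 1, 4, 0, 3]),
    (-1, .PP [1] [0, 3, 4, 2]),
    (-1, .PP [2] [1, 4, 0, 3]),
    (1, .Mrg 0 2 [0, 0, 4, 1, 3]),
    (-1, .Mrg 0 1 [0, 0, 4, 2, 3]),
    (-1, .Mrg 0 1 [0, 0, 4, 3, 2]),
    (-1, .Mrg 0 1 [0, 3, 0, 4, 2]),
    (1, .PP [0, 3] [1, 4, 2]),
    (1, .PP [1, 3] [0, 4, 2]),
    (-1, .Mrg 0 3 [0, 1, 0, 2, 4]),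
    (1, .PP [1] [3, 0, 2, 4]),
    (-1, .PP [1, 3] [0, 2, 4]),
    (1, .Mrg 0 1 [0, 0, 2, 4, 3]),
    (1, .Mrg 0 1 [0, 2, 4, 0, 3]),
    (1, .Mrg 0 1 [0, 2, 0, 4, 3]),
    (-2, .Mrg 0 3 [0, 0, 1, 2, 4]),
    (-1, .Mrg 0 3 [0, 0, 4, 1, 2]),
    (1, .PP [1] [0, 2, 4, 3]),
    (-1, .PP [1, 2] [0, 4, 3]),
    (-1, .PP [2] [0, 4, 1, 3]),
    (-1, .Mrg 0 1 [0, 0, 3, 4, 2]),
    (1, .Mrg 0 2 [0, 1, 0, 3, 4]),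
    (-1, .PP [1] [2, 0, 3, 4]),
    (1, .Mrg 0 1 [0, 0, 3, 2, 4]),
    (1, .Mrg 0 1 [0, 2, 0, 3, 4]),
    (1, .Mrg 0 2 [0, 0, 1, 3, 4]),
    (1, .Mrg 0 1 [0, 0, 2, 3, 4]),
    (-1, .PP [3] [0, 2, 1, 4]),
    (-1, .PP [3] [0, 2, 4, 1])])

theorem c5e51_ok : checkCert5 Fin.val c5e51.1 c5e51.2.1 c5e51.2.2 = true := by
  decide +kernel

/-- The table of certificates. -/
def certTable5 : List (ℤ × List (Fin 6) × List (ℤ × Code5 (Fin 6))) :=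
  [c5e0, c5e1, c5e2, c5e3, c5e4, c5e5, c5e6, c5e7, c5e8, c5e9, c5e10, c5e11, c5e12, c5e13, c5e14, c5e15, c5e16, c5e17, c5e18, c5e19, c5e20, c5e21, c5e22, c5e23, c5e24, c5e25, c5e26, c5e27, c5e28, c5e29, c5e30, c5e31, c5e32, c5e33, c5e34, c5e35, c5e36, c5e37, c5e38, c5e39, c5e40, c5e41, c5e42, c5e43, c5e44, c5e45, c5e46, c5e47, c5e48, c5e49, c5e50, c5e51]

theorem certTable5_ok : ∀ t ∈ certTable5, checkCert5 Fin.val t.1 t.2.1 t.2.2 = true := by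
  intro t ht
  simp only [certTable5, List.mem_cons, List.not_mem_nil, or_false] at ht
  rcases ht with rfl | rfl | rfl | rfl | rfl | rfl | rfl | rfl | rfl | rfl | rfl | rfl | rfl | rfl | rfl | rfl | rfl | rfl | rfl | rfl | rfl | rfl | rfl | rfl | rfl | rfl | rfl | rfl | rfl | rfl | rfl | rfl | rfl | rfl | rfl | rfl | rfl | rfl | rfl | rfl | rfl | rfl | rfl | rfl | rfl | rfl | rfl | rfl | rfl | rfl | rfl | rfl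
  · exact c5e0_ok
  · exact c5e1_ok
  · exact c5e2_ok
  · exact c5e3_ok
  · exact c5e4_ok
  · exact c5e5_ok
  · exact c5e6_ok
  · exact c5e7_ok
  · exact c5e8_ok
  · exact c5e9_ok
  · exact c5e10_ok
  · exact c5e11_ok
  · exact c5e12_ok
  · exact c5e13_ok
  · exact c5e14_ok
  · exact c5e15_ok
  · exact c5e16_ok
  · exact c5e17_ok
  · exact c5e18_ok
  · exact c5e19_ok
  · exact c5e20_ok
  · exact c5e21_ok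
  · exact c5e22_ok
  · exact c5e23_ok
  · exact c5e24_ok
  · exact c5e25_ok
  · exact c5e26_ok
  · exact c5e27_ok
  · exact c5e28_ok
  · exact c5e29_ok
  · exact c5e30_ok
  · exact c5e31_ok
  · exact c5e32_ok
  · exact c5e33_ok
  · exact c5e34_ok
  · exact c5e35_ok
  · exact c5e36_ok
  · exact c5e37_ok
  · exact c5e38_ok
  · exact c5e39_ok
  · exact c5e40_ok
  · exact c5e41_ok
  · exact c5e42_ok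
  · exact c5e43_ok
  · exact c5e44_ok
  · exact c5e45_ok
  · exact c5e46_ok
  · exact c5e47_ok
  · exact c5e48_ok
  · exact c5e49_ok
  · exact c5e50_ok
  · exact c5e51_ok

end Vale.Agent.Lib.P329
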